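import Vale.Agent.P183AL.Homog

/-!
Stabilisers of sets and of equivalence relations in the symmetric group.
-/

namespace Vale.Agent.P183AL

open Equiv Equiv.Perm Subgroup Vale.Agent.P240.H195

variable {α : Type*}

/-- the stabiliser of a set -/
def stabS (U : Set α) : Subgroup (Perm α) where
  carrier := {g | ∀ x, g x ∈ U ↔ x ∈ U}
  one_mem' _ := Iff.rfl
  mul_mem' {a b} ha hb x := (ha (b x)).trans (hb x)
  inv_mem' {a} ha x := by simpa using (ha (a⁻¹ x)).symm

theorem mem_stabS {U : Set α} {g : Perm α} : g ∈ stabS U ↔ ∀ x, g x ∈ U ↔ x ∈ U := Iff.rfl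

/-- the stabiliser of a relation -/
def stabR (D : α → α → Prop) : Subgroup (Perm α) where
  carrier := {g | ∀ x y, D (g x) (g y) ↔ D x y}
  one_mem' _ _ := Iff.rfl
  mul_mem' {a b} ha hb x y := (ha (b x) (b y)).trans (hb x y)
  inv_mem' {a} ha x y := by simpa using (ha (a⁻¹ x) (a⁻¹ y)).symm

theorem mem_stabR {D : α → α → Prop} {g : Perm α} :
    g ∈ stabR D ↔ ∀ x y, D (g x) (g y) ↔ D x y := Iff.rfl

/-- the permutations that fix all classes -/
def kerR (D : Setoid α) : Subgroup (Perm α) where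
  carrier := {g | ∀ x, D (g x) x}
  one_mem' x := D.refl' x
  mul_mem' {a b} ha hb x := D.trans' (ha (b x)) (hb x)
  inv_mem' {a} ha x := by simpa using D.symm' (ha (a⁻¹ x))

theorem mem_kerR {D : Setoid α} {g : Perm α} : g ∈ kerR D ↔ ∀ x, D (g x) x := Iff.rfl

theorem kerR_le (D : Setoid α) : kerR D ≤ stabR D := fun _ hg x y =>
  ⟨fun h => D.trans' (D.symm' (hg x)) (D.trans' h (hg y)),
    fun h => D.trans' (hg x) (D.trans' h (D.symm' (hg y)))⟩

theorem kerR_conj {D : Setoid α} {a g : Perm α} (ha : a ∈ stabR D) (hg : g ∈ kerR D) :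
    a * g * a⁻¹ ∈ kerR D := fun x => by
  have := (ha (g (a⁻¹ x)) (a⁻¹ x)).2 (hg _)
  simpa using this

/-- the action on the classes -/
def actR (D : Setoid α) : stabR D →* Perm (Quotient D) where
  toFun g := Quotient.congr (g : Perm α) fun x y => (g.2 x y).symm
  map_one' := by
    ext ⟨x⟩
    rfl
  map_mul' a b := by
    ext ⟨x⟩
    rfl

theorem actR_mk (D : Setoid α) (g : stabR D) (x : α) :
    actR D g (Quotient.mk D x) = Quotient.mk D ((g : Perm α) x) := rfl

theorem actR_eq_one {D : Setoid α} {g : stabR D} : actR D g = 1 ↔ (g : Perm α) ∈ kerR D := by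
  constructor
  · intro h x
    have := congrArg (fun σ : Perm (Quotient D) => σ (Quotient.mk D x)) h
    exact Quotient.exact this
  · intro h
    ext ⟨x⟩
    exact Quotient.sound (h x)

/-- a transitive group -/
def Trans (B : Subgroup (Perm α)) : Prop := ∀ x y, ∃ g ∈ B, g x = y

/-- an equivalence relation that is neither equality nor universal -/
def Nontriv (D : Setoid α) : Prop := (∃ x y, x ≠ y ∧ D x y) ∧ ∃ x y, ¬ D x y

/-- a primitive group -/
def Prim (B : Subgroup (Perm α)) : Prop :=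
  Trans B ∧ ∀ D : Setoid α, B ≤ stabR D → ¬ Nontriv D

theorem Trans.mono {B K : Subgroup (Perm α)} (h : Trans B) (hK : B ≤ K) : Trans K := fun x y =>
  let ⟨g, hg, e⟩ := h x y
  ⟨g, hK hg, e⟩

theorem Prim.mono {B K : Subgroup (Perm α)} (h : Prim B) (hK : B ≤ K) : Prim K :=
  ⟨h.1.mono hK, fun D hD => h.2 D (hK.trans hD)⟩

theorem Trans.mate {B : Subgroup (Perm α)} (h : Trans B) {D : Setoid α} (hD : B ≤ stabR D)
    (hn : ∃ x y, x ≠ y ∧ D x y) (z : α) : ∃ w, w ≠ z ∧ D w z := by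
  obtain ⟨x, y, xy, h1⟩ := hn
  obtain ⟨g, hg, rfl⟩ := h y z
  exact ⟨g x, g.injective.ne xy, (hD hg x y).2 h1⟩

/-- the orbits of a group -/
def orbR (N : Subgroup (Perm α)) : Setoid α where
  r x y := ∃ g ∈ N, g y = x
  iseqv := ⟨fun _ => ⟨1, N.one_mem, rfl⟩,
    fun ⟨g, hg, e⟩ => ⟨g⁻¹, N.inv_mem hg, by simp [← e]⟩,
    fun ⟨g, hg, e⟩ ⟨h, hh, e'⟩ => ⟨g * h, N.mul_mem hg hh, by simp [e, e']⟩⟩

/-- a nontrivial subgroup normalised by a primitive group is transitive -/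
theorem Prim.trans_of_norm {B N : Subgroup (Perm α)} (h : Prim B)
    (hN : ∀ b ∈ B, ∀ n ∈ N, b * n * b⁻¹ ∈ N) (hne : N ≠ ⊥) : Trans N := by
  have h1 : B ≤ stabR (orbR N) := fun b hb x y => by
    constructor
    · rintro ⟨g, hg, e⟩
      refine ⟨b⁻¹ * g * b⁻¹⁻¹, hN _ (B.inv_mem hb) _ hg, ?_⟩
      simp [e]
    · rintro ⟨g, hg, e⟩
      exact ⟨b * g * b⁻¹, hN _ hb _ hg, by simp [e]⟩
  have h2 := h.2 _ h1
  obtain ⟨g, hg, g1⟩ := (Subgroup.bot_or_exists_ne_one N).resolve_left hne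
  obtain ⟨x, hx⟩ : ∃ x, g x ≠ x := by
    by_contra hc
    push Not at hc
    exact g1 (Perm.ext hc)
  intro a b
  by_contra hc
  exact h2 ⟨⟨g x, x, hx, g, hg, rfl⟩, b, a, hc⟩

/-- the stabiliser of a point in a primitive group is maximal -/
theorem Prim.max {B S : Subgroup (Perm α)} (h : Prim B) (x : α) (hS : S ≤ B)
    (hx : ∀ g ∈ B, g x = x → g ∈ S) : (∀ g ∈ S, g x = x) ∨ S = B := by
  let D : Setoid α :=
    { r := fun u v => ∀ a ∈ B, ∀ b ∈ B, a x = u → b x = v → a⁻¹ * b ∈ S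
      iseqv := ⟨fun u a ha b hb e1 e2 => hx _ (B.mul_mem (B.inv_mem ha) hb) (by
          rw [Perm.mul_apply, e2, ← e1]; simp),
        fun k a ha b hb e1 e2 => by simpa using S.inv_mem (k b hb a ha e2 e1),
        fun {u v w} k1 k2 a ha b hb e1 e2 => by
          obtain ⟨c, hc, e⟩ := h.1 x v
          simpa [mul_assoc] using S.mul_mem (k1 a ha c hc e1 e) (k2 c hc b hb e e2)⟩ }
  have h1 : ∀ g ∈ B, ∀ u v, D u v → D (g u) (g v) := fun g hg u v k a ha b hb e1 e2 => by
    have := k (g⁻¹ * a) (B.mul_mem (B.inv_mem hg) ha) (g⁻¹ * b) (B.mul_mem (B.inv_mem hg) hb)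
      (by simp [e1]) (by simp [e2])
    simpa [mul_assoc] using this
  have h2 : B ≤ stabR D := fun g hg u v =>
    ⟨fun k => by simpa using h1 _ (B.inv_mem hg) _ _ k, h1 g hg u v⟩
  by_contra hc
  push Not at hc
  obtain ⟨⟨g, hg, gx⟩, hne⟩ := hc
  obtain ⟨b, hb, hb'⟩ := SetLike.exists_of_lt (lt_of_le_of_ne hS hne)
  refine h.2 D h2 ⟨⟨x, g x, gx.symm, fun a ha c hc e1 e2 => ?_⟩, x, b x, fun k => hb' ?_⟩
  · have k1 := hx a ha e1
    have k2 := hx (g⁻¹ * c) (B.mul_mem (B.inv_mem (hS hg)) hc) (by simp [e2])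
    simpa [mul_assoc] using S.mul_mem (S.mul_mem (S.inv_mem k1) hg) k2
  · simpa using k 1 B.one_mem b hb rfl rfl

variable [DecidableEq α] [Fintype α]

theorem exists_fresh (s : Finset α) (h : s.card < Fintype.card α) : ∃ x, x ∉ s := by
  by_contra hc
  push Not at hc
  have := Finset.card_le_card (fun x _ => hc x : Finset.univ ⊆ s)
  rw [Finset.card_univ] at this
  omega

theorem alt_two (h4 : 4 ≤ Fintype.card α) {x y z w : α} (xy : x ≠ y) (zw : z ≠ w) :
    ∃ g ∈ alternatingGroup α, g x = z ∧ g y = w := by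
  have step : ∀ a b c : α, a ≠ b → a ≠ c → ∃ g ∈ alternatingGroup α, g a = a ∧ g b = c := by
    intro a b c ab ac
    by_cases bc : b = c
    · exact ⟨1, one_mem _, rfl, bc⟩
    obtain ⟨d, hd⟩ := exists_fresh {a, b, c} (lt_of_le_of_lt Finset.card_le_three (by omega))
    simp only [Finset.mem_insert, Finset.mem_singleton, not_or] at hd
    exact ⟨T b c d, (T_three bc (Ne.symm hd.2.2) (Ne.symm hd.2.1)).mem_alternatingGroup,
      T4 ab ac (Ne.symm hd.1), T1 bc (Ne.symm hd.2.2)⟩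
  obtain ⟨a, ha⟩ := exists_fresh {x, z} (lt_of_le_of_lt Finset.card_le_two (by omega))
  simp only [Finset.mem_insert, Finset.mem_singleton, not_or] at ha
  obtain ⟨g, hg, -, g2⟩ := step a x z ha.1 ha.2
  obtain ⟨k, hk, k1, k2⟩ := step z (g y) w (g2 ▸ g.injective.ne xy) zw
  exact ⟨k * g, mul_mem hk hg, by simp [g2, k1], by simp [k2]⟩

theorem alt_not_le_stabS (h4 : 4 ≤ Fintype.card α) {U : Set α} {x y : α} (hx : x ∈ U)
    (hy : y ∉ U) : ¬ alternatingGroup α ≤ stabS U := fun h => by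
  have xy : x ≠ y := fun e => hy (e ▸ hx)
  obtain ⟨g, hg, e, -⟩ := alt_two h4 xy xy.symm
  exact hy (e ▸ (h hg x).2 hx)

theorem alt_not_le_stabR (h4 : 4 ≤ Fintype.card α) {D : α → α → Prop} {x y z w : α} (xy : x ≠ y)
    (zw : z ≠ w) (h1 : D x y) (h2 : ¬ D z w) : ¬ alternatingGroup α ≤ stabR D := fun h => by
  obtain ⟨g, hg, e1, e2⟩ := alt_two h4 xy zw
  exact h2 (e1 ▸ e2 ▸ (h hg x y).2 h1)

theorem Nontriv.not_le (h4 : 4 ≤ Fintype.card α) {D : Setoid α} (h : Nontriv D) :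
    ¬ alternatingGroup α ≤ stabR D := by
  obtain ⟨⟨x, y, xy, h1⟩, z, w, h2⟩ := h
  exact alt_not_le_stabR h4 xy (fun e : z = w => h2 (e ▸ D.refl' z)) h1 h2

omit [DecidableEq α] [Fintype α] in
theorem Prim.mathlib [Nonempty α] {B : Subgroup (Perm α)} (h : Prim B) :
    MulAction.IsPreprimitive B α := by
  have ht : MulAction.IsPretransitive B α := ⟨fun x y =>
    let ⟨g, hg, e⟩ := h.1 x y
    ⟨⟨g, hg⟩, e⟩⟩
  refine { ht with isTrivialBlock_of_isBlock := fun {S} hS => ?_ }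
  by_contra hc
  rw [MulAction.IsTrivialBlock, not_or, Set.not_subsingleton_iff] at hc
  obtain ⟨⟨x, hx, y, hy, xy⟩, h2⟩ := hc
  obtain ⟨z, hz⟩ := (Set.ne_univ_iff_exists_notMem S).1 h2
  have key : ∀ g ∈ B, ∀ u ∈ S, g u ∈ S → ∀ v ∈ S, g v ∈ S := fun g hg u hu hgu v hv => by
    have := hS.smul_eq_of_mem (g := ⟨g, hg⟩) hu hgu
    rw [← this]
    exact ⟨v, hv, rfl⟩
  rcases h.max (S := B ⊓ stabS S) x inf_le_left (fun g hg e => ⟨hg, fun v =>
    ⟨fun k => by
      simpa using key g⁻¹ (B.inv_mem hg) x hx (by rw [Perm.inv_eq_iff_eq.2 e.symm]; exact hx) _ k,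
      key g hg x hx (by rw [e]; exact hx) v⟩⟩) with k | k
  · obtain ⟨g, hg, e⟩ := h.1 x y
    refine xy (e ▸ (k g ⟨hg, fun v => ⟨fun k' => ?_, key g hg x hx (e ▸ hy) v⟩⟩).symm)
    simpa using key g⁻¹ (B.inv_mem hg) y hy (by rw [← e]; simpa using hx) _ k'
  · obtain ⟨g, hg, e⟩ := h.1 x z
    rw [← k] at hg
    exact hz (e ▸ (hg.2 x).2 hx)

theorem Prim.alt_le [Nonempty α] {B : Subgroup (Perm α)} (h : Prim B) {a b c : α}
    (h3 : R3 B a b c) : alternatingGroup α ≤ B :=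
  alternatingGroup_le_of_isPreprimitive_of_isThreeCycle_mem h.mathlib
    (T_three h3.1 h3.2.1 h3.2.2.1) h3.2.2.2

/-- an even permutation that exchanges two classes and fixes the other points -/
theorem exists_swap_blocks {B : Subgroup (Perm α)} (h : Trans B) {D : Setoid α}
    (hD : B ≤ stabR D) (hn : ∃ x y, x ≠ y ∧ D x y) {x y : α} (xy : ¬ D x y) :
    ∃ g ∈ alternatingGroup α, (∀ w, D w x → D (g w) y) ∧ (∀ w, D w y → D (g w) x) ∧
      ∀ w, ¬ D w x → ¬ D w y → g w = w := by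
  classical
  obtain ⟨b, hb, e⟩ := h x y
  have b1 : ∀ w, D w x → D (b w) y := fun w k => e ▸ (hD hb w x).2 k
  have b2 : ∀ w, D w y → D (b⁻¹ w) x := fun w k => by
    have := (hD (B.inv_mem hb) w y).2 k
    rwa [Perm.inv_eq_iff_eq.2 e.symm] at this
  have n1 : ∀ w, D w y → ¬ D w x := fun w k k' => xy (D.trans' (D.symm' k') k)
  let f : α → α := fun w => if D w x then b w else if D w y then b⁻¹ w else w
  have hf : Function.Involutive f := fun w => by
    by_cases k1 : D w x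
    · simp only [f, if_pos k1, if_neg (n1 _ (b1 w k1)), if_pos (b1 w k1)]
      simp
    by_cases k2 : D w y
    · simp only [f, if_neg k1, if_pos k2, if_pos (b2 w k2)]
      simp
    · simp only [f, if_neg k1, if_neg k2]
  let g : Perm α := hf.toPerm f
  have g1 : ∀ w, D w x → D (g w) y := fun w k => by
    show D (f w) y
    simp only [f, if_pos k]
    exact b1 w k
  have g2 : ∀ w, D w y → D (g w) x := fun w k => by
    show D (f w) x
    simp only [f, if_neg (n1 w k), if_pos k]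
    exact b2 w k
  have g3 : ∀ w, ¬ D w x → ¬ D w y → g w = w := fun w k1 k2 => by
    show f w = w
    simp only [f, if_neg k1, if_neg k2]
  rcases Int.units_eq_one_or (Perm.sign g) with s | s
  · exact ⟨g, s, g1, g2, g3⟩
  obtain ⟨u, ux, hu⟩ := h.mate hD hn x
  have sw : ∀ w, D (swap u x w) w := fun w => by
    by_cases k1 : w = u
    · rw [k1, swap_apply_left]; exact D.symm' hu
    by_cases k2 : w = x
    · rw [k2, swap_apply_right]; exact hu
    rw [swap_apply_of_ne_of_ne k1 k2]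
  refine ⟨g * swap u x, by simp [mem_alternatingGroup, s, ux], fun w k => g1 _ (D.trans' (sw w) k),
    fun w k => g2 _ (D.trans' (sw w) k), fun w k1 k2 => ?_⟩
  rw [Perm.mul_apply, swap_apply_of_ne_of_ne, g3 w k1 k2]
  · exact fun e => k1 (e ▸ hu)
  · exact fun e => k1 (e ▸ D.refl' _)

omit [DecidableEq α] [Fintype α] in
/-- such a permutation keeps every coarser relation for which the two classes are related -/
theorem swap_blocks_ker {D D' : Setoid α} (hle : ∀ u v, D u v → D' u v) {x y : α} (xy : D' x y)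
    {g : Perm α} (g1 : ∀ w, D w x → D (g w) y) (g2 : ∀ w, D w y → D (g w) x)
    (g3 : ∀ w, ¬ D w x → ¬ D w y → g w = w) : g ∈ kerR D' := fun w => by
  by_cases k1 : D w x
  · exact D'.trans' (hle _ _ (g1 w k1)) (D'.trans' (D'.symm' xy) (D'.symm' (hle _ _ k1)))
  by_cases k2 : D w y
  · exact D'.trans' (hle _ _ (g2 w k2)) (D'.trans' xy (D'.symm' (hle _ _ k2)))
  rw [g3 w k1 k2]

omit [DecidableEq α] [Fintype α] in
theorem swap_blocks_mk {D : Setoid α} [DecidableEq (Quotient D)] {x y : α}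
    {g : Perm α} (g1 : ∀ w, D w x → D (g w) y) (g2 : ∀ w, D w y → D (g w) x)
    (g3 : ∀ w, ¬ D w x → ¬ D w y → g w = w) (w : α) :
    Quotient.mk D (g w) = swap (Quotient.mk D x) (Quotient.mk D y) (Quotient.mk D w) := by
  by_cases k1 : D w x
  · rw [Quotient.sound k1, swap_apply_left]
    exact Quotient.sound (g1 w k1)
  by_cases k2 : D w y
  · rw [Quotient.sound k2, swap_apply_right]
    exact Quotient.sound (g2 w k2)
  rw [g3 w k1 k2, swap_apply_of_ne_of_ne]
  · exact fun e => k1 (Quotient.exact e)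
  · exact fun e => k2 (Quotient.exact e)

omit [DecidableEq α] [Fintype α] in
theorem swap_blocks_stab {D : Setoid α} {x y : α}
    {g : Perm α} (g1 : ∀ w, D w x → D (g w) y) (g2 : ∀ w, D w y → D (g w) x)
    (g3 : ∀ w, ¬ D w x → ¬ D w y → g w = w) : g ∈ stabR D := fun u v => by
  classical
  rw [← Quotient.eq (r := D), ← Quotient.eq (r := D), swap_blocks_mk g1 g2 g3,
    swap_blocks_mk g1 g2 g3, EmbeddingLike.apply_eq_iff_eq]

/-- every permutation of the classes is induced by an even permutation -/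
theorem exists_lift {B : Subgroup (Perm α)} (h : Trans B) {D : Setoid α}
    (hD : B ≤ stabR D) (hn : ∃ x y, x ≠ y ∧ D x y) (σ : Perm (Quotient D)) :
    ∃ g : stabR D, (g : Perm α) ∈ alternatingGroup α ∧ actR D g = σ := by
  classical
  have : (⊤ : Subgroup (Perm (Quotient D))) ≤
      ((alternatingGroup α).subgroupOf (stabR D)).map (actR D) := by
    rw [← closure_isSwap, closure_le]
    rintro _ ⟨⟨x⟩, ⟨y⟩, xy, rfl⟩
    obtain ⟨g, hg, g1, g2, g3⟩ := exists_swap_blocks h hD hn (x := x) (y := y)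
      fun k => xy (Quotient.sound k)
    refine ⟨⟨g, swap_blocks_stab g1 g2 g3⟩, hg, ?_⟩
    ext ⟨w⟩
    exact swap_blocks_mk g1 g2 g3 w
  obtain ⟨g, hg, e⟩ := this (mem_top σ)
  exact ⟨g, hg, e⟩

end Vale.Agent.P183AL
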