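import Vale.Agent.P183NC.Node

/-!
Transport of configurations along isomorphisms of intervals.
-/

namespace Vale.Agent.P183AL

open Subgroup Vale.Agent.P183A Vale.Agent.P183NK

section
variable {L L' : Type} [Lattice L] [Lattice L']

/-- mutually inverse isomorphisms between the intervals `[o, t]` and `[o', t']` -/
structure Cor (f : L → L') (g : L' → L) (o t : L) (o' t' : L') : Prop where
  fm : ∀ x ∈ Set.Icc o t, f x ∈ Set.Icc o' t'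
  gm : ∀ x ∈ Set.Icc o' t', g x ∈ Set.Icc o t
  fmono : Monotone f
  gmono : Monotone g
  gf : ∀ x ∈ Set.Icc o t, g (f x) = x
  fg : ∀ x ∈ Set.Icc o' t', f (g x) = x

variable {f : L → L'} {g : L' → L} {o t a b : L} {o' t' : L'}

namespace Cor

variable (h : Cor f g o t o' t')
include h

theorem symm : Cor g f o' t' o t := ⟨h.gm, h.fm, h.gmono, h.fmono, h.fg, h.gf⟩

theorem le_iff {x y : L} (hx : x ∈ Set.Icc o t) (hy : y ∈ Set.Icc o t) : f x ≤ f y ↔ x ≤ y :=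
  ⟨fun k => by simpa only [h.gf x hx, h.gf y hy] using h.gmono k, fun k => h.fmono k⟩

theorem lt_iff {x y : L} (hx : x ∈ Set.Icc o t) (hy : y ∈ Set.Icc o t) : f x < f y ↔ x < y := by
  rw [lt_iff_le_not_ge, lt_iff_le_not_ge, h.le_iff hx hy, h.le_iff hy hx]

theorem sub (ha : a ∈ Set.Icc o t) (hb : b ∈ Set.Icc o t) : Cor f g a b (f a) (f b) :=
  ⟨fun _ k => ⟨h.fmono k.1, h.fmono k.2⟩,
    fun _ k => ⟨(h.gf a ha).ge.trans (h.gmono k.1), (h.gmono k.2).trans (h.gf b hb).le⟩,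
    h.fmono, h.gmono, fun x k => h.gf x ⟨ha.1.trans k.1, k.2.trans hb.2⟩,
    fun x k => h.fg x ⟨(h.fm a ha).1.trans k.1, k.2.trans (h.fm b hb).2⟩⟩

theorem nomod (hm : NoMod o t) : NoMod o' t' :=
  hm.of_iso f (fun _ hx _ hy => h.le_iff hx hy) fun K =>
    ⟨fun ⟨x, hx, e⟩ => e ▸ h.fm x hx, fun k => ⟨_, h.gm K k, h.fg K k⟩⟩

theorem bot (hle : o ≤ t) : f o = o' := by
  have k := h.fm o ⟨le_rfl, hle⟩
  have k' : o' ∈ Set.Icc o' t' := ⟨le_rfl, k.1.trans k.2⟩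
  exact le_antisymm ((h.fmono (h.gm _ k').1).trans (h.fg _ k').le) k.1

theorem top (hle : o ≤ t) : f t = t' := by
  have k := h.fm t ⟨hle, le_rfl⟩
  have k' : t' ∈ Set.Icc o' t' := ⟨k.1.trans k.2, le_rfl⟩
  exact le_antisymm k.2 ((h.fg _ k').ge.trans (h.fmono (h.gm _ k').2))

theorem good {m : ℕ} : ∀ {k : ℕ} {a b : L}, a ∈ Set.Icc o t → b ∈ Set.Icc o t → Good m k a b →
    Good m k (f a) (f b)
  | 0, _, _, ha, hb, k => (h.lt_iff ha hb).2 k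
  | _ + 1, a, b, ha, hb, ⟨c, z, h1, h2, h3⟩ => by
    have hz : ∀ i, z i ∈ Set.Icc o t := fun i =>
      ⟨ha.1.trans (h3 i).2.1.lt.le, (h3 i).2.2.lt.le.trans hb.2⟩
    refine ⟨fun u => c (g u), fun i => f (z i), (h.lt_iff ha hb).2 h1,
      fun u v u1 u2 v1 v2 e => ?_, fun i => ⟨by simp only [h.gf _ (hz i), (h3 i).1],
        good ha (hz i) (h3 i).2.1, good (hz i) hb (h3 i).2.2⟩⟩
    have s := h.sub ha hb
    have key : ∀ w, f a < w → w < f b → a < g w ∧ g w < b := fun w w1 w2 => by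
      have k : w ∈ Set.Icc (f a) (f b) := ⟨w1.le, w2.le⟩
      have k1 := (s.symm.lt_iff ⟨le_rfl, k.1.trans k.2⟩ k).2 w1
      have k2 := (s.symm.lt_iff k ⟨k.1.trans k.2, le_rfl⟩).2 w2
      rw [h.gf a ha] at k1
      rw [h.gf b hb] at k2
      exact ⟨k1, k2⟩
    obtain ⟨e1, e2⟩ := h2 _ _ (key u u1 u2).1 (key u u1 u2).2 (key v v1 v2).1 (key v v1 v2).2 e
    refine ⟨le_antisymm ?_ (le_inf u1.le v1.le), le_antisymm (sup_le u2.le v2.le) ?_⟩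
    · rw [← e1, ← s.fg (u ⊓ v) ⟨le_inf u1.le v1.le, inf_le_left.trans u2.le⟩]
      exact h.fmono (h.gmono.map_inf_le _ _)
    · rw [← e2, ← s.fg (u ⊔ v) ⟨u1.le.trans le_sup_left, sup_le u2.le v2.le⟩]
      exact h.fmono (h.gmono.le_map_sup _ _)

theorem hairy (ha : a ≤ t) (hh : Hairy o a t) : Hairy o' (f a) t' := by
  have k0 : a ∈ Set.Icc o t := ⟨hh.1, ha⟩
  have ot := hh.1.trans ha
  refine ⟨(h.fm a k0).1, fun y y1 y2 => ?_⟩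
  have k1 : y ∈ Set.Icc o' t' := ⟨(h.fm a k0).1.trans y1, y2⟩
  have k2 := h.gm y k1
  obtain ⟨n, z, z1, z2, z3⟩ := hh.2 (g y) ((h.gf a k0).ge.trans (h.gmono y1)) k2.2
  have k3 : z ∈ Set.Icc o t := ⟨z1.le, z2.le.trans k2.2⟩
  refine ⟨?_, f z, ?_, ?_, fun u u1 u2 => ?_⟩
  · simpa only [h.bot ot, h.fg y k1] using (h.sub ⟨le_rfl, ot⟩ k2).nomod n
  · simpa only [h.bot ot] using (h.lt_iff ⟨le_rfl, ot⟩ k3).2 z1
  · simpa only [h.fg y k1] using (h.lt_iff k3 k2).2 z2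
  · have k4 : u ∈ Set.Icc o' t' := ⟨(h.fm z k3).1.trans u1, u2⟩
    exact (z3 (g u) ((h.gf z k3).ge.trans (h.gmono u1)) (h.gm u k4).2).imp
      (h.symm.le_iff k4 k1).1 (h.symm.le_iff k1 k4).1

end Cor

end

variable {G Γ : Type} [Group G] [Group Γ] {z H K : Subgroup G}

/-- the image of `K` under a homomorphism defined on `z` -/
def img (ρ : z →* Γ) (K : Subgroup G) : Subgroup Γ := (K.subgroupOf z).map ρ

theorem mem_img {ρ : z →* Γ} {g : Γ} : g ∈ img ρ K ↔ ∃ x : z, (x : G) ∈ K ∧ ρ x = g := Iff.rfl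

theorem img_mono (ρ : z →* Γ) : Monotone (img ρ) := fun _ _ h => map_mono (comap_mono h)

/-- the preimage in `z` -/
def pre (ρ : z →* Γ) (K : Subgroup Γ) : Subgroup G := (K.comap ρ).map z.subtype

theorem mem_pre {ρ : z →* Γ} {K : Subgroup Γ} {x : z} : (x : G) ∈ pre ρ K ↔ ρ x ∈ K :=
  ⟨fun ⟨_, h, e⟩ => Subtype.ext e ▸ h, fun h => ⟨x, h, rfl⟩⟩

theorem pre_le (ρ : z →* Γ) (K : Subgroup Γ) : pre ρ K ≤ z := map_subtype_le _

theorem cor_img (ρ : z →* Γ) (hH : H ≤ z) (hk : ∀ x : z, ρ x = 1 → (x : G) ∈ H) :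
    Cor (img ρ) (pre ρ) H z (img ρ H) (img ρ z) := by
  refine ⟨fun _ k => ⟨img_mono ρ k.1, img_mono ρ k.2⟩, fun K k => ⟨fun x hx =>
    (mem_pre (x := ⟨x, hH hx⟩)).2 (k.1 ⟨_, hx, rfl⟩), pre_le ρ K⟩, img_mono ρ,
    fun _ _ k => map_mono (comap_mono k), fun K k => le_antisymm ?_ fun x hx =>
      (mem_pre (x := ⟨x, k.2 hx⟩)).2 (mem_img.2 ⟨_, hx, rfl⟩), fun K k => le_antisymm ?_ fun x hx => ?_⟩
  · rintro _ ⟨x, ⟨y, hy, e⟩, rfl⟩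
    have := k.1 (hk (y⁻¹ * x) (by rw [map_mul, map_inv, e, inv_mul_cancel]))
    simpa using K.mul_mem hy this
  · rintro _ ⟨x, hx, rfl⟩
    exact mem_pre.1 hx
  · obtain ⟨y, -, rfl⟩ := k.2 hx
    exact ⟨y, mem_pre.2 hx, rfl⟩

theorem nm_img (ρ : z →* Γ) {R : Subgroup G} (h : Nm K R) : Nm (img ρ K) (img ρ R) := by
  rintro _ ⟨x, hx, rfl⟩ _ ⟨y, hy, rfl⟩
  exact ⟨x * y * x⁻¹, h x hx y hy, by simp⟩

theorem EE_img [Finite G] (ρ : z →* Γ) (hK : K ≤ z) (hk : ∀ x : z, ρ x = 1 → (x : G) ∈ H)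
    (hm : NoMod H K) : EE (img ρ H) (img ρ K) = img ρ (EE H K) := by
  have c := cor_img ρ (hm.lt.le.trans hK) hk
  have key : ∀ x : z, ρ x ∈ img ρ H → (x : G) ∈ H := fun x hx =>
    (c.gf H ⟨le_rfl, hm.lt.le.trans hK⟩).le (mem_pre.2 hx)
  refine Sm.eq_EE ⟨img_mono ρ (EE_le hm), nm_img ρ (nm_EE H K), fun k => EE_nle hm fun x hx =>
    key ⟨x, hK (EE_le hm hx)⟩ (k ⟨_, hx, rfl⟩), fun R r1 r2 r3 => ?_⟩
  rintro _ ⟨x, hx, rfl⟩
  refine mem_pre.1 (EE_le_of (R := K ⊓ pre ρ R) inf_le_left ?_ (fun k => r3 fun g hg => ?_) hx).2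
  · rintro u hu _ ⟨hv, v, v1, rfl⟩
    refine ⟨K.mul_mem (K.mul_mem hu hv) (K.inv_mem hu), ⟨u, hK hu⟩ * v * ⟨u, hK hu⟩⁻¹, ?_, rfl⟩
    simpa using r2 _ ⟨⟨u, hK hu⟩, hu, rfl⟩ _ v1
  · obtain ⟨y, hy, rfl⟩ := r1 hg
    exact ⟨y, k ⟨hy, mem_pre.2 hg⟩, rfl⟩

theorem simple_of_img (ρ : z →* Γ) (hK : K ≤ z) (hi : ∀ x : z, (x : G) ∈ K → ρ x = 1 → x = 1)
    (hs : IsSimpleGroup (img ρ K)) : IsSimpleGroup K := by
  let φ : K →* img ρ K := (ρ.comp (inclusion hK)).codRestrict _ fun x => ⟨_, x.2, rfl⟩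
  refine (MulEquiv.ofBijective φ ⟨(injective_iff_map_eq_one φ).2 fun x e =>
    inclusion_injective hK (hi (inclusion hK x) x.2 (congrArg Subtype.val e)), ?_⟩).isSimpleGroup
  rintro ⟨_, x, hx, rfl⟩
  exact ⟨⟨x, hx⟩, rfl⟩

end Vale.Agent.P183AL
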