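import Vale.Agent.P183A.Setup

/-!
Groups in which every normal subgroup is a direct factor: projections, split subgroups, atoms.
-/

namespace Vale.Agent.P183AL

open Subgroup Vale.Agent.P183A

variable {Γ : Type} [Group Γ]

/-- the conjugate `k W k⁻¹` -/
def cnj (k : Γ) (W : Subgroup Γ) : Subgroup Γ where
  carrier := {g | k⁻¹ * g * k ∈ W}
  one_mem' := by simp
  mul_mem' {a b} ha hb := by simpa [mul_assoc] using W.mul_mem ha hb
  inv_mem' {a} ha := by simpa [mul_assoc] using W.inv_mem ha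

variable {E D W W' V A A' L : Subgroup Γ} {k l g : Γ}

theorem mem_cnj : g ∈ cnj k W ↔ k⁻¹ * g * k ∈ W := Iff.rfl

theorem conj_mem_cnj : k * g * k⁻¹ ∈ cnj k W ↔ g ∈ W := by simp [mem_cnj, mul_assoc]

theorem cnj_cnj : cnj k (cnj l W) = cnj (k * l) W := by
  ext g
  simp [mem_cnj, mul_assoc]

theorem cnj_one : cnj 1 W = W := by
  ext g
  simp [mem_cnj]

theorem cnj_inv_cnj : cnj k⁻¹ (cnj k W) = W := by rw [cnj_cnj, inv_mul_cancel, cnj_one]

theorem cnj_cnj_inv : cnj k (cnj k⁻¹ W) = W := by rw [cnj_cnj, mul_inv_cancel, cnj_one]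

theorem cnj_mono (h : W ≤ W') : cnj k W ≤ cnj k W' := fun _ hg => h hg

theorem cnj_inf : cnj k (W ⊓ W') = cnj k W ⊓ cnj k W' := rfl

theorem cnj_bot : cnj k ⊥ = ⊥ := by
  ext g
  simp only [mem_cnj, mem_bot, mul_assoc, inv_mul_eq_one]
  exact ⟨fun h => by simpa using h.symm, fun h => by simp [h]⟩

theorem cnj_ne_bot (h : W ≠ ⊥) : cnj k W ≠ ⊥ := fun e => h (by rw [← cnj_inv_cnj (W := W), e, cnj_bot])

theorem cnj_eq_of_nm (h : Nm L W) (hk : k ∈ L) : cnj k W = W := by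
  ext g
  exact ⟨fun hg => by simpa [mul_assoc] using h k hk _ hg,
    fun hg => by simpa [mem_cnj] using h _ (L.inv_mem hk) _ hg⟩

theorem nm_of_cnj (h : ∀ k ∈ L, cnj k W ≤ W) : Nm L W := fun k hk _ hg =>
  h k hk (conj_mem_cnj.2 hg)

theorem cent_cnj (h : g ∈ centralizer (W : Set Γ)) :
    k * g * k⁻¹ ∈ centralizer (cnj k W : Set Γ) := fun w hw => by
  have := congrArg (fun z => k * z * k⁻¹) (h _ hw)
  simpa [mul_assoc] using this

theorem nm_sSup_of_cnj {S : Set (Subgroup Γ)} (h : ∀ k ∈ L, ∀ W ∈ S, cnj k W ∈ S) :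
    Nm L (sSup S) := fun k hk g hg => by
  have : sSup S ≤ cnj k⁻¹ (sSup S) := sSup_le fun W hW =>
    cnj_inv_cnj.symm.le.trans (cnj_mono (le_sSup (h k hk W hW)))
  simpa [mem_cnj] using this hg

/-- a normal subgroup of `E` -/
def Nl (E W : Subgroup Γ) : Prop := W ≤ E ∧ Nm E W

/-- the centraliser of `W` in `E` -/
def Cz (E W : Subgroup Γ) : Subgroup Γ := E ⊓ centralizer (W : Set Γ)

theorem nl_self : Nl E E := ⟨le_rfl, Nm.of_le le_rfl⟩

theorem Nl.inf (h : Nl E W) (h' : Nl E W') : Nl E (W ⊓ W') := ⟨inf_le_left.trans h.1, h.2.inf h'.2⟩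

theorem Nl.sup (h : Nl E W) (h' : Nl E W') : Nl E (W ⊔ W') := ⟨sup_le h.1 h'.1, h.2.sup h'.2⟩

theorem Nl.cz (h : Nl E W) : Nl E (Cz E W) := ⟨inf_le_left, nl_self.2.inf h.2.centralizer⟩

theorem Nl.cnj (h : Nl E W) (hk : cnj k E = E) : Nl E (cnj k W) := by
  refine ⟨hk ▸ cnj_mono h.1, fun a ha g hg => ?_⟩
  rw [← hk] at ha
  simpa [mem_cnj, mul_assoc] using h.2 _ ha _ hg

theorem Nl.cm (h : Nl E W) (h' : Nl E W') (e : W ⊓ W' = ⊥) : W ≤ centralizer (W' : Set Γ) := by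
  rw [← cm_iff, cm_iff_comm, eq_bot_iff, ← e]
  exact le_inf (h.2.mono h'.1).comm_le_left (h'.2.mono h.1).comm_le_right

/-- `W` is normal in `E` and `D` is the product of its parts in `W` and in the centraliser -/
def Split (E D W : Subgroup Γ) : Prop :=
  Nl E W ∧ ∀ d ∈ D, ∃ w ∈ W, w ∈ D ∧ w⁻¹ * d ∈ centralizer (W : Set Γ)

/-- a minimal split subgroup -/
def Atom (E D A : Subgroup Γ) : Prop := Minimal (fun W => Split E D W ∧ W ≠ ⊥) A

/-- no subgroup of `E` is normalised by `E` and `L`, except the trivial ones -/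
def Mn (L E : Subgroup Γ) : Prop := ∀ W, Nl E W → Nm L W → W = ⊥ ∨ W = E

theorem Nl.split (h : Nl E W) : Split E ⊥ W :=
  ⟨h, fun d hd => ⟨1, W.one_mem, one_mem _, by rw [mem_bot.1 hd]; simp⟩⟩

theorem Split.cnj (h : Split E D W) (hk : cnj k E = E) : Split E (cnj k D) (cnj k W) := by
  refine ⟨h.1.cnj hk, fun d hd => ?_⟩
  obtain ⟨w, h1, h2, h3⟩ := h.2 _ hd
  refine ⟨k * w * k⁻¹, conj_mem_cnj.2 h1, conj_mem_cnj.2 h2, ?_⟩
  simpa [mul_assoc] using cent_cnj (k := k) h3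

theorem Atom.split (h : Atom E D A) : Split E D A := h.1.1

theorem Atom.nl (h : Atom E D A) : Nl E A := h.1.1.1

theorem Atom.ne (h : Atom E D A) : A ≠ ⊥ := h.1.2

theorem Atom.eq (h : Atom E D A) (hW : Split E D W) (hle : W ≤ A) : W = ⊥ ∨ W = A :=
  (eq_or_ne W ⊥).imp_right fun e => le_antisymm hle (h.2 ⟨hW, e⟩ hle)

theorem Atom.cnj (h : Atom E D A) (hk : cnj k E = E) : Atom E (cnj k D) (cnj k A) := by
  refine ⟨⟨h.split.cnj hk, cnj_ne_bot h.ne⟩, fun W hW hle => ?_⟩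
  have h1 := hW.1.cnj (k := k⁻¹) (by rw [← hk, cnj_inv_cnj, hk])
  rw [cnj_inv_cnj] at h1
  have h2 := h.2 ⟨h1, cnj_ne_bot hW.2⟩ ((cnj_mono hle).trans cnj_inv_cnj.le)
  exact (cnj_mono h2).trans cnj_cnj_inv.le

theorem Atom.cnj_bot (h : Atom E ⊥ A) (hk : P183AL.cnj k E = E) : Atom E ⊥ (P183AL.cnj k A) := by
  simpa only [P183AL.cnj_bot] using h.cnj hk

theorem Split.exists_atom [Finite Γ] (h : Split E D W) (hne : W ≠ ⊥) : ∃ A ≤ W, Atom E D A :=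
  exists_minimal_le_of_wellFoundedLT (fun W => Split E D W ∧ W ≠ ⊥) W ⟨h, hne⟩

theorem Atom.le_or (h : Atom E ⊥ A) (hW : Nl E W) : A ≤ W ∨ A ≤ centralizer (W : Set Γ) :=
  ((h.eq (h.nl.inf hW).split inf_le_left).imp (h.nl.cm hW) inf_eq_left.1).symm

/-- in a minimal normal subgroup every normal subgroup has a centralising supplement -/
theorem Mn.le_sup [Finite Γ] (hm : Mn L E) (hL : Nm L E) (hW : Nl E W) : E ≤ W ⊔ Cz E W := by
  by_cases e : E = ⊥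
  · exact e ▸ bot_le
  obtain ⟨A, -, hA⟩ := nl_self.split.exists_atom e
  rcases hm (sSup {A | Atom E ⊥ A}) ⟨sSup_le fun A hA => hA.nl.1, Nm.sSup fun A hA => hA.nl.2⟩
    (nm_sSup_of_cnj fun k hk A hA => hA.cnj_bot (cnj_eq_of_nm hL hk)) with h | h
  · exact absurd (le_bot_iff.1 (h ▸ le_sSup hA)) hA.ne
  · refine h.symm.le.trans (sSup_le fun A hA => ?_)
    exact (hA.le_or hW).elim (fun k => k.trans le_sup_left)
      fun k => (le_inf hA.nl.1 k).trans le_sup_right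

/-- every normal subgroup is a direct factor and the centre is trivial -/
structure Cr (E : Subgroup Γ) : Prop where
  sup : ∀ W, Nl E W → E ≤ W ⊔ Cz E W
  cen : Cz E E = ⊥

open Classical in
/-- the projection to `W` -/
noncomputable def pr (W : Subgroup Γ) (g : Γ) : Γ :=
  if h : ∃ w ∈ W, w⁻¹ * g ∈ centralizer (W : Set Γ) then h.choose else 1

theorem pr_mem (W : Subgroup Γ) (g : Γ) : pr W g ∈ W := by
  unfold pr
  split_ifs with h
  exacts [h.choose_spec.1, W.one_mem]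

namespace Cr

variable (h : Cr E)
include h

theorem dec (hW : Nl E W) (hg : g ∈ E) : ∃ w ∈ W, ∃ c ∈ Cz E W, w * c = g :=
  (hW.cz.2.mono hW.1).mem_sup.1 (h.sup W hW hg)

theorem disj (hW : Nl E W) (h1 : g ∈ W) (h2 : g ∈ centralizer (W : Set Γ)) : g = 1 := by
  rw [← mem_bot, ← h.cen]
  refine ⟨hW.1 h1, fun e he => ?_⟩
  obtain ⟨w, hw, c, hc, rfl⟩ := h.dec hW he
  rw [mul_assoc, ← hc.2 g h1, ← mul_assoc, h2 w hw, mul_assoc]

theorem eq_bot (hW : Nl E W) (h1 : V ≤ W) (h2 : V ≤ centralizer (W : Set Γ)) : V = ⊥ :=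
  eq_bot_iff.2 fun _ hg => h.disj hW (h1 hg) (h2 hg)

theorem pr_eq (hW : Nl E W) {w : Γ} (hw : w ∈ W) (hc : w⁻¹ * g ∈ centralizer (W : Set Γ)) :
    pr W g = w := by
  have k : ∃ w ∈ W, w⁻¹ * g ∈ centralizer (W : Set Γ) := ⟨w, hw, hc⟩
  rw [pr, dif_pos k]
  have := h.disj hW (W.mul_mem (W.inv_mem hw) k.choose_spec.1)
    (by simpa [mul_assoc] using mul_mem hc (inv_mem k.choose_spec.2))
  exact (inv_mul_eq_one.1 this).symm

theorem pr_cent (hW : Nl E W) (hg : g ∈ E) : (pr W g)⁻¹ * g ∈ centralizer (W : Set Γ) := by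
  obtain ⟨w, hw, c, hc, rfl⟩ := h.dec hW hg
  rw [h.pr_eq hW hw (by simpa using hc.2)]
  simpa using hc.2

theorem pr_of_mem (hW : Nl E W) (hg : g ∈ W) : pr W g = g := h.pr_eq hW hg (by simp)

theorem pr_of_cent (hW : Nl E W) (hg : g ∈ centralizer (W : Set Γ)) : pr W g = 1 :=
  h.pr_eq hW W.one_mem (by simpa using hg)

theorem pr_one (hW : Nl E W) : pr W 1 = 1 := h.pr_of_mem hW W.one_mem

theorem cent_of_pr (hW : Nl E W) (hg : g ∈ E) (e : pr W g = 1) :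
    g ∈ centralizer (W : Set Γ) := by
  simpa [e] using h.pr_cent hW hg

theorem pr_mul (hW : Nl E W) {a b : Γ} (ha : a ∈ E) (hb : b ∈ E) :
    pr W (a * b) = pr W a * pr W b := by
  refine h.pr_eq hW (W.mul_mem (pr_mem _ _) (pr_mem _ _)) ?_
  have := mul_mem (h.pr_cent hW ha) (h.pr_cent hW hb)
  rw [← mul_assoc, ← h.pr_cent hW ha _ (W.inv_mem (pr_mem W b))] at this
  simpa [mul_assoc] using this

theorem pr_inv (hW : Nl E W) (hg : g ∈ E) : pr W g⁻¹ = (pr W g)⁻¹ :=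
  eq_inv_of_mul_eq_one_left (by rw [← h.pr_mul hW (E.inv_mem hg) hg, inv_mul_cancel, h.pr_one hW])

theorem pr_conj (hW : Nl E W) (hg : g ∈ E) {w : Γ} (hw : w ∈ W) :
    pr W g * w * (pr W g)⁻¹ = g * w * g⁻¹ := by
  have := h.pr_cent hW hg w hw
  calc _ = pr W g * (w * ((pr W g)⁻¹ * g)) * g⁻¹ := by simp [mul_assoc]
    _ = _ := by rw [this]; simp [mul_assoc]

theorem pr_cnj (hW : Nl E W) (hk : cnj k E = E) (hg : g ∈ E) :
    pr (cnj k W) (k * g * k⁻¹) = k * pr W g * k⁻¹ :=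
  h.pr_eq (hW.cnj hk) (conj_mem_cnj.2 (pr_mem _ _))
    (by simpa [mul_assoc] using cent_cnj (k := k) (h.pr_cent hW hg))

theorem pr_mem_nl (hW : Nl E W) (hV : Nl E V) (hg : g ∈ V) : pr W g ∈ V := by
  have hU := hW.inf hV
  have h1 : W ⊓ Cz E (W ⊓ V) ≤ centralizer (V : Set Γ) := (hW.inf hU.cz).cm hV
    (h.eq_bot hU (fun _ k => ⟨k.1.1, k.2⟩) fun _ k => k.1.2.2)
  have h2 := pr_mem (W ⊓ V) g
  rw [h.pr_eq hW h2.1 fun w hw => ?_]
  · exact h2.2
  obtain ⟨u, hu, c, hc, rfl⟩ := h.dec hU (hW.1 hw)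
  have h3 : c ∈ W := by simpa using W.mul_mem (W.inv_mem hu.1) hw
  rw [mul_assoc, ← h1 ⟨h3, hc⟩ _ (V.mul_mem (V.inv_mem h2.2) hg), ← mul_assoc,
    h.pr_cent hU (hV.1 hg) u hu, mul_assoc]

theorem pr_inf (hW : Nl E W) (hV : Nl E V) (hg : g ∈ E) : pr (W ⊓ V) g = pr W (pr V g) := by
  refine h.pr_eq (hW.inf hV) ⟨pr_mem _ _, h.pr_mem_nl hW hV (pr_mem _ _)⟩ ?_
  have := mul_mem (centralizer_le (s := ((W ⊓ V : Subgroup Γ) : Set Γ)) (fun _ k => k.1)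
    (h.pr_cent hW (hV.1 (pr_mem V g))))
    (centralizer_le (s := ((W ⊓ V : Subgroup Γ) : Set Γ)) (fun _ k => k.2) (h.pr_cent hV hg))
  simpa [mul_assoc] using this

theorem pr_cz (hW : Nl E W) (hg : g ∈ E) : pr (Cz E W) g = (pr W g)⁻¹ * g := by
  refine h.pr_eq hW.cz ⟨E.mul_mem (E.inv_mem (hW.1 (pr_mem _ _))) hg, h.pr_cent hW hg⟩ ?_
  have : ((pr W g)⁻¹ * g)⁻¹ * g = pr W g := by
    rw [inv_mul_eq_iff_eq_mul, ← h.pr_cent hW hg _ (pr_mem W g)]
    simp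
  rw [this]
  exact fun c hc => (hc.2 _ (pr_mem W g)).symm

theorem cz_ne (hW : Nl E W) (hne : W ≠ E) : Cz E W ≠ ⊥ := fun e =>
  hne (le_antisymm hW.1 (by simpa [e] using h.sup W hW))

theorem split_pr (hW : Split E D W) (hg : g ∈ D) : pr W g ∈ D := by
  obtain ⟨w, h1, h2, h3⟩ := hW.2 g hg
  rwa [h.pr_eq hW.1 h1 h3]

theorem split_of (hD : D ≤ E) (hW : Nl E W) (hp : ∀ d ∈ D, pr W d ∈ D) : Split E D W :=
  ⟨hW, fun d hd => ⟨_, pr_mem _ _, hp d hd, h.pr_cent hW (hD hd)⟩⟩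

theorem split_self (hD : D ≤ E) : Split E D E :=
  h.split_of hD nl_self fun d hd => by rwa [h.pr_of_mem nl_self (hD hd)]

theorem split_inf (hD : D ≤ E) (hW : Split E D W) (hV : Split E D V) : Split E D (W ⊓ V) :=
  h.split_of hD (hW.1.inf hV.1) fun d hd => by
    rw [h.pr_inf hW.1 hV.1 (hD hd)]
    exact h.split_pr hW (h.split_pr hV hd)

theorem split_cz (hD : D ≤ E) (hW : Split E D W) : Split E D (Cz E W) :=
  h.split_of hD hW.1.cz fun d hd => by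
    rw [h.pr_cz hW.1 (hD hd)]
    exact D.mul_mem (D.inv_mem (h.split_pr hW hd)) hd

theorem atom_le_or (hD : D ≤ E) (hA : Atom E D A) (hW : Split E D W) :
    A ≤ W ∨ A ≤ centralizer (W : Set Γ) :=
  ((hA.eq (h.split_inf hD hA.split hW) inf_le_left).imp (hA.nl.cm hW.1) inf_eq_left.1).symm

theorem atom_cm (hD : D ≤ E) (hA : Atom E D A) (hA' : Atom E D A') (hne : A ≠ A') :
    A ≤ centralizer (A' : Set Γ) :=
  (h.atom_le_or hD hA hA'.split).resolve_left fun k => (hA'.eq hA.split k).elim hA.ne hne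

theorem exists_atom [Finite Γ] (hD : D ≤ E) (hV : Split E D V) (hg : g ∈ V) (hne : g ≠ 1) :
    ∃ A ≤ V, Atom E D A ∧ g ∉ centralizer (A : Set Γ) := by
  obtain ⟨U, hU, h1⟩ := exists_minimal_le_of_wellFoundedLT (fun U => Split E D U ∧ g ∈ U) V
    ⟨hV, hg⟩
  obtain ⟨A, hA, h2⟩ := h1.1.1.exists_atom fun e => hne (by simpa [e] using h1.1.2)
  refine ⟨A, hA.trans hU, h2, fun k => h2.ne (h.eq_bot h2.nl le_rfl ?_)⟩
  exact hA.trans ((h1.2 ⟨h.split_inf hD h1.1.1 (h.split_cz hD h2.split), h1.1.2, hV.1.1 hg, k⟩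
    inf_le_left).trans (inf_le_right.trans inf_le_right))

theorem atom_trans (hD : D ≤ E) (hm : Mn L E) (hL : Nm L E) (hLD : Nm L D) (hA : Atom E D A)
    (hA' : Atom E D A') : ∃ k ∈ L, cnj k A = A' := by
  by_contra hc
  push Not at hc
  have hS : ∀ U ∈ {U | ∃ k ∈ L, cnj k A = U}, Atom E D U := by
    rintro _ ⟨k, hk, rfl⟩
    simpa only [cnj_eq_of_nm hLD hk] using hA.cnj (cnj_eq_of_nm hL hk)
  rcases hm (sSup {U | ∃ k ∈ L, cnj k A = U})
    ⟨sSup_le fun U hU => (hS U hU).nl.1, Nm.sSup fun U hU => (hS U hU).nl.2⟩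
    (nm_sSup_of_cnj fun k hk U ⟨l, hl, e⟩ => ⟨k * l, L.mul_mem hk hl, by rw [← e, cnj_cnj]⟩)
    with e | e
  · exact hA.ne (le_bot_iff.1 (e ▸ le_sSup ⟨1, L.one_mem, cnj_one⟩))
  · refine hA'.ne (h.eq_bot hA'.nl le_rfl (hA'.nl.1.trans (e ▸ sSup_le ?_)))
    rintro _ ⟨k, hk, rfl⟩
    exact h.atom_cm hD (hS _ ⟨k, hk, rfl⟩) hA' (hc k hk)

/-- if all simple factors are split, so are all normal subgroups -/
theorem split_all [Finite Γ] (hD : D ≤ E) (hs : ∀ T, Atom E ⊥ T → Split E D T) (hW : Nl E W) :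
    Split E D W := by
  induction W using WellFoundedLT.induction with
  | ind W ih =>
  by_cases e : W = ⊥
  · exact h.split_of hD hW fun d _ => by
      rw [mem_bot.1 (e ▸ pr_mem W d : pr W d ∈ (⊥ : Subgroup Γ))]
      exact D.one_mem
  obtain ⟨T, h1, hT⟩ := hW.split.exists_atom e
  have h2 := ih (Cz E T ⊓ W) (lt_of_le_of_ne inf_le_right fun k => hT.ne
    (h.eq_bot hT.nl le_rfl (h1.trans ((inf_eq_right.1 k).trans inf_le_right)))) (hT.nl.cz.inf hW)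
  refine h.split_of hD hW fun d hd => ?_
  have h3 := h.split_pr h2 hd
  have h4 := h.split_pr (hs T hT) hd
  rw [h.pr_inf hT.nl.cz hW (hD hd), h.pr_cz hT.nl (hW.1 (pr_mem _ _))] at h3
  rw [← inf_eq_left.2 h1, h.pr_inf hT.nl hW (hD hd)] at h4
  simpa using D.mul_mem h4 h3

end Cr

end Vale.Agent.P183AL
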