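import Vale.Agent.P183AL.Multi
import Vale.Agent.P183NC.Node

/-!
The width step inside a symmetric group.
-/

namespace Vale.Agent.P183AL

open Equiv Equiv.Perm Subgroup Vale.Agent.P183A Vale.Agent.P183NK

theorem simple_of_atom {Γ : Type} [Group Γ] {E : Subgroup Γ} (h : Atom E ⊥ E) :
    IsSimpleGroup E := by
  have := (nontrivial_iff_ne_bot E).2 h.ne
  refine ⟨fun N hN => (h.eq (W := N.map E.subtype) (Nl.split ⟨map_subtype_le _, ?_⟩)
    (map_subtype_le _)).imp (fun e => ?_) fun e => ?_⟩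
  · rintro a ha _ ⟨n, hn, rfl⟩
    exact ⟨_, hN.conj_mem n hn ⟨a, ha⟩, rfl⟩
  · exact (map_eq_bot_iff_of_injective _ E.subtype_injective).1 e
  · refine eq_top_iff.2 fun x _ => ?_
    obtain ⟨y, hy, k⟩ : (x : Γ) ∈ N.map E.subtype := e.symm ▸ x.2
    exact Subtype.ext k ▸ hy

variable {α : Type} [DecidableEq α] [Fintype α] {G H B X a : Subgroup (Perm α)} {m k : ℕ}

/-- a region of primitive nodes without cores -/
structure Rg (G H B : Subgroup (Perm α)) : Prop where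
  big : 4 ≤ Fintype.card α
  alt : alternatingGroup α ≤ G
  hairy : Hairy H B G
  prim : Prim B
  free : ∀ X, B ≤ X → X < G → ∀ N ≤ H, Nm X N → N = ⊥

theorem Rg.up (h : Rg G H B) (ha : B ≤ a) : Rg G H a :=
  ⟨h.big, h.alt, h.hairy.up ha, h.prim.mono ha, fun X k => h.free X (ha.trans k)⟩

theorem Rg.nd (h : Rg G H B) (h1 : B ≤ X) (h2 : X < G) : Nd X (EE H X) := by
  have hm := h.hairy.nomod h1 h2.le
  refine ⟨by have := h.big; omega, h.prim.mono h1, EE_le hm, nm_EE H X, EE_ne_bot hm,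
    fun W k1 k2 => (le_or_EE_le hm k1 k2).imp_left fun k => h.free X h1 h2 W k k2, EE_perfect hm,
    fun g hg k => h.hairy.le_of_nm h1 h2.le (R := G ⊓ normalizer (EE H X : Set (Perm α)))
      inf_le_left (nm_iff.2 inf_le_right) ⟨h.alt hg, mem_normalizer_fintype k⟩⟩

theorem Rg.pos (h : Rg G H B) (hm : 2 ≤ m) (h1 : Good m (k + 1) B X) (h2 : X < G) :
    X ≤ B ⊔ EE H X ∧ EE H B ≤ EE H X ∧ ∀ W, Nl (EE H X) W → Split (EE H X) (EE H B) W := by
  have h3 := h1.lt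
  have n1 := h.hairy.nomod h3.le h2.le
  have n2 := EE_mono (h.hairy.nomod le_rfl (h3.trans h2).le) n1 h3.le
  obtain ⟨c, z, hA⟩ := h1.arms
  refine ⟨(sup_EE n1).ge.trans (sup_le_sup_right h.hairy.le _), n2,
    (h.nd h3.le h2).pos (h.nd le_rfl (h3.trans h2)) h.hairy.le (sup_EE n1).ge n2 (arm := c) hA.hs
      (fun Y k1 k2 => ?_) (hA.lt_z ⟨0, by omega⟩) (hA.z_lt _) (hA.lt_z ⟨1, by omega⟩) (hA.z_lt _)
      (by rw [hA.col, hA.col]; simp)⟩
  obtain ⟨u, u1, u2, u3⟩ := (h.hairy.2 Y k1.le (k2.trans h2).le).2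
  exact ⟨u, u1, u2, fun v v1 v2 => u3 v v1 (v2.trans h2.le)⟩

theorem Rg.raise (h : Rg G H B) (hm : 2 ≤ m) (hg : Good m (k + 3) B G) :
    ∃ a, B ≤ a ∧ Good m k a G ∧ Atom (EE H a) ⊥ (EE H a) := by
  obtain ⟨x, -⟩ := exists_fresh (α := α) ∅ (by have := h.big; simp; omega)
  obtain ⟨a, h1, h2, h3⟩ := hg.raise_one hm (fun z => Atom (EE H z) (St (EE H z) x) (EE H z))
    fun c z hA i j hi hj => by
      by_contra ij
      have key : ∀ l, ¬ Atom (EE H (z l)) (St (EE H (z l)) x) (EE H (z l)) →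
          adj (EE H (z l)) = adj (EE H B) := fun l hl =>
        let ⟨p1, p2, p3⟩ := h.pos hm (hA.low l) (hA.z_lt l)
        (h.nd (hA.lt_z l).le (hA.z_lt l)).adj_eq (h.nd le_rfl hA.lt) (hA.lt_z l).le p1 p2 p3 hl
      have ni := h.nd (hA.lt_z i).le (hA.z_lt i)
      obtain ⟨U, -, hU⟩ := (ni.cr.split_self (St_le (x := x))).exists_atom ni.ne
      refine ni.not_le_adj h.big hU (fun e => hi (e ▸ hU)) (h.alt.trans ?_)
      rw [← hA.sup_eq ij le_rfl (hA.z_lt i) le_rfl (hA.z_lt j)]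
      refine sup_le ni.le_adj ?_
      rw [key i hi, ← key j hj]
      exact (h.nd (hA.lt_z j).le (hA.z_lt j)).le_adj
  by_cases hn : Atom (EE H a) ⊥ (EE H a)
  · exact ⟨a, h1.le, h2.of_le (by omega), hn⟩
  obtain ⟨c, z, hA⟩ := h2.arms
  have i : Fin m := ⟨0, by omega⟩
  have ha := h.up h1.le
  obtain ⟨p1, p2, p3⟩ := ha.pos hm (hA.low i) (hA.z_lt i)
  exact ⟨z i, (h1.trans (hA.lt_z i)).le, (hA.up i).pred, by_contra fun k =>
    (ha.nd (hA.lt_z i).le (hA.z_lt i)).sd_false (ha.nd le_rfl hA.lt) (hA.lt_z i) p1 p2 p3 k hn h3⟩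

/-- **The width step in the symmetric group.** -/
theorem wmodel (h26 : 26 ≤ Fintype.card α) (hG : alternatingGroup α ≤ G) (hH : Hairy H a G)
    (hm : 17 ≤ m) (hg : Good m (k + 6) a G) : ∃ a', a ≤ a' ∧ Good m k a' G ∧ Prim a' ∧
      IsSimpleGroup (EE H a') ∧ centralizer (EE H a' : Set (Perm α)) = ⊥ := by
  obtain ⟨a1, h1, g1, t1⟩ := hg.raise (r := 16) (by omega) Trans fun c z hA s hs =>
    width_int (by omega) hG hA.hs s fun i hi => ⟨z i, hA.lt_z i, hA.z_lt i, hA.col i, hs i hi⟩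
  obtain ⟨a2, h2, g2, t2⟩ := g1.raise (r := 3) (by omega) Prim fun c z hA s hs =>
    width_imp h26 hG hA.hs t1 (hH.le.trans h1.le)
      (fun X k1 k2 => hH.nomod (h1.trans k1).le k2.le) s
      fun i hi => ⟨z i, hA.lt_z i, hA.z_lt i, hA.col i, hs i hi⟩
  obtain ⟨a3, h3, g3, t3⟩ := g2.raise (r := 3) (by omega)
    (fun u => ∀ X, u ≤ X → X < G → ∀ N ≤ H, Nm X N → N = ⊥) fun c z hA s hs =>
    width_core (by omega) hG hA.hs t2 s fun i hi => by
      have k := hs i hi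
      push Not at k
      obtain ⟨X, k1, k2, N, k3, k4, k5⟩ := k
      exact ⟨X, (hA.lt_z i).trans_le k1, k2, hA.col_of k1 k2, N,
        k3.trans (hH.le.trans (h1.trans h2).le), k5, k4⟩
  have h4 := ((h1.trans h2).trans h3).le
  have hr : Rg G H a3 := ⟨by omega, hG, hH.up h4, t2.mono h3.le, t3⟩
  obtain ⟨a4, h5, g4, t4⟩ := hr.raise (by omega) g3
  exact ⟨a4, h4.trans h5, g4, hr.prim.mono h5, simple_of_atom t4, (hr.nd h5 g4.lt).cent⟩

end Vale.Agent.P183AL
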