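import Vale.Agent.P183AL.Pair
import Vale.Agent.P183AL.WMod
import Vale.Agent.P183AL.Tr

/-!
Block A: alternating groups.
-/

namespace Vale.Agent.P183AL

open Equiv Equiv.Perm Subgroup Vale.Agent.P183A Vale.Agent.P183NK

variable {G : Type} [Group G] {X Y E E' : Subgroup G} {n n' : ℕ}

/-- `X` acts on `n` points, and its normal subgroup `E` acts as the alternating group -/
structure AMod (E : Subgroup G) (ρ : X →* Perm (Fin n)) : Prop where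
  le : E ≤ X
  nm : Nm X E
  alt : img ρ E = alternatingGroup (Fin n)
  inj : ∀ x : X, (x : G) ∈ E → ρ x = 1 → x = 1

theorem exists_amod (h1 : E ≤ X) (h2 : Nm X E) (h7 : 7 ≤ n) (e : E ≃* alternatingGroup (Fin n)) :
    ∃ ρ : X →* Perm (Fin n), AMod E ρ ∧ ∀ x : X, ρ x = 1 → (x : G) ∈ centralizer (E : Set G) := by
  have : (E.subgroupOf X).Normal := ⟨fun a ha g => h2 g g.2 a ha⟩
  obtain ⟨ρ, r1, r2⟩ := exists_rho (α := Fin n) (by simp; omega) (by simp; omega) (E.subgroupOf X)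
    ((subgroupOfEquivOfLe h1).trans e)
  refine ⟨ρ, ⟨h1, h2, le_antisymm ?_ fun g hg => ?_, fun x hx k => ?_⟩, fun x hx g hg => ?_⟩
  · rintro _ ⟨x, hx, rfl⟩
    exact r1 ⟨x, hx⟩ ▸ Subtype.prop _
  · obtain ⟨t, ht⟩ := ((subgroupOfEquivOfLe h1).trans e).surjective ⟨g, hg⟩
    exact ⟨t, t.2, (r1 t).trans (congrArg Subtype.val ht)⟩
  · exact congrArg Subtype.val (((subgroupOfEquivOfLe h1).trans e).map_eq_one_iff.1
      (Subtype.ext ((r1 ⟨x, hx⟩).symm.trans k)) : (⟨x, hx⟩ : E.subgroupOf X) = 1)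
  · exact congrArg Subtype.val (r2.le hx ⟨g, h1 hg⟩ hg)

theorem lt_of_card {S : Type} [Group S] (e : S ≃* alternatingGroup (Fin n))
    (h : n'.factorial < Nat.card S) : n' < n := by
  by_contra hc
  have := (alternatingGroup (Fin n)).card_le_card_group
  rw [← Nat.card_congr e.toEquiv, Nat.card_eq_fintype_card (α := Perm _), Fintype.card_perm,
    Fintype.card_fin] at this
  exact (h.trans_le this).not_ge (Nat.factorial_le (not_lt.1 hc))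

theorem AMod.card {ρ : X →* Perm (Fin n)} (h : AMod E ρ) (h2 : 2 ≤ n) :
    2 * Nat.card E = n.factorial := by
  have : Nontrivial (Fin n) := Fin.nontrivial_iff_two_le.2 h2
  let φ : E →* img ρ E := (ρ.comp (inclusion h.le)).codRestrict _ fun x => ⟨_, x.2, rfl⟩
  rw [Nat.card_congr (Equiv.ofBijective φ ⟨(injective_iff_map_eq_one φ).2 fun x e =>
    inclusion_injective h.le (h.inj (inclusion h.le x) x.2 (congrArg Subtype.val e)), by
      rintro ⟨_, x, hx, rfl⟩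
      exact ⟨⟨x, hx⟩, rfl⟩⟩), h.alt, two_mul_nat_card_alternatingGroup, Nat.card_eq_fintype_card,
    Fintype.card_perm, Fintype.card_fin]

/-- an inclusion of alternating nodes, primitive on the larger natural set -/
structure Inc (E E' : Subgroup G) (ρ : X →* Perm (Fin n)) (ρ' : Y →* Perm (Fin n')) : Prop where
  big : 288 ≤ n
  mod : AMod E ρ
  mod' : AMod E' ρ'
  le : X ≤ Y
  lt : E < E'
  prim : Prim (img ρ' X)

namespace Inc

variable [Finite G] {ρ : X →* Perm (Fin n)} {ρ' : Y →* Perm (Fin n')} (h : Inc E E' ρ ρ')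
include h

omit [Finite G] in
theorem ex : ∃ x ∈ E, x ≠ 1 := (Subgroup.bot_or_exists_ne_one E).resolve_left fun e => by
  have := h.mod.card (by have := h.big; omega)
  have := Nat.factorial_le (show 3 ≤ n by have := h.big; omega)
  simp only [e, Subgroup.card_bot, Nat.factorial] at *
  omega

omit [Finite G] in
theorem trans : Trans (img ρ' E) := h.prim.trans_of_norm (nm_img ρ' h.mod.nm) fun e => by
  obtain ⟨x, hx, x1⟩ := h.ex
  exact x1 (congrArg Subtype.val (h.mod'.inj ⟨x, h.le (h.mod.le hx)⟩ (h.lt.le hx)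
    (mem_bot.1 (e.le ⟨_, hx, rfl⟩))))

theorem deg_lt (h2 : 2 ≤ n') : n < n' := by
  by_contra hc
  have k1 := h.mod.card (by have := h.big; omega)
  have k2 := h.mod'.card h2
  have k3 := Nat.factorial_le (not_lt.1 hc)
  exact h.lt.ne (eq_of_le_of_card_ge h.lt.le (by omega))

theorem deg_le (h2 : 2 ≤ n') : 2 * n' ≤ n.factorial := by
  rw [← h.mod.card (by have := h.big; omega)]
  have x : Fin n' := ⟨0, by omega⟩
  have := Nat.card_le_card_of_surjective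
    (fun e : E => ρ' (inclusion (h.mod.le.trans h.le) e) x) fun y =>
      let ⟨_, ⟨e, he, rfl⟩, k⟩ := h.trans x y
      ⟨⟨e, he⟩, k⟩
  simpa using this

theorem sets (h2 : 2 ≤ n') (hs : 2 * n' < 2 ^ (n / 8)) : ∃ (φ : Fin n' → Finset (Fin n)) (r : ℕ),
    (∀ k : X, ∀ y, φ (ρ' (inclusion h.le k) y) = (φ y).image (ρ k)) ∧ 2 ≤ r ∧ r + 2 ≤ n ∧
      ∀ U : Finset (Fin n), U.card = r → ∃ y, φ y = U := by
  have : (E.subgroupOf X).Normal := ⟨fun a ha g => h.mod.nm g g.2 a ha⟩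
  have hb := h.big
  obtain ⟨φ, r, p1, p2, p3, p4, p5, p6⟩ := pair (N := E.subgroupOf X) (by simp; omega) ρ
    (ρ'.comp (inclusion h.le)) h.mod.alt h.mod.inj (by
      convert h.prim using 1
      ext g
      exact ⟨fun ⟨x, e⟩ => ⟨_, x.2, e⟩, fun ⟨x, hx, e⟩ => ⟨⟨x, hx⟩, e⟩⟩)
    (let ⟨x, hx, x1⟩ := h.ex
    ⟨⟨x, h.mod.le hx⟩, hx, fun e => x1 (congrArg Subtype.val (h.mod'.inj _ (h.lt.le hx) e))⟩)
    (by simpa using hs)
  have := rank_le p1 p3 p5 (by simpa using h.deg_lt h2)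
  rw [Fintype.card_fin] at this p4
  exact ⟨φ, r, p2, by omega, this, p6⟩

theorem grow (h2 : 2 ≤ n') : n.factorial < 2 ^ (n' / 8) := by
  refine factorial_lt h.big ((le_or_gt _ _).symm.imp_left fun k => ?_)
  obtain ⟨φ, r, -, p1, p2, p3⟩ := h.sets h2 k
  simpa using (two_le_choose p1 p2).trans (by simpa using choose_le_card p3)

end Inc

/-- **No chain of four alternating groups.** -/
theorem chain_false [Finite G] {X₀ X₁ X₂ X₃ E₀ E₁ E₂ E₃ : Subgroup G} {n₀ n₁ n₂ n₃ : ℕ}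
    {ρ₀ : X₀ →* Perm (Fin n₀)} {ρ₁ : X₁ →* Perm (Fin n₁)} {ρ₂ : X₂ →* Perm (Fin n₂)}
    {ρ₃ : X₃ →* Perm (Fin n₃)} (h01 : Inc E₀ E₁ ρ₀ ρ₁) (h02 : Inc E₀ E₂ ρ₀ ρ₂)
    (h03 : Inc E₀ E₃ ρ₀ ρ₃) (h12 : Inc E₁ E₂ ρ₁ ρ₂) (h23 : Inc E₂ E₃ ρ₂ ρ₃) (h3 : 2 ≤ n₃) :
    False := by
  have b1 : 2 ≤ n₁ := by have := h12.big; omega
  have b2 : 2 ≤ n₂ := by have := h23.big; omega
  obtain ⟨φ, r, p1, p2, p3, p4⟩ := h12.sets b2 ((h02.deg_le b2).trans_lt (h01.grow b1))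
  obtain ⟨ψ, s, q1, q2, q3, q4⟩ := h23.sets h3 ((h03.deg_le h3).trans_lt (h02.grow b2))
  refine not_homog (L := img ρ₂ E₀) p2 (by simpa using p3) p4 ?_ q2 (by simpa using q3)
    fun U V hU hV => ?_
  · rintro _ ⟨x, hx, rfl⟩
    exact ⟨_, p1 ⟨x, h01.le (h01.mod.le hx)⟩⟩
  · obtain ⟨u, rfl⟩ := q4 U hU
    obtain ⟨v, rfl⟩ := q4 V hV
    obtain ⟨_, ⟨e, he, rfl⟩, rfl⟩ := h03.trans u v
    exact ⟨_, ⟨⟨e, h02.le (h02.mod.le he)⟩, he, rfl⟩, (q1 ⟨e, h02.le (h02.mod.le he)⟩ u).symm⟩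

/-- the base is primitive on the natural set of the node -/
def GenAlt : GenT := fun _ _ H u z =>
  ∃ (n : ℕ) (ρ : z →* Perm (Fin n)), 288 ≤ n ∧ AMod (EE H z) ρ ∧ Prim (img ρ u)

theorem schreier : Schreier fun S _ => IsAlt S ∧ Nat.factorial 288 < Nat.card S := by
  rintro G _ _ T _ - hc ⟨⟨n, ⟨e⟩⟩, hn⟩
  have := lt_of_card e hn
  obtain ⟨ρ, r1, r2⟩ := exists_rho (α := Fin n) (by simp; omega) (by simp; omega) T e
  refine Group.isSolvable_of_isSolvable_injective (f := QuotientGroup.lift T (Perm.sign.comp ρ) fun t ht =>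
    (congrArg Perm.sign (r1 ⟨t, ht⟩)).trans (e ⟨t, ht⟩).2) ((injective_iff_map_eq_one _).2 ?_)
  rintro ⟨g⟩ hg
  obtain ⟨t, ht⟩ := e.surjective ⟨ρ g, hg⟩
  have k : (t : G)⁻¹ * g ∈ ρ.ker := by simp [MonoidHom.mem_ker, r1, ht]
  rw [r2, hc, mem_bot, inv_mul_eq_one] at k
  exact (QuotientGroup.eq_one_iff g).2 (k ▸ t.2)

theorem wstep : WStep (fun S _ => IsAlt S ∧ Nat.factorial 288 < Nat.card S) GenAlt 17 6 := by
  rintro G _ _ H a z m k hm hH hg - ⟨⟨n, ⟨e⟩⟩, hn⟩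
  have hn := lt_of_card e hn
  have az := hg.lt.le
  have nz := hH.nomod az le_rfl
  obtain ⟨ρ, hρ, hk⟩ := exists_amod (EE_le nz) (nm_EE H z) (by omega) e
  have hk' : ∀ x : z, ρ x = 1 → (x : G) ∈ H := fun x hx => cent_EE_le nz ⟨x.2, hk x hx⟩
  have c := cor_img ρ (hH.le.trans az) hk'
  have ka : a ∈ Set.Icc H z := ⟨hH.le, az⟩
  have kz : z ∈ Set.Icc H z := ⟨hH.le.trans az, le_rfl⟩
  obtain ⟨u, u1, u2, u3, u4, u5⟩ := wmodel (by simp; omega) (hρ.alt ▸ img_mono ρ hρ.le)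
    (c.hairy az hH) hm (c.good ka kz hg)
  have ku : u ∈ Set.Icc (img ρ H) (img ρ z) := ⟨(c.fm a ka).1.trans u1, u2.lt.le⟩
  have k1 : a ≤ pre ρ u := (c.gf a ka).ge.trans (c.gmono u1)
  have nu := hH.nomod k1 (pre_le ρ u)
  have k2 := EE_img ρ (pre_le ρ u) hk' nu
  have k3 := EE_mono nu nz (pre_le ρ u)
  rw [c.fg u ku] at k2
  rw [k2] at u4 u5
  refine ⟨pre ρ u, k1, by simpa only [c.gf z kz] using c.symm.good ku (c.fm z kz) u2,
    ⟨n, ρ, hn.le, hρ, (c.fg u ku).symm ▸ u3⟩,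
    simple_of_img ρ (k3.trans hρ.le) (fun x hx => hρ.inj x (k3 hx)) u4,
    eq_bot_iff.2 fun t ht => congrArg Subtype.val (hρ.inj ⟨t, hρ.le ht.2⟩ ht.2 (mem_bot.1
      (u5.le ?_)))⟩
  rintro _ ⟨x, hx, rfl⟩
  rw [← map_mul, ← map_mul]
  exact congrArg ρ (Subtype.ext (ht.1 x hx))

theorem fthm (Φ : Fam) : FThm Φ GenAlt 1 4 := by
  rintro G _ _ H T x b hR ⟨a3, b3, c3, z3, u3, i3, -, j3, -, k3⟩
  obtain ⟨-, l3, ⟨-, n3, ρ3, p3, q3, r3⟩, ⟨a2, b2, c2, z2, u2, i2, -, j2, -, k2⟩, m3⟩ := k3 0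
  obtain ⟨-, l2, ⟨-, n2, ρ2, p2, q2, r2⟩, ⟨a1, b1, c1, z1, u1, i1, -, j1, -, k1⟩, m2⟩ := k2 0
  obtain ⟨-, l1, ⟨-, n1, ρ1, p1, q1, r1⟩, ⟨a0, b0, c0, z0, u0, i0, -, j0, -, k0⟩, m1⟩ := k1 0
  obtain ⟨-, l0, ⟨-, n0, ρ0, p0, q0, -⟩, m, m0⟩ := k0 0
  have s1 : u1 0 ≤ z0 0 := (i0.trans l0).trans m.lt.le
  have s2 : u2 0 ≤ z0 0 := (i1.trans l1).trans s1
  have s3 : u3 0 ≤ z0 0 := (i2.trans l2).trans s2
  have s4 : x ≤ z0 0 := (i3.trans l3).trans s3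
  have t1 := m0.lt.trans_le j0
  have t2 := m1.lt.trans_le j1
  have t3 := m2.lt.trans_le j2
  have t4 := m3.lt.le.trans j3
  have key : ∀ X Y, z0 0 ≤ X → X < Y → Y ≤ z3 0 → EE H X < EE H Y := fun X Y e1 e2 e3 => by
    have f1 := hR.1.nomod (s4.trans e1) ((e2.le.trans e3).trans t4)
    have f2 := hR.1.nomod ((s4.trans e1).trans e2.le) (e3.trans t4)
    exact lt_of_le_of_ne (EE_mono f1 f2 e2.le) fun e => e2.ne (eq_of_EE_eq f1 f2 e)
  exact chain_false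
    ⟨p0, q0, q1, t1.le, key _ _ le_rfl t1 (t2.trans t3).le, r1.mono (img_mono _ s1)⟩
    ⟨p0, q0, q2, (t1.trans t2).le, key _ _ le_rfl (t1.trans t2) t3.le, r2.mono (img_mono _ s2)⟩
    ⟨p0, q0, q3, ((t1.trans t2).trans t3).le, key _ _ le_rfl ((t1.trans t2).trans t3) le_rfl,
      r3.mono (img_mono _ s3)⟩
    ⟨p1, q1, q2, t2.le, key _ _ t1.le t2 t3.le, r2.mono (img_mono _ (s2.trans t1.le))⟩
    ⟨p2, q2, q3, t3.le, key _ _ (t1.trans t2).le t3 le_rfl,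
      r3.mono (img_mono _ (s3.trans (t1.trans t2).le))⟩ (by omega)

/-- **Block A.** -/
theorem blockAlt : BlockAlt := ⟨_, schreier, GenAlt, 17, 6, 1, 4, one_pos, wstep, fthm _⟩

end Vale.Agent.P183AL
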