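import Vale.Agent.P183AL.Cr

/-!
Subdirect subgroups of a direct product of nonabelian simple groups.
-/

namespace Vale.Agent.P183AL

open Subgroup Vale.Agent.P183A

variable {Γ : Type} [Group Γ] {E D W V T Y M N L : Subgroup Γ} {g : Γ}

/-- `Y` projects onto every simple factor of `E` -/
def Sdp (E Y : Subgroup Γ) : Prop := ∀ T, Atom E ⊥ T → ∀ t ∈ T, ∃ y ∈ Y, pr T y = t

theorem inf_eq_bot_of_card [Finite Γ] (hY : Y ≤ E) (hD : D ≤ E)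
    (h : ∀ e ∈ E, ∃ y ∈ Y, ∃ d ∈ D, y * d = e) (h1 : Nat.card Y ^ 2 ≤ Nat.card E)
    (h2 : Nat.card D ^ 2 ≤ Nat.card E) : Y ⊓ D = ⊥ := by
  let f : Y × D → E := fun p => ⟨p.1 * p.2, E.mul_mem (hY p.1.2) (hD p.2.2)⟩
  have hs : Function.Surjective f := fun e =>
    let ⟨y, hy, d, hd, k⟩ := h e e.2
    ⟨(⟨y, hy⟩, ⟨d, hd⟩), Subtype.ext k⟩
  have hc : Nat.card (Y × D) = Nat.card E := le_antisymm (by
    rw [Nat.card_prod]
    refine Nat.pow_le_pow_iff_left two_ne_zero |>.1 ?_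
    rw [mul_pow, sq (Nat.card E)]
    exact Nat.mul_le_mul h1 h2) (Nat.card_le_card_of_surjective f hs)
  have hi := ((Nat.bijective_iff_surjective_and_card f).2 ⟨hs, hc⟩).1
  refine eq_bot_iff.2 fun z hz => ?_
  have := hi (a₁ := (⟨z, hz.1⟩, 1)) (a₂ := (1, ⟨z, hz.2⟩)) (Subtype.ext (by simp [f]))
  exact congrArg (fun p : Y × D => (p.1 : Γ)) this

namespace Cr

variable (h : Cr E)
include h

theorem exists_pcl (hY : Y ≤ E) (hL : Nm L E) (hLY : Nm L Y) :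
    ∃ P, Y ≤ P ∧ P ≤ E ∧ Nm L P ∧ (∀ T, Atom E ⊥ T → Split E P T) ∧
      ∀ T, Atom E ⊥ T → ∀ e ∈ P, ∃ y ∈ Y, pr T y = pr T e := by
  let P : Subgroup Γ :=
    { carrier := {e | e ∈ E ∧ ∀ T, Atom E ⊥ T → ∃ y ∈ Y, pr T y = pr T e}
      one_mem' := ⟨E.one_mem, fun T _ => ⟨1, Y.one_mem, rfl⟩⟩
      mul_mem' := fun {a b} ha hb => ⟨E.mul_mem ha.1 hb.1, fun T hT =>
        let ⟨y, hy, e⟩ := ha.2 T hT
        let ⟨z, hz, e'⟩ := hb.2 T hT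
        ⟨y * z, Y.mul_mem hy hz, by
          rw [h.pr_mul hT.nl (hY hy) (hY hz), h.pr_mul hT.nl ha.1 hb.1, e, e']⟩⟩
      inv_mem' := fun {a} ha => ⟨E.inv_mem ha.1, fun T hT =>
        let ⟨y, hy, e⟩ := ha.2 T hT
        ⟨y⁻¹, Y.inv_mem hy, by rw [h.pr_inv hT.nl (hY hy), h.pr_inv hT.nl ha.1, e]⟩⟩ }
  refine ⟨P, fun y hy => ⟨hY hy, fun T _ => ⟨y, hy, rfl⟩⟩, fun _ k => k.1,
    fun l hl e he => ⟨hL l hl e he.1, fun T hT => ?_⟩,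
    fun T hT => h.split_of (fun _ k => k.1) hT.nl fun e he => ⟨hT.nl.1 (pr_mem _ _), fun U hU => ?_⟩,
    fun T hT e he => he.2 T hT⟩
  · have h1 := hT.cnj_bot (cnj_eq_of_nm hL (L.inv_mem hl))
    obtain ⟨y, hy, k⟩ := he.2 _ h1
    refine ⟨_, hLY l hl y hy, ?_⟩
    rw [← cnj_cnj_inv (k := l) (W := T), h.pr_cnj h1.nl (cnj_eq_of_nm hL hl) (hY hy),
      h.pr_cnj h1.nl (cnj_eq_of_nm hL hl) he.1, k]
  · by_cases k : T = U
    · rw [← k, h.pr_of_mem hT.nl (pr_mem _ _)]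
      exact he.2 T hT
    · exact ⟨1, Y.one_mem, by
        rw [h.pr_one hU.nl, h.pr_of_cent hU.nl (h.atom_cm bot_le hT hU k (pr_mem _ _))]⟩

theorem onto_of_nm (hT : Atom E ⊥ T) (hY : Y ≤ E) (hs : ∀ t ∈ T, ∃ y ∈ Y, pr T y = t)
    (hM : M ≤ E) (hn : Nm Y M) (hg : g ∈ M) (hne : g ∉ centralizer (T : Set Γ)) :
    ∀ t ∈ T, ∃ m ∈ M, pr T m = t := by
  let U : Subgroup Γ :=
    { carrier := {t | ∃ m ∈ M, pr T m = t}
      one_mem' := ⟨1, M.one_mem, h.pr_one hT.nl⟩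
      mul_mem' := by
        rintro _ _ ⟨a, ha, rfl⟩ ⟨b, hb, rfl⟩
        exact ⟨a * b, M.mul_mem ha hb, h.pr_mul hT.nl (hM ha) (hM hb)⟩
      inv_mem' := by
        rintro _ ⟨a, ha, rfl⟩
        exact ⟨a⁻¹, M.inv_mem ha, h.pr_inv hT.nl (hM ha)⟩ }
  have h1 : U ≤ T := by
    rintro _ ⟨a, -, rfl⟩
    exact pr_mem _ _
  have h2 : Nl E U := ⟨h1.trans hT.nl.1, by
    rintro e he _ ⟨a, ha, rfl⟩
    obtain ⟨y, hy, k⟩ := hs _ (pr_mem T e)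
    refine ⟨_, hn y hy a ha, ?_⟩
    rw [h.pr_mul hT.nl (E.mul_mem (hY hy) (hM ha)) (E.inv_mem (hY hy)),
      h.pr_mul hT.nl (hY hy) (hM ha), h.pr_inv hT.nl (hY hy), k,
      h.pr_conj hT.nl he (pr_mem _ _)]⟩
  rcases hT.eq h2.split h1 with k | k
  · exact (hne (h.cent_of_pr hT.nl (hM hg) (mem_bot.1 (k ▸ (⟨g, hg, rfl⟩ : _ ∈ U))))).elim
  · exact fun t ht => (k.symm ▸ ht : t ∈ U)

variable [Finite Γ]

theorem le_of_atoms (hs : ∀ T, Atom E ⊥ T → T ≤ Y) : E ≤ Y := by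
  have hW : Nl E (sSup {T | Atom E ⊥ T}) :=
    ⟨sSup_le fun A hA => hA.nl.1, Nm.sSup fun A hA => hA.nl.2⟩
  refine le_trans (le_of_eq (by_contra fun k => ?_)) (sSup_le hs : sSup {T | Atom E ⊥ T} ≤ Y)
  obtain ⟨T, h1, hT⟩ := hW.cz.split.exists_atom (h.cz_ne hW (Ne.symm k))
  exact hT.ne (h.eq_bot hW (le_sSup hT) (h1.trans inf_le_right))

theorem sdp_inf (hm : Mn L E) (hL : Nm L E) (hLY : Nm L Y) (hY : Y ≤ E) (hne : Y ≠ E)
    (hs : Sdp E Y) (hT : Atom E ⊥ T) : Y ⊓ T = ⊥ := by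
  refine eq_bot_iff.2 fun g hg => h.disj hT.nl hg.2 (by_contra fun k => hne (le_antisymm hY ?_))
  have h1 : T ≤ Y := fun t ht => by
    obtain ⟨m, hm, e⟩ := h.onto_of_nm hT hY (hs T hT) (M := Y ⊓ T) (inf_le_left.trans hY)
      ((Nm.of_le le_rfl).inf (hT.nl.2.mono hY)) hg k t ht
    rw [← e, h.pr_of_mem hT.nl hm.2]
    exact hm.1
  refine h.le_of_atoms fun U hU => ?_
  obtain ⟨l, hl, rfl⟩ := h.atom_trans bot_le hm hL (fun _ _ _ k => by simp [mem_bot.1 k]) hT hU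
  exact (cnj_mono h1).trans (cnj_eq_of_nm hLY hl).le

theorem sdp_card (hY : Y ≤ E) (hs : Sdp E Y) (hi : ∀ T, Atom E ⊥ T → Y ⊓ T = ⊥) :
    Nat.card Y ^ 2 ≤ Nat.card E := by
  obtain ⟨W, -, hW⟩ := exists_maximal_ge_of_wellFoundedGT (fun W => Nl E W ∧ Y ⊓ W = ⊥) ⊥
    ⟨⟨bot_le, fun _ _ _ k => by simp [mem_bot.1 k]⟩, inf_bot_eq _⟩
  obtain ⟨hn, h1⟩ := hW.1
  have h2 : ∀ y ∈ Y, y ∈ centralizer (W : Set Γ) → y = 1 := fun y hy hc => by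
    by_contra y1
    obtain ⟨T, k1, hT, k2⟩ := h.exists_atom bot_le hn.cz.split ⟨hY hy, hc⟩ y1
    have k3 : ∀ w ∈ W, w ∈ centralizer (T : Set Γ) := fun w hw t ht => ((k1 ht).2 w hw).symm
    have dec : ∀ m ∈ W ⊔ T, (pr T m)⁻¹ * m ∈ W := fun m hm => by
      obtain ⟨t, ht, w, hw, rfl⟩ := (hT.nl.2.mono hn.1).mem_sup'.1 hm
      rw [h.pr_eq hT.nl ht (by simpa using k3 w hw)]
      simpa using hw
    obtain ⟨z, hz, z1⟩ := (Subgroup.bot_or_exists_ne_one (Y ⊓ (W ⊔ T))).resolve_left fun e =>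
      hT.ne (h.eq_bot hn (le_sup_right.trans (hW.2 ⟨hn.sup hT.nl, e⟩ le_sup_left))
        (k1.trans inf_le_right))
    have k4 := h.onto_of_nm hT hY (hs T hT) (M := Y ⊓ (W ⊔ T)) (inf_le_left.trans hY)
      ((Nm.of_le le_rfl).inf ((hn.sup hT.nl).2.mono hY)) hz fun k => z1 (by
        have := dec z hz.2
        rw [h.pr_of_cent hT.nl k, inv_one, one_mul] at this
        exact mem_bot.1 (h1 ▸ ⟨hz.1, this⟩))
    have k5 := h.onto_of_nm hT hY (hs T hT) (M := Y ⊓ Cz E W) (inf_le_left.trans hY)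
      ((Nm.of_le le_rfl).inf (hn.cz.2.mono hY)) ⟨hy, hY hy, hc⟩ k2
    refine hT.ne (h.eq_bot hT.nl le_rfl fun a ha b hb => ?_)
    obtain ⟨m, hm, rfl⟩ := k4 a ha
    obtain ⟨n, hn', rfl⟩ := k5 b hb
    have k6 : n * m * n⁻¹ * m⁻¹ = pr T n * pr T m * (pr T n)⁻¹ * (pr T m)⁻¹ := by
      rw [h.pr_conj hT.nl (hY hn'.1) ha]
      have := hn'.2.2 _ (dec m hm.2)
      calc _ = n * pr T m * ((pr T m)⁻¹ * m * n⁻¹) * m⁻¹ := by simp [mul_assoc]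
        _ = n * pr T m * (n⁻¹ * ((pr T m)⁻¹ * m)) * m⁻¹ := by
          rw [eq_inv_mul_iff_mul_eq.2 (by rw [← mul_assoc, ← this, mul_inv_cancel_right] :
            n * ((pr T m)⁻¹ * m * n⁻¹) = (pr T m)⁻¹ * m)]
        _ = n * pr T m * n⁻¹ * ((pr T m)⁻¹ * m * m⁻¹) := by simp only [mul_assoc]
        _ = _ := by rw [mul_inv_cancel_right]
    have k7 : n * m * n⁻¹ * m⁻¹ ∈ Y ⊓ T := ⟨Y.mul_mem (Y.mul_mem (Y.mul_mem hn'.1 hm.1)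
      (Y.inv_mem hn'.1)) (Y.inv_mem hm.1), k6 ▸ T.mul_mem (T.mul_mem (T.mul_mem hb ha)
      (T.inv_mem hb)) (T.inv_mem ha)⟩
    rw [hi T hT, mem_bot, k6, mul_inv_eq_one, mul_inv_eq_iff_eq_mul] at k7
    exact k7
  let f : Y × Y → E := fun p => ⟨pr W p.1 * pr (Cz E W) p.2,
    E.mul_mem (hn.1 (pr_mem _ _)) (pr_mem (Cz E W) _).1⟩
  rw [sq, ← Nat.card_prod]
  refine Nat.card_le_card_of_injective f fun ⟨a, b⟩ ⟨c, d⟩ e => ?_
  have e1 : pr W a * pr (Cz E W) b = pr W c * pr (Cz E W) d := congrArg Subtype.val e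
  have e2 : pr W a = pr W c := by
    have k : ∀ u v : Γ, pr W (pr W u * pr (Cz E W) v) = pr W u := fun u v =>
      h.pr_eq hn (pr_mem _ _) (by simpa using (pr_mem (Cz E W) v).2)
    rw [← k a b, e1, k]
  rw [e2, mul_right_inj] at e1
  have e3 := h2 _ (a⁻¹ * c).2 (h.cent_of_pr hn (hY (a⁻¹ * c).2) (by
    rw [coe_mul, coe_inv, h.pr_mul hn (E.inv_mem (hY a.2)) (hY c.2), h.pr_inv hn (hY a.2), e2,
      inv_mul_cancel]))
  have e4 : pr (Cz E W) (b⁻¹ * d : Y) = 1 := by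
    rw [coe_mul, coe_inv, h.pr_mul hn.cz (E.inv_mem (hY b.2)) (hY d.2), h.pr_inv hn.cz (hY b.2), e1,
      inv_mul_cancel]
  rw [h.pr_cz hn (hY (b⁻¹ * d).2), inv_mul_eq_one] at e4
  have e5 : ((b⁻¹ * d : Y) : Γ) = 1 := mem_bot.1 (h1 ▸ ⟨(b⁻¹ * d).2, e4 ▸ pr_mem _ _⟩)
  exact Prod.ext (inv_mul_eq_one.1 (Subtype.ext e3)) (inv_mul_eq_one.1 (Subtype.ext e5))

/-- a subdirect subgroup is its own normaliser -/
theorem self_norm (hW : Nl E W) (hN : N ≤ E)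
    (hs : ∀ T, Atom E ⊥ T → T ≤ W → ∀ t ∈ T, ∃ y ∈ N, pr T y = t) (hg : g ∈ W)
    (hn : ∀ y ∈ N, g * y * g⁻¹ ∈ N) : g ∈ N := by
  by_contra hc
  obtain ⟨V, h1, ⟨hV, u, hu, u1, u2⟩, h2⟩ := exists_minimal_le_of_wellFoundedLT
    (fun V => Nl E V ∧ ∃ u ∈ V, u ∉ N ∧ ∀ y ∈ N, u * y * u⁻¹ ∈ N) W ⟨hW, g, hg, hc, hn⟩
  obtain ⟨T, k1, hT, k2⟩ := h.exists_atom bot_le hV.split hu fun e => u1 (e ▸ N.one_mem)
  obtain ⟨t, ht, k3⟩ : ∃ t ∈ T, t * u ≠ u * t := by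
    by_contra k
    push Not at k
    exact k2 k
  obtain ⟨y, hy, rfl⟩ := hs T hT (k1.trans h1) t ht
  have hu' := hV.1 hu
  obtain ⟨m, hm, e⟩ := h.onto_of_nm hT hN (hs T hT (k1.trans h1)) (M := N ⊓ V)
    (inf_le_left.trans hN) ((Nm.of_le le_rfl).inf (hV.2.mono hN)) (g := u * y * u⁻¹ * y⁻¹)
    ⟨N.mul_mem (u2 y hy) (N.inv_mem hy), by
      simpa [mul_assoc] using V.mul_mem hu (hV.2 y (hN hy) _ (V.inv_mem hu))⟩
    (fun k => k3 (by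
      have := h.pr_of_cent hT.nl k
      rw [h.pr_mul hT.nl (hN (u2 y hy)) (E.inv_mem (hN hy)), h.pr_mul hT.nl (E.mul_mem hu' (hN hy))
        (E.inv_mem hu'), h.pr_mul hT.nl hu' (hN hy), h.pr_inv hT.nl hu', h.pr_inv hT.nl (hN hy),
        h.pr_conj hT.nl hu' ht, mul_inv_eq_one, mul_inv_eq_iff_eq_mul] at this
      exact this.symm)) _ (pr_mem T u)
  have k4 : m⁻¹ * u ∈ E := E.mul_mem (E.inv_mem (hN hm.1)) hu'
  have k5 := h2 (y := V ⊓ Cz E T) ⟨hV.inf hT.nl.cz, m⁻¹ * u, ⟨V.mul_mem (V.inv_mem hm.2) hu, k4,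
    h.cent_of_pr hT.nl k4 (by
      rw [h.pr_mul hT.nl (E.inv_mem (hN hm.1)) hu', h.pr_inv hT.nl (hN hm.1), e, inv_mul_cancel])⟩,
    fun k => u1 (by simpa using N.mul_mem hm.1 k), fun y hy => by
      simpa [mul_assoc] using N.mul_mem (N.mul_mem (N.inv_mem hm.1) (u2 y hy)) hm.1⟩ inf_le_left
  exact k2 (k5 hu).2.2

/-- a subdirect subgroup without proper split subgroups projects injectively -/
theorem sdp_inj (hY : Y ≤ E) (hs : Sdp E Y) (ha : Atom E Y E) (hT : Atom E ⊥ T) (hg : g ∈ Y)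
    (hc : g ∈ centralizer (T : Set Γ)) : g = 1 := by
  obtain ⟨W, h1, ⟨hW, h2⟩, h3⟩ := exists_minimal_le_of_wellFoundedLT
    (fun W => Nl E W ∧ Y ⊓ Cz E T ≤ W) (Cz E T) ⟨hT.nl.cz, inf_le_right⟩
  have hN : Nm Y (Y ⊓ Cz E T) := (Nm.of_le le_rfl).inf (hT.nl.cz.2.mono hY)
  have h4 : Split E Y W := h.split_of hY hW fun y hy => (h.self_norm hW (inf_le_left.trans hY)
    (fun U hU k => by
      by_cases k' : Y ⊓ Cz E T ≤ centralizer (U : Set Γ)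
      · refine (hU.ne (h.eq_bot hU.nl le_rfl (k.trans ((h3 (y := W ⊓ Cz E U) ⟨hW.inf hU.nl.cz,
          le_inf h2 (le_inf (inf_le_left.trans hY) k')⟩ inf_le_left).trans
          (inf_le_right.trans inf_le_right))))).elim
      · obtain ⟨n, n1, n2⟩ := SetLike.not_le_iff_exists.1 k'
        exact h.onto_of_nm hU hY (hs U hU) (inf_le_left.trans hY) hN n1 n2)
    (pr_mem W y) fun n hn => by
      rw [h.pr_conj hW (hY hy) (h2 hn)]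
      exact hN y hy n hn).1
  rcases ha.eq h4 hW.1 with e | e
  · exact mem_bot.1 (e ▸ h2 ⟨hg, hY hg, hc⟩)
  · exact (hT.ne (h.eq_bot hT.nl le_rfl (hT.nl.1.trans ((e ▸ h1).trans inf_le_right)))).elim

end Cr

end Vale.Agent.P183AL
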