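import Vale.Agent.P183AL.Imp2
import Vale.Agent.P183AL.Sub
import Mathlib.GroupTheory.SpecificGroups.Alternating.Simple

/-!
At most three arms over a primitive group `B` contain a group that normalises a nontrivial
subgroup of `B`.
-/

namespace Vale.Agent.P183AL

open Equiv Equiv.Perm Subgroup Vale.Agent.P240.H195 Vale.Agent.P183A

variable {α : Type} {G B H M N X : Subgroup (Perm α)} {ι : Type*} {arm : Subgroup (Perm α) → ι}

theorem Trans.cent_fix (h : Trans M) {c : Perm α} (hc : c ∈ centralizer (M : Set (Perm α)))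
    {x : α} (e : c x = x) : c = 1 := Perm.ext fun y => by
  obtain ⟨g, hg, rfl⟩ := h x y
  rw [← Perm.mul_apply, ← hc g hg, Perm.mul_apply, e, Perm.one_apply]

theorem Trans.cent_eq (h : Trans M) (hN : Trans N) (hle : N ≤ centralizer (M : Set (Perm α))) :
    N = centralizer (M : Set (Perm α)) := le_antisymm hle fun c hc => by
  rcases isEmpty_or_nonempty α with k | ⟨⟨x⟩⟩
  · rw [Subsingleton.elim c 1]
    exact N.one_mem
  obtain ⟨g, hg, e⟩ := hN x (c x)
  have := h.cent_fix (mul_mem (inv_mem (hle hg)) hc) (x := x) (by simp [← e])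
  rwa [← inv_mul_eq_one.1 this]

variable [DecidableEq α] [Fintype α]

theorem alt_max (h : alternatingGroup α ≤ X) : X = alternatingGroup α ∨ X = ⊤ := by
  refine h.eq_or_lt'.imp_right fun k => eq_top_iff.2 fun σ _ => ?_
  obtain ⟨g, hg, g1⟩ := SetLike.exists_of_lt k
  by_cases e : σ ∈ alternatingGroup α
  · exact h e
  have : σ * g⁻¹ ∈ alternatingGroup α := by
    rw [mem_alternatingGroup] at g1 e ⊢
    rw [map_mul, map_inv, (Int.units_eq_one_or _).resolve_left g1,
      (Int.units_eq_one_or _).resolve_left e]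
    rfl
  simpa using X.mul_mem (h this) hg

theorem alt_nm (h5 : 5 ≤ Fintype.card α) (hN : Nm (alternatingGroup α) N) :
    N = ⊥ ∨ alternatingGroup α ≤ N := by
  have : (N.subgroupOf (alternatingGroup α)).Normal := ⟨fun n hn g => hN g g.2 n hn⟩
  refine (alternatingGroup.normal_subgroup_eq_bot_or_eq_top (N := N.subgroupOf _)
    (by rwa [Nat.card_eq_fintype_card])).imp (fun e => eq_bot_iff.2 fun n hn => ?_)
    subgroupOf_eq_top.1
  refine eq_one_of_comm_alt (by omega) fun g hg => ?_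
  have k : (⟨g * n * g⁻¹ * n⁻¹, by simp [mem_alternatingGroup, mul_comm, mul_left_comm]⟩ :
    alternatingGroup α) ∈ N.subgroupOf _ := N.mul_mem (hN g hg n hn) (N.inv_mem hn)
  rw [e, mem_bot, Subtype.ext_iff] at k
  exact (mul_inv_eq_iff_eq_mul.1 (mul_inv_eq_one.1 k)).symm

omit [DecidableEq α] in
/-- the candidates for a minimal normal subgroup of an overgroup inside a primitive group -/
theorem Prim.cand (hB : Prim B) : ∃ M, ∀ X N, B ≤ X → N ≤ B → N ≠ ⊥ → Nm X N →
    ∃ N' ≤ B, N' ≠ ⊥ ∧ Nm X N' ∧ (N' = M ∨ N' = centralizer (M : Set (Perm α)) ∨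
      N' = M ⊔ centralizer (M : Set (Perm α))) := by
  classical
  by_cases e : B = ⊥
  · exact ⟨⊥, fun X N _ h1 h2 _ => (h2 (le_bot_iff.1 (e ▸ h1))).elim⟩
  obtain ⟨M, -, hM⟩ := nl_self.split.exists_atom e
  have tr : ∀ U, Nl B U → U ≠ ⊥ → Trans U := fun U hU => hB.trans_of_norm hU.2
  have hMt := tr M hM.nl hM.ne
  refine ⟨M, fun X N h0 h1 h2 h3 => ?_⟩
  obtain ⟨N', k1, ⟨k2, k3⟩, k4⟩ := exists_minimal_le_of_wellFoundedLT
    (fun U => U ≠ ⊥ ∧ Nm X U) N ⟨h2, h3⟩
  have k5 : Nl B N' := ⟨k1.trans h1, k3.mono h0⟩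
  refine ⟨N', k5.1, k2, k3, ?_⟩
  obtain ⟨U, u1, hU⟩ := k5.split.exists_atom k2
  have hUt := tr U hU.nl hU.ne
  have u2 : N' ≤ U ⊔ Cz N' U := Mn.le_sup (L := X) (fun W hW hX => (eq_or_ne W ⊥).imp_right
    fun k => le_antisymm hW.1 (k4 ⟨k, hX⟩ hW.1)) k3 ⟨u1, hU.nl.2.mono k5.1⟩
  have u3 : N' = U ∨ N' = U ⊔ centralizer (U : Set (Perm α)) := by
    by_cases k : Cz N' U = ⊥
    · exact Or.inl (le_antisymm (by simpa [k] using u2) u1)
    · have := hUt.cent_eq (tr (Cz N' U) ⟨inf_le_left.trans k5.1, k5.2.inf hU.nl.2.centralizer⟩ k)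
        inf_le_right
      exact Or.inr (this ▸ le_antisymm u2 (sup_le u1 inf_le_left))
  by_cases k : U = M
  · rw [← k]
    exact u3.imp_right Or.inr
  have u4 : U ≤ centralizer (M : Set (Perm α)) := (hU.le_or hM.nl).resolve_left fun k' =>
    (hM.eq hU.split k').elim hU.ne k
  have u5 := hMt.cent_eq hUt u4
  have u6 := hUt.cent_eq hMt (le_centralizer_iff.1 u4)
  rw [← u6, u5, sup_comm] at u3
  exact Or.inr u3

/-- **At most three arms over a primitive group contain a group with a nontrivial core.** -/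
theorem width_core (h5 : 5 ≤ Fintype.card α) (hG : alternatingGroup α ≤ G) (hA : Arms B G arm)
    (hB : Prim B) (S : Finset ι)
    (hS : ∀ i ∈ S, ∃ X, B < X ∧ X < G ∧ arm X = i ∧ ∃ N ≤ B, N ≠ ⊥ ∧ Nm X N) : S.card ≤ 3 := by
  classical
  obtain ⟨M, hM⟩ := hB.cand
  refine le_trans (Finset.card_le_card (t := ({M, centralizer (M : Set (Perm α)),
    M ⊔ centralizer (M : Set (Perm α))} : Finset (Subgroup (Perm α))).image
      fun N : Subgroup (Perm α) => arm (G ⊓ normalizer (N : Set (Perm α)))) fun i hi => ?_)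
    (Finset.card_image_le.trans Finset.card_le_three)
  obtain ⟨X, h1, h2, rfl, N, h3, h4, h6⟩ := hS i hi
  obtain ⟨N', k1, k2, k3, k4⟩ := hM X N h1.le h3 h4 h6
  refine Finset.mem_image.2 ⟨N', by simpa using k4, (hA.eq_of_le h1 (le_inf h2.le (nm_iff.1 k3))
    (lt_of_le_of_ne inf_le_left fun e => ?_)).symm⟩
  have := (alt_nm h5 (nm_iff.2 (hG.trans (inf_eq_left.1 e)))).resolve_left k2
  rcases alt_max (this.trans (k1.trans h1.le)) with k | k
  · exact h1.not_ge (k ▸ this.trans k1)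
  · exact not_top_lt (k ▸ h2)

end Vale.Agent.P183AL
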