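import Vale.Agent.P183AL.Small

/-!
Transitivity on sets of `r` points: the alternating group is transitive on them, a group that is
transitive on them for some `2 ≤ r ≤ n - 2` is transitive on unordered pairs; the action of the
normaliser of an alternating subgroup on the points.
-/

namespace Vale.Agent.P183AL

open Equiv Equiv.Perm Subgroup Vale.Agent.P240.H195

variable {α : Type*} [DecidableEq α] [Fintype α]

/-- a permutation that maps `A` onto `B` -/
theorem exists_perm_image {A B : Finset α} (h : A.card = B.card) :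
    ∃ g : Perm α, A.image g = B := by
  classical
  have e : {x // x ∈ A} ≃ {x // x ∈ B} := Fintype.equivOfCardEq (by simpa using h)
  refine ⟨e.extendSubtype, ?_⟩
  apply Finset.eq_of_subset_of_card_le
  · intro y hy
    obtain ⟨x, hx, rfl⟩ := Finset.mem_image.1 hy
    exact e.extendSubtype_mem x hx
  · rw [Finset.card_image_of_injective _ (Equiv.injective _), h]

/-- an even permutation that maps `A` onto `B` -/
theorem exists_even_image (h3 : 3 ≤ Fintype.card α) {A B : Finset α} (h : A.card = B.card) :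
    ∃ g ∈ alternatingGroup α, A.image g = B := by
  classical
  obtain ⟨g, hg⟩ := exists_perm_image h
  rcases Int.units_eq_one_or (Perm.sign g) with s | s
  · exact ⟨g, s, hg⟩
  obtain ⟨a, b, ab, hab⟩ : ∃ a b : α, a ≠ b ∧ (a ∈ A ↔ b ∈ A) := by
    by_cases h2 : 1 < A.card
    · obtain ⟨a, ha, b, hb, ab⟩ := Finset.one_lt_card.1 h2
      exact ⟨a, b, ab, by simp [ha, hb]⟩
    · have : 1 < Aᶜ.card := by rw [Finset.card_compl]; omega
      obtain ⟨a, ha, b, hb, ab⟩ := Finset.one_lt_card.1 this
      exact ⟨a, b, ab, by simp [Finset.mem_compl.1 ha, Finset.mem_compl.1 hb]⟩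
  refine ⟨g * swap a b, by simp [mem_alternatingGroup, s, ab], ?_⟩
  rw [← hg, Perm.coe_mul, ← Finset.image_image]
  congr 1
  apply Finset.eq_of_subset_of_card_le
  · intro y hy
    obtain ⟨x, hx, rfl⟩ := Finset.mem_image.1 hy
    by_cases h1 : x = a
    · rw [h1, swap_apply_left]; exact hab.1 (h1 ▸ hx)
    by_cases h2 : x = b
    · rw [h2, swap_apply_right]; exact hab.2 (h2 ▸ hx)
    rwa [swap_apply_of_ne_of_ne h1 h2]
  · rw [Finset.card_image_of_injective _ (Equiv.injective _)]

/-- `G` is transitive on the sets of `r` points -/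
def Homog (G : Subgroup (Perm α)) (r : ℕ) : Prop :=
  ∀ A B : Finset α, A.card = r → B.card = r → ∃ g ∈ G, A.image g = B

omit [Fintype α] in
/-- a symmetric function of pairs with constant sums over the sets of `r` points is constant -/
theorem const_of_sums [Fintype α] {f : α → α → ℤ} (hs : ∀ x y, f x y = f y x) {r : ℕ}
    (h2 : 2 ≤ r) (hr : r + 2 ≤ Fintype.card α)
    (h : ∀ A B : Finset α, A.card = r → B.card = r →
      ∑ p ∈ A.offDiag, f p.1 p.2 = ∑ p ∈ B.offDiag, f p.1 p.2) :
    ∀ x y z w, x ≠ y → z ≠ w → f x y = f z w := by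
  classical
  have ins : ∀ (A : Finset α) (x : α), x ∉ A → ∑ p ∈ (insert x A).offDiag, f p.1 p.2 =
      ∑ p ∈ A.offDiag, f p.1 p.2 + 2 * ∑ a ∈ A, f x a := by
    intro A x hx
    rw [Finset.offDiag_insert hx, Finset.sum_union, Finset.sum_union, Finset.sum_product,
      Finset.sum_product]
    · simp only [Finset.sum_singleton]
      rw [Finset.sum_congr rfl fun a _ => hs a x]
      ring
    · rw [Finset.disjoint_left]
      rintro ⟨a, b⟩ h1 h3
      simp only [Finset.mem_offDiag, Finset.mem_product, Finset.mem_singleton] at h1 h3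
      exact hx (h3.1 ▸ h1.1)
    · rw [Finset.disjoint_left]
      rintro ⟨a, b⟩ h1 h3
      simp only [Finset.mem_union, Finset.mem_offDiag, Finset.mem_product,
        Finset.mem_singleton] at h1 h3
      rcases h1 with h1 | h1
      · exact hx (h3.2 ▸ h1.2.1)
      · exact hx (h1.1 ▸ h3.1)
  have s1 : ∀ (A : Finset α) (x y : α), A.card + 1 = r → x ∉ A → y ∉ A →
      ∑ a ∈ A, f x a = ∑ a ∈ A, f y a := by
    intro A x y hA hx hy
    have := h (insert x A) (insert y A) (by rw [Finset.card_insert_of_notMem hx, hA])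
      (by rw [Finset.card_insert_of_notMem hy, hA])
    rw [ins A x hx, ins A y hy] at this
    omega
  have s2 : ∀ x y z w, x ≠ y → z ≠ x → z ≠ y → w ≠ x → w ≠ y →
      f x z - f y z = f x w - f y w := by
    intro x y z w xy zx zy wx wy
    by_cases zw : z = w
    · rw [zw]
    obtain ⟨A, hA, hc⟩ := Finset.exists_subset_card_eq (s := ({x, y, z, w} : Finset α)ᶜ)
      (n := r - 2) (by
        have := Finset.card_le_four (a := x) (b := y) (c := z) (d := w)
        rw [Finset.card_compl]
        omega)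
    have hA' : ∀ a ∈ A, a ≠ x ∧ a ≠ y ∧ a ≠ z ∧ a ≠ w := fun a ha => by
      simpa [not_or] using hA ha
    have zA : z ∉ A := fun k => (hA' z k).2.2.1 rfl
    have wA : w ∉ A := fun k => (hA' w k).2.2.2 rfl
    have xA : x ∉ A := fun k => (hA' x k).1 rfl
    have yA : y ∉ A := fun k => (hA' y k).2.1 rfl
    have e1 := s1 (insert z A) x y (by rw [Finset.card_insert_of_notMem zA]; omega)
      (by simp [xA, zx.symm]) (by simp [yA, zy.symm])
    have e2 := s1 (insert w A) x y (by rw [Finset.card_insert_of_notMem wA]; omega)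
      (by simp [xA, wx.symm]) (by simp [yA, wy.symm])
    rw [Finset.sum_insert zA, Finset.sum_insert zA] at e1
    rw [Finset.sum_insert wA, Finset.sum_insert wA] at e2
    omega
  have s3 : ∀ x y z, z ≠ x → z ≠ y → f x z = f y z := by
    intro x y z zx zy
    by_cases xy : x = y
    · rw [xy]
    obtain ⟨A, hA, hc⟩ := Finset.exists_subset_card_eq (s := ({x, y} : Finset α)ᶜ)
      (n := r - 1) (by
        have := Finset.card_le_two (a := x) (b := y)
        rw [Finset.card_compl]
        omega)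
    have hA' : ∀ a ∈ A, a ≠ x ∧ a ≠ y := fun a ha => by simpa [not_or] using hA ha
    have e1 := s1 A x y (by omega) (fun k => (hA' x k).1 rfl) (fun k => (hA' y k).2 rfl)
    have e2 : ∑ a ∈ A, (f x a - f y a) = ∑ _a ∈ A, (f x z - f y z) :=
      Finset.sum_congr rfl fun a ha => s2 x y a z xy (hA' a ha).1 (hA' a ha).2 zx zy
    rw [Finset.sum_sub_distrib, e1, sub_self, Finset.sum_const, hc, nsmul_eq_mul] at e2
    have e3 : ((r - 1 : ℕ) : ℤ) ≠ 0 := by omega
    have := (mul_eq_zero.1 e2.symm).resolve_left e3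
    omega
  intro x y z w xy zw
  by_cases yz : y = z
  · rw [← yz, hs y w]
    exact s3 x w y xy.symm (yz ▸ zw)
  · rw [s3 x z y xy.symm yz, hs z y, hs z w]
    exact s3 y w z (Ne.symm yz) zw

/-- a group transitive on the sets of `r` points, `2 ≤ r ≤ n - 2`: every invariant symmetric
function of pairs of different points is constant -/
theorem Homog.const {G : Subgroup (Perm α)} {r : ℕ} (h : Homog G r) (h2 : 2 ≤ r)
    (hr : r + 2 ≤ Fintype.card α) {f : α → α → ℤ} (hs : ∀ x y, f x y = f y x)
    (hf : ∀ g ∈ G, ∀ x y, f (g x) (g y) = f x y) :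
    ∀ x y z w, x ≠ y → z ≠ w → f x y = f z w := by
  refine const_of_sums hs h2 hr fun A B hA hB => ?_
  obtain ⟨g, hg, rfl⟩ := h A B hA hB
  refine Finset.sum_bij (fun p _ => (g p.1, g p.2)) ?_ ?_ ?_ ?_
  · rintro ⟨a, b⟩ hp
    simp only [Finset.mem_offDiag] at hp ⊢
    exact ⟨Finset.mem_image_of_mem _ hp.1, Finset.mem_image_of_mem _ hp.2.1,
      g.injective.ne hp.2.2⟩
  · rintro ⟨a, b⟩ _ ⟨c, d⟩ _ e
    simp only [Prod.mk.injEq, EmbeddingLike.apply_eq_iff_eq] at e ⊢
    exact e
  · rintro ⟨a, b⟩ hp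
    simp only [Finset.mem_offDiag, Finset.mem_image] at hp
    obtain ⟨⟨a, ha, rfl⟩, ⟨b, hb, rfl⟩, ab⟩ := hp
    exact ⟨(a, b), Finset.mem_offDiag.2 ⟨ha, hb, fun e => ab (congrArg g e)⟩, rfl⟩
  · intro p _
    exact (hf g hg _ _).symm

/-- **Livingstone and Wagner**, for pairs. -/
theorem Homog.two {G : Subgroup (Perm α)} {r : ℕ} (h : Homog G r) (h2 : 2 ≤ r)
    (hr : r + 2 ≤ Fintype.card α) {x y z w : α} (xy : x ≠ y) (zw : z ≠ w) :
    ∃ g ∈ G, (g x = z ∧ g y = w) ∨ (g x = w ∧ g y = z) := by
  classical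
  let P : α → α → Prop := fun a b => ∃ g ∈ G, (g x = a ∧ g y = b) ∨ (g x = b ∧ g y = a)
  have := h.const h2 hr (f := fun a b => if P a b then 1 else 0) (fun a b => by
    simp only [P, or_comm]) (fun g hg a b => by
    have : P (g a) (g b) ↔ P a b := by
      constructor
      · rintro ⟨k, hk, e⟩
        refine ⟨g⁻¹ * k, G.mul_mem (G.inv_mem hg) hk, ?_⟩
        simpa only [Perm.mul_apply, Perm.inv_eq_iff_eq] using e
      · rintro ⟨k, hk, e⟩
        refine ⟨g * k, G.mul_mem hg hk, ?_⟩
        simpa only [Perm.mul_apply, EmbeddingLike.apply_eq_iff_eq] using e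
    simp only [this]) x y z w xy zw
  have h1 : P x y := ⟨1, G.one_mem, Or.inl ⟨rfl, rfl⟩⟩
  simp only [if_pos h1] at this
  by_contra hc
  rw [if_neg hc] at this
  exact one_ne_zero this

/-- a permutation that commutes with all even permutations is trivial -/
theorem eq_one_of_comm_alt (h4 : 4 ≤ Fintype.card α) {σ : Perm α}
    (h : ∀ g ∈ alternatingGroup α, σ * g = g * σ) : σ = 1 := by
  ext a
  by_contra ha
  rw [Perm.one_apply] at ha
  obtain ⟨b, hb, c, hc, bc⟩ : ∃ b ∈ ({a, σ a} : Finset α)ᶜ, ∃ c ∈ ({a, σ a} : Finset α)ᶜ,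
      b ≠ c := Finset.one_lt_card.1 (by
    have := Finset.card_le_two (a := a) (b := σ a)
    rw [Finset.card_compl]
    omega)
  simp only [Finset.mem_compl, Finset.mem_insert, Finset.mem_singleton, not_or] at hb hc
  have k := congrArg (fun g : Perm α => g a)
    (h _ (T_three (Ne.symm hb.2) bc (Ne.symm hc.2)).mem_alternatingGroup)
  simp only [Perm.mul_apply] at k
  rw [T4 (Ne.symm ha) (Ne.symm hb.1) (Ne.symm hc.1), T1 (Ne.symm hb.2) bc] at k
  exact hb.2 k.symm

/-- **The normaliser of an alternating subgroup acts on the points.** -/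
theorem exists_rho {K : Type*} [Group K] (h5 : 5 ≤ Fintype.card α) (h6 : Fintype.card α ≠ 6)
    (T : Subgroup K) [hT : T.Normal] (e : T ≃* alternatingGroup α) :
    ∃ ρ : K →* Perm α, (∀ t : T, ρ t = e t) ∧ ρ.ker = centralizer (T : Set K) := by
  have hex : ∀ k : K, ∃ σ : Perm α, ∀ t : T,
      (e (MulAut.conjNormal k t) : Perm α) = σ * e t * σ⁻¹ := fun k => by
    obtain ⟨σ, hσ⟩ := exists_perm_of_ne h5 h6 ((e.symm.trans (MulAut.conjNormal k)).trans e)
    refine ⟨σ, fun t => ?_⟩
    have := congrArg (fun φ : MulAut (alternatingGroup α) => (φ (e t) : Perm α)) hσ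
    simpa using this
  have uniq : ∀ σ τ : Perm α, (∀ t : T, σ * e t * σ⁻¹ = τ * e t * τ⁻¹) → σ = τ := by
    intro σ τ h
    have : τ⁻¹ * σ = 1 := eq_one_of_comm_alt (by omega) fun g hg => by
      have := h (e.symm ⟨g, hg⟩)
      simp only [MulEquiv.apply_symm_apply] at this
      calc τ⁻¹ * σ * g = τ⁻¹ * (σ * g * σ⁻¹) * σ := by group
        _ = g * (τ⁻¹ * σ) := by rw [this]; group
    exact (inv_mul_eq_one.1 this).symm
  choose ρ hρ using hex
  let ρ' : K →* Perm α := MonoidHom.mk' ρ fun a b => uniq _ _ fun t => by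
    rw [← hρ, map_mul, MulAut.mul_apply, hρ, hρ]
    group
  refine ⟨ρ', fun t => uniq _ _ fun s => ?_, ?_⟩
  · have : MulAut.conjNormal (t : K) s = t * s * t⁻¹ := Subtype.ext (by simp)
    show ρ t * _ * (ρ t)⁻¹ = _
    rw [← hρ, this, map_mul, map_mul, map_inv]
    simp
  · ext k
    rw [MonoidHom.mem_ker, mem_centralizer_iff]
    constructor
    · intro h t ht
      have h1 := hρ k ⟨t, ht⟩
      have h2 : ρ k = 1 := h
      rw [h2, one_mul, inv_one, mul_one] at h1
      have h3 := congrArg Subtype.val (e.injective (Subtype.ext h1))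
      simp only [MulAut.conjNormal_apply] at h3
      rw [← h3]
      calc k * t * k⁻¹ * k = k * t := by group
        _ = k * (k * t * k⁻¹) := by rw [h3]
    · intro h
      refine uniq _ _ fun t => ?_
      have : MulAut.conjNormal k t = t := Subtype.ext (by
        simp only [MulAut.conjNormal_apply]
        rw [← h t t.2]
        group)
      show ρ k * _ * (ρ k)⁻¹ = _
      rw [← hρ, this]
      simp

end Vale.Agent.P183AL
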