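import Vale.Agent.P183AL.Blk
import Vale.Agent.P183A.EmbL

/-!
Few arms of an interval below an alternating or symmetric group contain intransitive or
imprimitive groups.
-/

namespace Vale.Agent.P183AL

open Equiv Equiv.Perm Subgroup Vale.Agent.P240.H195 Vale.Agent.P183A

/-- the open interval is split into arms; elements of different arms are complements -/
def Arms {Γ ι : Type*} [Lattice Γ] (B Z : Γ) (arm : Γ → ι) : Prop :=
  ∀ X Y, B < X → X < Z → B < Y → Y < Z → arm X ≠ arm Y → X ⊓ Y = B ∧ X ⊔ Y = Z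

theorem Arms.eq_of_le {Γ ι : Type*} [Lattice Γ] {B Z : Γ} {arm : Γ → ι} (h : Arms B Z arm)
    {X Y : Γ} (h1 : B < X) (h2 : X ≤ Y) (h3 : Y < Z) : arm X = arm Y := by
  by_contra hc
  have := (h X Y h1 (h2.trans_lt h3) (h1.trans_le h2) h3 hc).1
  rw [inf_eq_left.2 h2] at this
  exact h1.ne' this

variable {α : Type} [DecidableEq α] [Fintype α]

theorem exists_even_fibre {β : Type*} [Fintype β] (f : α → β)
    (h : Fintype.card β + 1 < Fintype.card α) {x y : α} (xy : f x = f y) :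
    ∃ g ∈ alternatingGroup α, g x = y ∧ ∀ w, f (g w) = f w := by
  classical
  by_cases e : x = y
  · exact ⟨1, one_mem _, e, fun _ => rfl⟩
  obtain ⟨u, hu, v, hv, uv, e'⟩ := Finset.exists_ne_map_eq_of_card_lt_of_maps_to
    (s := Finset.univ.erase x) (t := Finset.univ) (f := f)
    (by rw [Finset.card_erase_of_mem (Finset.mem_univ x), Finset.card_univ, Finset.card_univ]
        omega) (fun _ _ => Finset.mem_univ _)
  have sw : ∀ a b, f a = f b → ∀ w, f (swap a b w) = f w := fun a b k w => by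
    by_cases k1 : w = a
    · rw [k1, swap_apply_left, k]
    by_cases k2 : w = b
    · rw [k2, swap_apply_right, k]
    rw [swap_apply_of_ne_of_ne k1 k2]
  refine ⟨swap x y * swap u v, by simp [mem_alternatingGroup, e, uv], ?_, fun w => ?_⟩
  · rw [Perm.mul_apply, swap_apply_of_ne_of_ne (Finset.ne_of_mem_erase hu).symm
      (Finset.ne_of_mem_erase hv).symm, swap_apply_left]
  · rw [Perm.mul_apply, sw x y xy, sw u v e']

variable {G B H : Subgroup (Perm α)} {ι : Type*} {arm : Subgroup (Perm α) → ι}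

/-- **At most 16 arms contain an intransitive group.** -/
theorem width_int (h6 : 6 ≤ Fintype.card α) (hG : alternatingGroup α ≤ G) (hA : Arms B G arm)
    (S : Finset ι) (hS : ∀ i ∈ S, ∃ X, B < X ∧ X < G ∧ arm X = i ∧ ¬ Trans X) :
    S.card ≤ 16 := by
  classical
  have hU : ∀ i ∈ S, ∃ U : Set α, B < G ⊓ stabS U ∧ G ⊓ stabS U < G ∧ arm (G ⊓ stabS U) = i := by
    intro i hi
    obtain ⟨X, h1, h2, h3, h4⟩ := hS i hi
    simp only [Trans, not_forall] at h4
    obtain ⟨x, y, h4⟩ := h4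
    let U : Set α := {z | ∃ g ∈ X, g x = z}
    have k1 : X ≤ G ⊓ stabS U := le_inf h2.le fun g hg z => by
      constructor
      · rintro ⟨k, hk, e⟩
        exact ⟨g⁻¹ * k, X.mul_mem (X.inv_mem hg) hk, by simp [e]⟩
      · rintro ⟨k, hk, e⟩
        exact ⟨g * k, X.mul_mem hg hk, by simp [e]⟩
    have k2 : G ⊓ stabS U < G := lt_of_le_of_ne inf_le_left fun e =>
      alt_not_le_stabS (U := U) (x := x) (y := y) (by omega) ⟨1, X.one_mem, rfl⟩ h4
        (hG.trans (inf_eq_left.1 e))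
    exact ⟨U, h1.trans_le k1, k2, h3 ▸ (hA.eq_of_le h1 k1 k2).symm⟩
  choose! U u1 u2 u3 using hU
  by_contra hc
  obtain ⟨i0, h0, i1, h1, h01⟩ := Finset.one_lt_card.1 (by omega : 1 < S.card)
  have hB := (hA _ _ (u1 i0 h0) (u2 i0 h0) (u1 i1 h1) (u2 i1 h1)
    (by rw [u3 i0 h0, u3 i1 h1]; exact h01)).1
  let f : α → Bool × Bool := fun x => (decide (x ∈ U i0), decide (x ∈ U i1))
  have key : ∀ i ∈ S, ∀ x y, f x = f y → x ∈ U i → y ∈ U i := by
    intro i hi x y xy hx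
    obtain ⟨g, hg, e, hf⟩ := exists_even_fibre f (by simp; omega) xy
    have : g ∈ B := by
      rw [← hB]
      refine ⟨⟨hG hg, fun w => ?_⟩, hG hg, fun w => ?_⟩
      · simpa [f] using congrArg Prod.fst (hf w)
      · simpa [f] using congrArg Prod.snd (hf w)
    exact e ▸ (((u1 i hi).le this).2 x).2 hx
  obtain ⟨i, hi, j, hj, ij, e⟩ := Finset.exists_ne_map_eq_of_card_lt_of_maps_to (s := S)
    (t := (Finset.univ : Finset (Bool × Bool → Bool)))
    (f := fun i p => decide (∃ x ∈ U i, f x = p)) (by simp; omega) (fun _ _ => Finset.mem_univ _)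
  have e' : ∀ p, (∃ x ∈ U i, f x = p) ↔ ∃ x ∈ U j, f x = p := fun p => by
    simpa using congrFun e p
  have : U i = U j := Set.ext fun x =>
    ⟨fun hx => let ⟨y, hy, k⟩ := (e' _).1 ⟨x, hx, rfl⟩; key j hj y x k hy,
      fun hx => let ⟨y, hy, k⟩ := (e' _).2 ⟨x, hx, rfl⟩; key i hi y x k hy⟩
  exact ij (by rw [← u3 i hi, this, u3 j hj])

/-- if the even permutations fixing the classes of `D` keep `D'`, then `D` is finer than `D'` -/
theorem le_of_ker_le (h5 : 5 ≤ Fintype.card α) (hB : Trans B) {D D' : Setoid α}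
    (hD : B ≤ stabR D) (hD' : B ≤ stabR D') (hn : Nontriv D) (hn' : Nontriv D')
    (h : alternatingGroup α ⊓ kerR D ≤ stabR D') (x y : α) (xy : D x y) : D' x y := by
  by_contra hc
  have ne : x ≠ y := fun e => hc (e ▸ D'.refl' x)
  obtain ⟨x', x1, x2⟩ := hB.mate hD' hn'.1 x
  have x3 : x' ≠ y := fun e => hc (D'.symm' (e ▸ x2))
  obtain ⟨u, v, uv, h1, u1, u2, v1, v2⟩ : ∃ u v, u ≠ v ∧ D u v ∧ u ≠ x ∧ u ≠ x' ∧ v ≠ x ∧
      v ≠ x' := by
    by_contra hc'
    push Not at hc'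
    have k : ∀ u, u ≠ x → u ≠ x' → D u x ∨ D u x' := fun u u1 u2 => by
      obtain ⟨v, v1, v2⟩ := hB.mate hD hn.1 u
      by_cases e : v = x
      · exact Or.inl (D.symm' (e ▸ v2))
      · exact Or.inr (D.symm' (hc' u v v1.symm (D.symm' v2) u1 u2 e ▸ v2))
    obtain ⟨a, ha⟩ := exists_fresh {x, x'} (lt_of_le_of_lt Finset.card_le_two (by omega))
    obtain ⟨b, hb⟩ := exists_fresh {x, x', a} (lt_of_le_of_lt Finset.card_le_three (by omega))
    obtain ⟨c, hc⟩ := exists_fresh {x, x', a, b} (lt_of_le_of_lt Finset.card_le_four (by omega))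
    simp only [Finset.mem_insert, Finset.mem_singleton, not_or] at ha hb hc
    have n1 : ¬ D a b := fun k => hb.2.1 (hc' a b (Ne.symm hb.2.2) k ha.1 ha.2 hb.1)
    have n2 : ¬ D a c := fun k => hc.2.1 (hc' a c (Ne.symm hc.2.2.1) k ha.1 ha.2 hc.1)
    have n3 : ¬ D b c := fun k => hc.2.1 (hc' b c (Ne.symm hc.2.2.2) k hb.1 hb.2.1 hc.1)
    rcases k a ha.1 ha.2 with k1 | k1 <;> rcases k b hb.1 hb.2.1 with k2 | k2 <;>
      rcases k c hc.1 hc.2.1 with k3 | k3 <;>
      first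
      | exact n1 (D.trans' k1 (D.symm' k2))
      | exact n2 (D.trans' k1 (D.symm' k3))
      | exact n3 (D.trans' k2 (D.symm' k3))
  have sw : ∀ a b, D a b → swap a b ∈ kerR D := fun a b k w => by
    by_cases k1 : w = a
    · rw [k1, swap_apply_left]; exact D.symm' k
    by_cases k2 : w = b
    · rw [k2, swap_apply_right]; exact k
    rw [swap_apply_of_ne_of_ne k1 k2]
  have k := h (x := swap x y * swap u v) ⟨by simp [mem_alternatingGroup, ne, uv],
    mul_mem (sw x y xy) (sw u v h1)⟩ x' x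
  rw [Perm.mul_apply, Perm.mul_apply, swap_apply_of_ne_of_ne u2.symm v2.symm,
    swap_apply_of_ne_of_ne x1 x3, swap_apply_of_ne_of_ne u1.symm v1.symm, swap_apply_left] at k
  exact hc (D'.trans' (D'.symm' x2) (k.2 x2))

/-- `B` induces all permutations of the classes -/
def Onto (B : Subgroup (Perm α)) (D : Setoid α) : Prop :=
  ∀ σ : Perm (Quotient D), ∃ b : stabR D, (b : Perm α) ∈ B ∧ actR D b = σ

theorem type_alt (hG : alternatingGroup α ≤ G) (hB : Trans B) (hH : H ≤ B) {D : Setoid α}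
    (hD : B ≤ stabR D) (hn : Nontriv D) (hm : NoMod H (G ⊓ stabR D)) :
    G ⊓ kerR D ≤ H ∨ Onto B D := by
  have hN : Nm (G ⊓ stabR D) (G ⊓ kerR D) := fun a ha g hg =>
    ⟨G.mul_mem (G.mul_mem ha.1 hg.1) (G.inv_mem ha.1), kerR_conj ha.2 hg.2⟩
  refine (hm.alt hN (inf_le_inf_left _ (kerR_le D))).imp_right fun h σ => ?_
  obtain ⟨g, hg, rfl⟩ := exists_lift hB hD hn.1 σ
  have h1 : (g : Perm α) ∈ H ⊔ (G ⊓ kerR D) := h ▸ ⟨hG hg, g.2⟩
  obtain ⟨a, ha, k, hk, e⟩ := (hN.mono hm.lt.le).mem_sup.1 h1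
  refine ⟨⟨a, hD (hH ha)⟩, hH ha, ?_⟩
  have : g = ⟨a, hD (hH ha)⟩ * ⟨k, kerR_le D hk.2⟩ := Subtype.ext e.symm
  rw [this, map_mul, (actR_eq_one (g := ⟨k, kerR_le D hk.2⟩)).2 hk.2, mul_one]

omit [DecidableEq α] [Fintype α] in
theorem Onto.max {D D' : Setoid α} (h : Onto B D) (hD' : B ≤ stabR D') (hn' : Nontriv D')
    (hle : ∀ x y, D x y → D' x y) (x y : α) (xy : D' x y) : D x y := by
  classical
  by_contra hc
  have all : ∀ w, D' x w := fun w => by
    by_cases k : D x w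
    · exact hle _ _ k
    obtain ⟨b, hb, e⟩ := h (swap (Quotient.mk D y) (Quotient.mk D w))
    have e1 : D ((b : Perm α) x) x := by
      apply Quotient.exact
      rw [← actR_mk, e, swap_apply_of_ne_of_ne]
      · exact fun k' => hc (Quotient.exact k')
      · exact fun k' => k (Quotient.exact k')
    have e2 : D ((b : Perm α) y) w := by
      apply Quotient.exact
      rw [← actR_mk, e, swap_apply_left]
    exact D'.trans' (D'.symm' (hle _ _ e1)) (D'.trans' ((hD' hb x y).2 xy) (hle _ _ e2))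
  obtain ⟨u, v, uv⟩ := hn'.2
  exact uv (D'.trans' (D'.symm' (all u)) (all v))

/-- the argument with an exchange of two classes of the meet -/
theorem meet_swap (hB : Trans B) {D D' : Setoid α} (hD : B ≤ stabR D) (hD' : B ≤ stabR D')
    (hn : ∃ x y, x ≠ y ∧ D x y ∧ D' x y) (h1 : ∃ x y, D x y ∧ ¬ D' x y)
    (h2 : ∃ x y, D' x y ∧ ¬ D x y) :
    ¬ alternatingGroup α ⊓ stabR ⇑(D ⊓ D' : Setoid α) ⊓ stabR D ≤ stabR D' := by
  intro h
  have h0 : B ≤ stabR ⇑(D ⊓ D' : Setoid α) := fun g hg x y => and_congr (hD hg x y) (hD' hg x y)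
  obtain ⟨x, y, xy, xy'⟩ := h1
  obtain ⟨z, z1, z2⟩ : ∃ z, D' x z ∧ ¬ D x z := by
    obtain ⟨u, v, uv, uv'⟩ := h2
    obtain ⟨g, hg, rfl⟩ := hB u x
    exact ⟨g v, (hD' hg u v).2 uv, fun k => uv' ((hD hg u v).1 k)⟩
  obtain ⟨g, hg, g1, g2, g3⟩ := exists_swap_blocks (D := D ⊓ D') hB h0 hn (x := x) (y := y) fun k => xy' k.2
  have k := h (x := g) ⟨⟨hg, swap_blocks_stab g1 g2 g3⟩, kerR_le D
    (swap_blocks_ker (D := D ⊓ D') (fun _ _ k => k.1) xy g1 g2 g3)⟩ x z
  rw [g3 z (fun k => z2 (D.symm' k.1)) fun k => z2 (D.trans' xy (D.symm' k.1))] at k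
  exact xy' (D'.trans' z1 (D'.trans' (D'.symm' (k.2 z1)) (g1 x ((D ⊓ D').refl' x)).2))

end Vale.Agent.P183AL
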