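import Vale.Agent.P183AL.Imp

/-!
At most three arms over a transitive group contain imprimitive groups.
-/

namespace Vale.Agent.P183AL

open Equiv Equiv.Perm Subgroup Vale.Agent.P240.H195 Vale.Agent.P183A

theorem le_choose : ∀ {b k : ℕ}, 1 ≤ k → k + 1 ≤ b → b ≤ b.choose k
  | 0, _, _, h => by omega
  | _ + 1, 0, h, _ => by omega
  | b + 1, k + 1, _, h => by
    rw [Nat.choose_succ_succ]
    rcases Nat.eq_zero_or_pos k with rfl | hk
    · simp [add_comm]
    have h1 := le_choose (b := b) hk (by omega)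
    have h2 := Nat.choose_pos (n := b) (k := k + 1) (by omega)
    simp only [Nat.succ_eq_add_one]
    omega

theorem lt_choose {b k : ℕ} (h1 : 2 ≤ k) (h2 : k + 2 ≤ b) : b < b.choose k := by
  obtain ⟨b, rfl⟩ : ∃ c, b = c + 1 := ⟨b - 1, by omega⟩
  obtain ⟨k, rfl⟩ : ∃ c, k = c + 1 := ⟨k - 1, by omega⟩
  rw [Nat.choose_succ_succ]
  have h3 := le_choose (b := b) (k := k) (by omega) (by omega)
  have h4 := le_choose (b := b) (k := k + 1) (by omega) (by omega)
  simp only [Nat.succ_eq_add_one]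
  omega

variable {α : Type} [DecidableEq α] [Fintype α]
variable {G B H : Subgroup (Perm α)} {ι : Type*} {arm : Subgroup (Perm α) → ι}

open Classical in
/-- the classes of `D` that meet the class of `z` for `D'` -/
noncomputable def nb (D D' : Setoid α) (z : α) : Finset (Quotient D) :=
  (Finset.univ.filter fun w => D' w z).image (Quotient.mk D)

omit [DecidableEq α] in
theorem mem_nb {D D' : Setoid α} {z : α} {r : Quotient D} :
    r ∈ nb D D' z ↔ ∃ w, D' w z ∧ Quotient.mk D w = r := by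
  simp [nb]

omit [DecidableEq α] in
theorem mk_mem_nb {D D' : Setoid α} {z x : α} :
    Quotient.mk D x ∈ nb D D' z ↔ ∃ w, D' w z ∧ D w x := by
  rw [mem_nb]
  exact exists_congr fun w => and_congr_right fun _ => Quotient.eq

omit [DecidableEq α] in
theorem nb_map {D D' : Setoid α} [DecidableEq (Quotient D)] (g : stabR D)
    (hg : (g : Perm α) ∈ stabR D') (z : α) :
    nb D D' ((g : Perm α) z) = (nb D D' z).image (actR D g) := by
  ext r
  simp only [Finset.mem_image, mem_nb]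
  constructor
  · rintro ⟨w, hw, rfl⟩
    refine ⟨_, ⟨(g : Perm α)⁻¹ w, (hg _ _).1 (by simpa using hw), rfl⟩, ?_⟩
    rw [actR_mk]
    simp
  · rintro ⟨_, ⟨w, hw, rfl⟩, rfl⟩
    exact ⟨(g : Perm α) w, (hg _ _).2 hw, rfl⟩

omit [DecidableEq α] in
theorem Onto.choose_le {D D' : Setoid α} (h : Onto B D) (hD' : B ≤ stabR D') (z : α) :
    (Nat.card (Quotient D)).choose (nb D D' z).card ≤ Nat.card (Quotient D') := by
  classical
  have : ∀ S ∈ Finset.powersetCard (nb D D' z).card (Finset.univ : Finset (Quotient D)),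
      ∃ c : Quotient D', nb D D' c.out = S := fun S hS => by
    obtain ⟨σ, e⟩ := exists_perm_image (Finset.mem_powersetCard.1 hS).2.symm
    obtain ⟨b, hb, rfl⟩ := h σ
    refine ⟨Quotient.mk D' ((b : Perm α) z), ?_⟩
    rw [← e, ← nb_map b (hD' hb)]
    have k : D' (Quotient.mk D' ((b : Perm α) z)).out ((b : Perm α) z) := Quotient.mk_out _
    ext r
    simp only [mem_nb]
    exact exists_congr fun w => and_congr_left fun _ =>
      ⟨fun k' => D'.trans' k' k, fun k' => D'.trans' k' (D'.symm' k)⟩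
  have : Nonempty (Quotient D') := ⟨Quotient.mk D' z⟩
  choose! f hf using ‹∀ S ∈ _, _›
  have := Finset.card_le_card_of_injOn (t := Finset.univ) f (fun _ _ => Finset.mem_univ _)
    fun S hS S' hS' e => by rw [← hf S hS, e, hf S' hS']
  simpa [Finset.card_powersetCard, Nat.card_eq_fintype_card] using this

omit [DecidableEq α] in
/-- a class of `D'` misses at most one class of `D` -/
theorem Onto.miss (hB : Trans B) {D D' : Setoid α} (h : Onto B D) (h' : Onto B D')
    (hD : B ≤ stabR D) (hD' : B ≤ stabR D') (hn' : Nontriv D')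
    (hm : ∀ x y, D x y → D' x y → x = y) (z : α) {r s : Quotient D} (hr : r ∉ nb D D' z)
    (hs : s ∉ nb D D' z) : r = s := by
  classical
  by_contra rs
  obtain ⟨w, wz, hw⟩ := hB.mate hD' hn'.1 z
  have k1 : 2 ≤ (nb D D' z).card := Finset.one_lt_card.2
    ⟨_, mem_nb.2 ⟨w, hw, rfl⟩, _, mem_nb.2 ⟨z, D'.refl' z, rfl⟩,
      fun e => wz (hm _ _ (Quotient.exact e) hw)⟩
  have k2 : (nb D D' z).card + 2 ≤ Nat.card (Quotient D) := by
    have := Finset.card_le_univ (insert r (insert s (nb D D' z)))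
    rwa [Finset.card_insert_of_notMem (by simp [rs, hr]), Finset.card_insert_of_notMem hs,
      ← Nat.card_eq_fintype_card] at this
  obtain ⟨x, rfl⟩ := Quotient.exists_rep r
  have k3 : 1 ≤ (nb D' D x).card := Finset.card_pos.2 ⟨_, mem_nb.2 ⟨x, D.refl' x, rfl⟩⟩
  have k4 : (nb D' D x).card + 1 ≤ Nat.card (Quotient D') := by
    have := Finset.card_le_univ (insert (Quotient.mk D' z) (nb D' D x))
    rwa [Finset.card_insert_of_notMem, ← Nat.card_eq_fintype_card] at this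
    intro k
    obtain ⟨u, u1, u2⟩ := mk_mem_nb.1 k
    exact hr (mk_mem_nb.2 ⟨u, u2, u1⟩)
  have := (lt_choose k1 k2).trans_le (h.choose_le hD' z)
  have := (le_choose k3 k4).trans (h'.choose_le hD x)
  omega

theorem exists_three {β : Type*} [DecidableEq β] [Fintype β] (h6 : 6 ≤ Fintype.card β)
    (r s t u : β) (ur : u ≠ r) (us : u ≠ s) (ut : u ≠ t) :
    ∃ σ : Perm β, σ ^ 3 = 1 ∧ σ r = r ∧ σ s = s ∧ σ t = t ∧ σ u ≠ u := by
  obtain ⟨a, ha⟩ := exists_fresh {r, s, t, u} (lt_of_le_of_lt Finset.card_le_four (by omega))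
  obtain ⟨b, hb⟩ := exists_fresh {a, r, s, t, u} (lt_of_le_of_lt
    ((Finset.card_insert_le _ _).trans (Nat.succ_le_succ Finset.card_le_four)) (by omega))
  simp only [Finset.mem_insert, Finset.mem_singleton, not_or] at ha hb
  have h3 := T_three (a := u) (b := a) (c := b) (Ne.symm ha.2.2.2) (Ne.symm hb.1)
    (Ne.symm hb.2.2.2.2)
  refine ⟨T u a b, by rw [← h3.orderOf, pow_orderOf_eq_one],
    T4 ur.symm (Ne.symm ha.1) (Ne.symm hb.2.1), T4 us.symm (Ne.symm ha.2.1) (Ne.symm hb.2.2.1),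
    T4 ut.symm (Ne.symm ha.2.2.1) (Ne.symm hb.2.2.2.1), ?_⟩
  rw [T1 (Ne.symm ha.2.2.2) (Ne.symm hb.1)]
  exact ha.2.2.2

theorem mem_alt_of_pow_three {g : Perm α} (h : g ^ 3 = 1) : g ∈ alternatingGroup α := by
  have := congrArg Perm.sign h
  rw [map_pow, map_one] at this
  rcases Int.units_eq_one_or (Perm.sign g) with s | s
  · exact s
  · rw [s] at this
    exact absurd this (by decide)

/-- three systems of blocks with trivial meets -/
theorem three_aux (hB : Trans B) {D1 D2 D3 : Setoid α} (h6 : 6 ≤ Nat.card (Quotient D1))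
    (o1 : Onto B D1) (o2 : Onto B D2) (o3 : Onto B D3) (s1 : B ≤ stabR D1) (s2 : B ≤ stabR D2)
    (s3 : B ≤ stabR D3) (n1 : Nontriv D1) (n2 : Nontriv D2) (n3 : Nontriv D3)
    (m12 : ∀ x y, D1 x y → D2 x y → x = y) (m13 : ∀ x y, D1 x y → D3 x y → x = y)
    (m23 : ∀ x y, D2 x y → D3 x y → x = y)
    (hs : alternatingGroup α ⊓ stabR D1 ⊓ stabR D2 ≤ B) : False := by
  classical
  rw [Nat.card_eq_fintype_card] at h6
  have ms : ∀ z, ∃ s, ∀ r, r ∉ nb D1 D2 z → r = s := fun z => by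
    by_cases k : ∃ s, s ∉ nb D1 D2 z
    · obtain ⟨s, hs⟩ := k
      exact ⟨s, fun r hr => o1.miss hB o2 s1 s2 n2 m12 z hr hs⟩
    · exact ⟨Quotient.mk D1 z, fun r hr => (k ⟨r, hr⟩).elim⟩
  choose ms hms using ms
  obtain ⟨⟨x, -⟩, -⟩ := id n1
  obtain ⟨s3', h3⟩ : ∃ s, ∀ r, r ∉ nb D1 D3 x → r = s := by
    by_cases k : ∃ s, s ∉ nb D1 D3 x
    · obtain ⟨s, hs⟩ := k
      exact ⟨s, fun r hr => o1.miss hB o3 s1 s3 n3 m13 x hr hs⟩
    · exact ⟨Quotient.mk D1 x, fun r hr => (k ⟨r, hr⟩).elim⟩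
  obtain ⟨r, hr⟩ := exists_fresh {Quotient.mk D1 x, ms x, s3'}
    (lt_of_le_of_lt Finset.card_le_three (by omega))
  simp only [Finset.mem_insert, Finset.mem_singleton, not_or] at hr
  obtain ⟨y, yx, rfl⟩ := mem_nb.1 (not_not.1 fun k => hr.2.2 (h3 r k))
  have fin : ∀ g ∈ B, D1 (g x) x → D2 (g x) x → D2 (g y) y → D1 (g y) y := fun g hg a b c => by
    have k := (s3 hg y x).2 yx
    rw [m12 _ _ a b] at k
    rw [m23 _ _ c (D3.trans' k (D3.symm' yx))]
  by_cases hg : ∀ z r, r ∈ nb D1 D2 z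
  · obtain ⟨σ, σ3, σ1, -, -, σ2⟩ := exists_three h6 _ _ _ _ hr.1 hr.1 hr.1
    let φ : α ≃ Quotient D1 × Quotient D2 := Equiv.ofBijective
      (fun w => (Quotient.mk D1 w, Quotient.mk D2 w))
      ⟨fun u v e => m12 u v (Quotient.exact (congrArg Prod.fst e))
        (Quotient.exact (congrArg Prod.snd e)), fun p => by
          obtain ⟨z, hz⟩ := Quotient.exists_rep p.2
          obtain ⟨w, w1, w2⟩ := mem_nb.1 (hg z p.1)
          exact ⟨w, Prod.ext w2 ((Quotient.sound w1).trans hz)⟩⟩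
    let g : Perm α := φ.symm.permCongr (σ.prodCongr (Equiv.refl _))
    have hφ : ∀ w, φ (g w) = (σ (Quotient.mk D1 w), Quotient.mk D2 w) := fun w => by
      simp only [g, permCongr_apply, symm_symm, apply_symm_apply]
      rfl
    have g1 : ∀ w, Quotient.mk D1 (g w) = σ (Quotient.mk D1 w) := fun w =>
      congrArg Prod.fst (hφ w)
    have g2 : ∀ w, Quotient.mk D2 (g w) = Quotient.mk D2 w := fun w => congrArg Prod.snd (hφ w)
    have gB : g ∈ B := hs ⟨⟨mem_alt_of_pow_three (Perm.ext fun w => m12 _ _ (Quotient.exact ?_)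
      (Quotient.exact ?_)), fun u v => ?_⟩, kerR_le D2 fun w => Quotient.exact (g2 w)⟩
    · have := fin g gB (Quotient.exact ((g1 x).trans σ1)) (Quotient.exact (g2 x))
        (Quotient.exact (g2 y))
      exact σ2 ((g1 y).symm.trans (Quotient.sound this))
    · have := congrArg (fun τ : Perm _ => τ (Quotient.mk D1 w)) σ3
      simpa [pow_succ, g1] using this
    · simp [pow_succ, g2]
    · rw [← Quotient.eq (r := D1), ← Quotient.eq (r := D1), g1, g1, EmbeddingLike.apply_eq_iff_eq]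
  push Not at hg
  obtain ⟨z0, r0, h0⟩ := hg
  have all : ∀ z, ms z ∉ nb D1 D2 z := fun z => by
    obtain ⟨g, hg, rfl⟩ := hB z0 z
    have k : actR D1 ⟨g, s1 hg⟩ r0 ∉ nb D1 D2 (g z0) := by
      rw [nb_map ⟨g, s1 hg⟩ (s2 hg)]
      simpa using h0
    rwa [hms _ _ k] at k
  obtain ⟨σ, -, σ1, σ2, σ3, σ4⟩ := exists_three h6 _ _ (ms y) _ hr.1 hr.2.1
    fun e => all y (e ▸ mem_nb.2 ⟨y, D2.refl' y, rfl⟩)
  obtain ⟨b, hb, rfl⟩ := o1 σ
  have col : ∀ z, actR D1 b (ms z) = ms z → D2 ((b : Perm α) z) z := fun z e => by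
    have k : ms z ∉ nb D1 D2 ((b : Perm α) z) := by
      rw [nb_map b (s2 hb), ← e]
      simpa using all z
    obtain ⟨u, hu⟩ := Quotient.exists_rep (ms z)
    have k' := all z
    rw [← hu, mk_mem_nb] at k k'
    refine Quotient.exact (o2.miss hB o1 s2 s1 n1 (fun a b c d => m12 a b d c) u ?_ ?_)
    · exact fun e => let ⟨w, w1, w2⟩ := mk_mem_nb.1 e; k ⟨w, w2, w1⟩
    · exact fun e => let ⟨w, w1, w2⟩ := mk_mem_nb.1 e; k' ⟨w, w2, w1⟩
  exact σ4 (Quotient.sound (fin b hb (Quotient.exact σ1) (col x σ2) (col y σ3)))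

/-- **At most three arms over a transitive group contain an imprimitive group.** -/
theorem width_imp (h26 : 26 ≤ Fintype.card α) (hG : alternatingGroup α ≤ G) (hA : Arms B G arm)
    (hB : Trans B) (hH : H ≤ B) (hm : ∀ X, B < X → X < G → NoMod H X)
    (S : Finset ι) (hS : ∀ i ∈ S, ∃ X, B < X ∧ X < G ∧ arm X = i ∧ ¬ Prim X) :
    S.card ≤ 3 := by
  classical
  have lt : ∀ D : Setoid α, Nontriv D → G ⊓ stabR D < G := fun D hn =>
    lt_of_le_of_ne inf_le_left fun e => hn.not_le (by omega) (hG.trans (inf_eq_left.1 e))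
  have hD : ∀ i ∈ S, ∃ D : Setoid α, Nontriv D ∧ B < G ⊓ stabR D ∧ arm (G ⊓ stabR D) = i := by
    intro i hi
    obtain ⟨X, h1, h2, h3, h4⟩ := hS i hi
    simp only [Prim, not_and, not_forall, not_not] at h4
    obtain ⟨D, h4, h5⟩ := h4 (hB.mono h1.le)
    have k1 : X ≤ G ⊓ stabR D := le_inf h2.le h4
    exact ⟨D, h5, h1.trans_le k1, h3 ▸ (hA.eq_of_le h1 k1 (lt D h5)).symm⟩
  choose! D d1 d2 d3 using hD
  have st : ∀ i ∈ S, B ≤ stabR (D i) := fun i hi => (d2 i hi).le.trans inf_le_right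
  have inj : ∀ i ∈ S, ∀ j ∈ S, (∀ x y, D i x y → D j x y) → (∀ x y, D j x y → D i x y) →
      i = j := fun i hi j hj k1 k2 => by
    have : D i = D j := Setoid.ext fun x y => ⟨k1 x y, k2 x y⟩
    rw [← d3 i hi, this, d3 j hj]
  let S1 := S.filter fun i => G ⊓ kerR (D i) ≤ H
  let S2 := S.filter fun i => Onto B (D i)
  have hS12 : S ⊆ S1 ∪ S2 := fun i hi => by
    simp only [S1, S2, Finset.mem_union, Finset.mem_filter]
    exact (type_alt hG hB hH (st i hi) (d1 i hi) (hm _ (d2 i hi) (lt _ (d1 i hi)))).imp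
      (fun k => ⟨hi, k⟩) fun k => ⟨hi, k⟩
  have c1 : S1.card ≤ 1 := Finset.card_le_one.2 fun i hi j hj => by
    obtain ⟨hi, ki⟩ := Finset.mem_filter.1 hi
    obtain ⟨hj, kj⟩ := Finset.mem_filter.1 hj
    exact inj i hi j hj
      (le_of_ker_le (by omega) hB (st i hi) (st j hj) (d1 i hi) (d1 j hj)
        (((inf_le_inf_right _ hG).trans ki).trans (hH.trans (st j hj))))
      (le_of_ker_le (by omega) hB (st j hj) (st i hi) (d1 j hj) (d1 i hi)
        (((inf_le_inf_right _ hG).trans kj).trans (hH.trans (st i hi))))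
  have nle : ∀ i ∈ S2, ∀ j ∈ S2, i ≠ j → ∃ x y, D i x y ∧ ¬ D j x y := fun i hi j hj ij => by
    obtain ⟨hi, ki⟩ := Finset.mem_filter.1 hi
    obtain ⟨hj, -⟩ := Finset.mem_filter.1 hj
    by_contra hc
    push Not at hc
    exact ij (inj i hi j hj hc (ki.max (st j hj) (d1 j hj) hc))
  have triv : ∀ i ∈ S2, ∀ j ∈ S2, i ≠ j → ∀ x y, D i x y → D j x y → x = y := by
    intro i hi j hj ij x y k1 k2
    by_contra xy
    have n1 := nle i hi j hj ij
    have n2 := nle j hj i hi ij.symm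
    replace hi := (Finset.mem_filter.1 hi).1
    replace hj := (Finset.mem_filter.1 hj).1
    have h0 : B ≤ G ⊓ stabR ⇑(D i ⊓ D j : Setoid α) := le_inf ((d2 i hi).le.trans inf_le_left)
      fun g hg x y => and_congr (st i hi hg x y) (st j hj hg x y)
    have h1 := lt (D i ⊓ D j) ⟨⟨x, y, xy, k1, k2⟩, let ⟨u, v, _, uv⟩ := n1; ⟨u, v, fun k => uv k.2⟩⟩
    have key : ∀ l ∈ S, G ⊓ stabR ⇑(D i ⊓ D j : Setoid α) ⊓ (G ⊓ stabR (D l)) = B →
        alternatingGroup α ⊓ stabR ⇑(D i ⊓ D j : Setoid α) ⊓ stabR (D l) ≤ B := fun l _ e g hg =>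
      e ▸ ⟨⟨hG hg.1.1, hg.1.2⟩, hG hg.1.1, hg.2⟩
    have : alternatingGroup α ⊓ stabR ⇑(D i ⊓ D j : Setoid α) ⊓ stabR (D i) ≤ B ∨
        alternatingGroup α ⊓ stabR ⇑(D i ⊓ D j : Setoid α) ⊓ stabR (D j) ≤ B := by
      rcases h0.eq_or_lt with e | e
      · exact Or.inl (key i hi (by rw [← e]; exact inf_eq_left.2 (d2 i hi).le))
      by_cases k : arm (G ⊓ stabR ⇑(D i ⊓ D j : Setoid α)) = i
      · exact Or.inr (key j hj (hA _ _ e h1 (d2 j hj) (lt _ (d1 j hj))
          (by rw [k, d3 j hj]; exact ij)).1)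
      · exact Or.inl (key i hi (hA _ _ e h1 (d2 i hi) (lt _ (d1 i hi)) (by rwa [d3 i hi])).1)
    rcases this with k | k
    · exact meet_swap hB (st i hi) (st j hj) ⟨x, y, xy, k1, k2⟩ n1 n2 (k.trans (st j hj))
    · rw [inf_comm (D i)] at k
      exact meet_swap hB (st j hj) (st i hi) ⟨x, y, xy, k2, k1⟩ n2 n1 (k.trans (st i hi))
  have aux : ∀ i ∈ S2, ∀ j ∈ S2, ∀ l ∈ S2, i ≠ j → i ≠ l → j ≠ l →
      6 ≤ Nat.card (Quotient (D i)) → False := fun i hi j hj l hl ij il jl h6 => by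
    obtain ⟨hi', ki⟩ := Finset.mem_filter.1 hi
    obtain ⟨hj', kj⟩ := Finset.mem_filter.1 hj
    obtain ⟨hl', kl⟩ := Finset.mem_filter.1 hl
    refine three_aux hB h6 ki kj kl (st i hi') (st j hj') (st l hl') (d1 i hi') (d1 j hj')
      (d1 l hl') (triv i hi j hj ij) (triv i hi l hl il) (triv j hj l hl jl) fun g hg => ?_
    rw [← (hA _ _ (d2 i hi') (lt _ (d1 i hi')) (d2 j hj') (lt _ (d1 j hj'))
      (by rwa [d3 i hi', d3 j hj'])).1]
    exact ⟨⟨hG hg.1.1, hg.1.2⟩, hG hg.1.1, hg.2⟩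
  have c2 : S2.card ≤ 2 := by
    by_contra hc
    obtain ⟨i, hi, j, hj, l, hl, ij, il, jl⟩ := Finset.two_lt_card.1 (not_le.1 hc)
    have := Nat.card_le_card_of_injective (β := Quotient (D i) × Quotient (D j))
      (fun w => (Quotient.mk _ w, Quotient.mk _ w)) fun u v e => triv i hi j hj ij u v
        (Quotient.exact (congrArg Prod.fst e)) (Quotient.exact (congrArg Prod.snd e))
    rw [Nat.card_prod, Nat.card_eq_fintype_card] at this
    by_cases k : 6 ≤ Nat.card (Quotient (D i))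
    · exact aux i hi j hj l hl ij il jl k
    refine aux j hj i hi l hl ij.symm jl il ?_
    by_contra k'
    have := Nat.mul_le_mul (show Nat.card (Quotient (D i)) ≤ 5 by omega)
      (show Nat.card (Quotient (D j)) ≤ 5 by omega)
    omega
  have := (Finset.card_le_card hS12).trans (Finset.card_union_le _ _)
  omega

end Vale.Agent.P183AL
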