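import Vale.Agent.P183AL.Nd

/-!
Nodes whose socle is not simple.
-/

namespace Vale.Agent.P183AL

open Equiv Equiv.Perm Subgroup Vale.Agent.P183A

variable {α : Type} [DecidableEq α] [Fintype α]
variable {a E K E' H X A' D' : Subgroup (Perm α)} {x : α}

/-- a node with a hair does not meet a socle that is not simple in a subdirect subgroup -/
theorem Nd.nonsub (h : Nd K E') (h0 : Nd a E) (hH : H ≤ X) (hK : K ≤ H ⊔ E')
    (hX : X < K) (hE : E ≤ X ⊓ E')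
    (hz : ∃ z, H < z ∧ z < X ∧ ∀ u, z ≤ u → u ≤ K → u ≤ X ∨ X ≤ u) : ¬ Sdp E' (X ⊓ E') := by
  intro hs
  have c := h.cr
  have nH : Nm H E' := h.nm.mono (hH.trans hX.le)
  have nY : Nm H (X ⊓ E') := (Nm.of_le hH).inf nH
  have h1 : ∀ T, Atom E' ⊥ T → X ⊓ E' ⊓ T = ⊥ := fun T => c.sdp_inf (h.mn_of hK) nH nY inf_le_right
    (fun e => hX.not_ge (hK.trans (sup_le hH (inf_eq_right.1 e)))) hs
  obtain ⟨x, -⟩ := exists_fresh (α := α) ∅ (by have := h.big; simp; omega)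
  refine (h.dich x).elim (fun hp => ?_) fun hd => h0.st_ne x (eq_bot_iff.2 fun g hg => ?_)
  swap
  · rw [← inf_eq_bot_of_card inf_le_right St_le (fun e he => ?_) (c.sdp_card inf_le_right hs h1)
      (c.sdp_card St_le hd fun T => c.sdp_inf (h.mn_of (h.le_st x)) (h.nm.mono St_le) (h.nm_st x)
        St_le (fun e => h.not_le_st nl_self h.ne x e.ge) hd)]
    · exact ⟨hE hg.1, (hE hg.1).2, hg.2⟩
    obtain ⟨y, hy, k⟩ := h0.trans x (e x)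
    exact ⟨y, hE hy, y⁻¹ * e, mem_St.2 ⟨E'.mul_mem (E'.inv_mem (hE hy).2) he, by simp [← k]⟩,
      by simp⟩
  have h2 : Atom E' (X ⊓ E') E' := by
    obtain ⟨A, -, hA⟩ := (c.split_self inf_le_right).exists_atom h.ne
    by_cases e : A = E'
    · exact e ▸ hA
    have k1 := fam_atom c St_le h.sw_st h.norm (hp A hA.nl) hA.ne e fun k hk => by
      obtain ⟨e, he, l, hl, rfl⟩ := nH.mem_sup'.1 (hK hk)
      have k2 := hA.cnj (cnj_eq_of_nm nH hl)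
      rw [cnj_eq_of_nm nY hl] at k2
      rw [← cnj_cnj, cnj_eq_of_nm k2.nl.2 he]
      exact ((eq_or_ne _ A).imp_right fun k3 => c.eq_bot hA.nl inf_le_right
        (inf_le_left.trans (c.atom_cm inf_le_right k2 hA k3)))
    obtain ⟨T, k2, hT⟩ := hA.nl.split.exists_atom hA.ne
    obtain rfl := (k1.eq (hp T hT.nl) k2).resolve_left hT.ne
    refine (hT.ne (eq_bot_iff.2 fun t ht => (h1 T hT).le ⟨?_, ht⟩)).elim
    obtain ⟨y, hy, rfl⟩ := hs T hT t ht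
    exact c.split_pr hA.split hy
  obtain ⟨T, -, hT⟩ := nl_self.split.exists_atom h.ne
  have inj : ∀ y ∈ X ⊓ E', pr T y = 1 → y = 1 := fun y hy e =>
    c.sdp_inj inf_le_right hs h2 hT hy (c.cent_of_pr hT.nl hy.2 e)
  obtain ⟨z, z1, z2, z3⟩ := hz
  have ded : ∀ u, H ≤ u → u ≤ K → u ≤ H ⊔ (u ⊓ E') := fun u u1 u2 => by
    rw [inf_comm, ← nH.dedekind u1]
    exact le_inf (u2.trans hK) le_rfl
  obtain ⟨u, u1, u2, u3, u4⟩ := c.exists_clo nH z1.le ((z2.trans hX).le.trans hK)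
  rcases z3 u u1 (u2.trans (sup_le (hH.trans hX.le) h.le)) with k | k
  · refine z1.not_ge ((ded z z1.le (z2.trans hX).le).trans (sup_le le_rfl fun y hy => ?_))
    rw [inj y ⟨z2.le hy.1, hy.2⟩ (mem_bot.1 ((h1 T hT).le ⟨inf_le_inf_right _ k
      (c.split_pr (u3 T hT) ⟨u1 hy.1, hy.2⟩), pr_mem _ _⟩))]
    exact H.one_mem
  · refine z2.not_ge ((ded X hH hX.le).trans (sup_le z1.le fun y hy => ?_))
    obtain ⟨w, hw, e⟩ := u4 T hT y ⟨k hy.1, hy.2⟩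
    have := inj (w⁻¹ * y) (mul_mem (inv_mem (inf_le_inf_right _ z2.le hw)) hy) (by
      rw [c.pr_mul hT.nl (E'.inv_mem hw.2) hy.2, c.pr_inv hT.nl hw.2, e, inv_mul_cancel])
    exact inv_mul_eq_one.1 this ▸ hw.1

/-- the smaller socle is the product of its intersections with the factors of the larger one -/
theorem Nd.pos {ι : Type*} {arm : Subgroup (Perm α) → ι} (h : Nd K E') (h0 : Nd a E)
    (hH : H ≤ a) (hK : K ≤ H ⊔ E') (hE : E ≤ E') (hA : Arms a K arm)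
    (hz : ∀ X, a < X → X < K → ∃ z, H < z ∧ z < X ∧ ∀ u, z ≤ u → u ≤ K → u ≤ X ∨ X ≤ u)
    {X₁ X₂ : Subgroup (Perm α)} (a1 : a < X₁) (b1 : X₁ < K) (a2 : a < X₂) (b2 : X₂ < K)
    (hne : arm X₁ ≠ arm X₂) (W : Subgroup (Perm α)) (hW : Nl E' W) : Split E' E W := by
  have c := h.cr
  have aK := (a1.trans b1).le
  have nH : Nm H E' := h.nm.mono (hH.trans aK)
  have key : ∀ X, a < X → X < K → ∃ X', X ≤ X' ∧ X' < K ∧
      ∀ T, Atom E' ⊥ T → Split E' (X' ⊓ E') T := fun X k1 k2 => by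
    obtain ⟨u, u1, u2, u3, u4⟩ := c.exists_clo nH (hH.trans k1.le) (k2.le.trans hK)
    refine ⟨u, u1, lt_of_le_of_ne (u2.trans (sup_le (hH.trans aK) h.le)) fun e =>
      h.nonsub h0 (hH.trans k1.le) hK k2 (le_inf (h0.le.trans k1.le) hE) (hz X k1 k2)
        fun T hT t ht => ?_, u3⟩
    obtain ⟨y, hy, k⟩ := u4 T hT t ⟨e ▸ h.le (hT.nl.1 ht), hT.nl.1 ht⟩
    exact ⟨y, hy, k.trans (c.pr_of_mem hT.nl ht)⟩
  obtain ⟨Y₁, c1, d1, e1⟩ := key X₁ a1 b1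
  obtain ⟨Y₂, c2, d2, e2⟩ := key X₂ a2 b2
  have e := (hA Y₁ Y₂ (a1.trans_le c1) d1 (a2.trans_le c2) d2
    (by rwa [← hA.eq_of_le a1 c1 d1, ← hA.eq_of_le a2 c2 d2])).1
  refine c.split_perfect (Y := a ⊓ E') inf_le_right (le_inf h0.le hE) (h0.nm.mono inf_le_left)
    h0.perf (c.split_all inf_le_right (fun T hT => c.split_of inf_le_right hT.nl fun d hd => ?_) hW)
  rw [← e] at hd ⊢
  exact ⟨⟨(c.split_pr (e1 T hT) ⟨hd.1.1, hd.2⟩).1, (c.split_pr (e2 T hT) ⟨hd.1.2, hd.2⟩).1⟩,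
    hT.nl.1 (pr_mem _ _)⟩

theorem Nd.pr_inf (h0 : Nd a E) (c : Cr E') (hE : E ≤ E') (hn : Nm E A') (hs : Split E' E A')
    {d : Perm α} (hd : d ∈ E) : pr (E ⊓ A') d = pr A' d :=
  h0.cr.pr_eq ⟨inf_le_left, nl_self.2.inf hn⟩ ⟨c.split_pr hs hd, pr_mem _ _⟩
    fun u hu => c.pr_cent hs.1 (hE hd) u hu.2

/-- atoms of the larger socle meet the smaller socle in atoms -/
theorem Nd.fam (h0 : Nd a E) (c : Cr E') (hE : E ≤ E') (hp : ∀ W, Nl E' W → Split E' E W)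
    (hD : D' ≤ E') (hi : ∀ k ∈ a, ∀ A, Atom E' D' A → Atom E' D' (cnj k A))
    (ht : ∀ A A', Atom E' D' A → Atom E' D' A' → ∃ k ∈ a, cnj k A = A')
    (hsw : ∀ A A', Atom E (E ⊓ D') A → Atom E (E ⊓ D') A' → A ≠ A' → Sw E A A')
    (hA : Atom E' D' A') (hne : A' ≠ E') : Atom E (E ⊓ D') (E ⊓ A') ∧ E ⊓ A' ≠ E := by
  have h1 : ∀ A, Atom E' D' A → E ⊓ A ≠ ⊥ := fun A hA => by
    obtain ⟨e, he, e1⟩ := (Subgroup.bot_or_exists_ne_one E).resolve_left h0.ne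
    obtain ⟨U, -, hU, k⟩ := c.exists_atom hD (c.split_self hD) (hE he) e1
    obtain ⟨l, hl, rfl⟩ := ht U A hU hA
    rw [← cnj_eq_of_nm h0.nm hl, ← cnj_inf]
    exact cnj_ne_bot fun k' => k (c.cent_of_pr hU.nl (hE he)
      (mem_bot.1 (k'.le ⟨c.split_pr (hp U hU.nl) he, pr_mem _ _⟩)))
  have h2 : E ⊓ A' ≠ E := fun e => by
    obtain ⟨U, k, hU⟩ := (c.split_cz hD hA.split).exists_atom (c.cz_ne hA.nl hne)
    exact h1 U hU (c.eq_bot hA.nl (inf_le_left.trans (inf_eq_left.1 e))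
      (inf_le_right.trans (k.trans inf_le_right)))
  have h3 := hA.nl.2.mono hE
  refine ⟨fam_atom h0.cr inf_le_left hsw h0.norm (h0.cr.split_of inf_le_left
    ⟨inf_le_left, nl_self.2.inf h3⟩ fun d hd => ?_) (h1 _ hA) h2 fun k hk => ?_, h2⟩
  · rw [h0.pr_inf c hE h3 (hp _ hA.nl) hd.1]
    exact ⟨c.split_pr (hp _ hA.nl) hd.1, c.split_pr hA.split hd.2⟩
  · rw [cnj_inf, cnj_eq_of_nm h0.nm hk]
    exact (eq_or_ne (cnj k A') A').imp (fun e => by rw [e]) fun e => c.eq_bot hA.nl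
      (inf_le_right.trans inf_le_right)
      (inf_le_left.trans (inf_le_right.trans (c.atom_cm hD (hi k hk _ hA) hA e)))

omit [DecidableEq α] [Fintype α] in
theorem cnj_of_sup {A U : Subgroup (Perm α)} (hn : Nm a E') (hA : Nl E' A) {k : Perm α}
    (hk : k ∈ a ⊔ E') (e : cnj k A = U) : ∃ l ∈ a, cnj l A = U := by
  obtain ⟨l, hl, u, hu, rfl⟩ := hn.mem_sup.1 hk
  exact ⟨l, hl, by rwa [← cnj_cnj, cnj_eq_of_nm hA.2 hu] at e⟩

theorem Nd.fam_st (h : Nd K E') (h0 : Nd a E) (ha : a ≤ K) (hK : K ≤ a ⊔ E') (hE : E ≤ E')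
    (hp : ∀ W, Nl E' W → Split E' E W) (hA : Atom E' (St E' x) A') (hne : A' ≠ E') :
    Atom E (St E x) (E ⊓ A') ∧ E ⊓ A' ≠ E := by
  have e : E ⊓ St E' x = St E x := le_antisymm (fun g hg => ⟨hg.1, hg.2.2⟩)
    fun g hg => ⟨hg.1, hE hg.1, hg.2⟩
  rw [← e]
  exact h0.fam h.cr hE hp St_le (fun k hk A hA => h.atom_move hA (ha hk))
    (fun A A' hA hA' =>
      let ⟨_, hk, e⟩ := h.atom_tr hA hA'
      cnj_of_sup (h.nm.mono ha) hA.nl (hK hk.1) e) (e.symm ▸ h0.sw_st) hA hne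

/-- the Hamming graph is determined by the smaller node -/
theorem Nd.adj_eq (h : Nd K E') (h0 : Nd a E) (ha : a ≤ K) (hK : K ≤ a ⊔ E') (hE : E ≤ E')
    (hp : ∀ W, Nl E' W → Split E' E W) (hs : ¬ Atom E' (St E' x) E') : adj E' = adj E := by
  have hne : ∀ z A, Atom E' (St E' z) A → A ≠ E' := fun z A hA e => hs (by
    simpa only [cnj_one, e] using h.atom_move hA K.one_mem)
  ext y z
  constructor
  · rintro ⟨A, hA, g, hg, rfl⟩
    obtain ⟨e, he, k⟩ := h0.trans z (g z)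
    have k1 := h.cr.split_pr hA.split (g := e⁻¹ * g)
      (mem_St.2 ⟨E'.mul_mem (E'.inv_mem (hE he)) (hA.nl.1 hg), by simp [← k]⟩)
    rw [h.cr.pr_mul hA.nl (E'.inv_mem (hE he)) (hA.nl.1 hg), h.cr.pr_inv hA.nl (hE he),
      h.cr.pr_of_mem hA.nl hg] at k1
    exact ⟨_, (h.fam_st h0 ha hK hE hp hA (hne z A hA)).1, pr A e,
      ⟨h.cr.split_pr (hp A hA.nl) he, pr_mem _ _⟩,
      (Perm.inv_eq_iff_eq.1 (mem_St.1 k1).2).symm⟩
  · rintro ⟨A, hA, g, hg, rfl⟩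
    obtain ⟨U, -, hU⟩ := (h.cr.split_self (St_le (x := z))).exists_atom h.ne
    obtain ⟨k, hk, rfl⟩ := h0.atom_tr (h.fam_st h0 ha hK hE hp hU (hne z U hU)).1 hA
    exact ⟨_, h.atom_move hU (ha hk.1), g, hg.2, rfl⟩

/-- no proper inclusion with a diagonal group at the bottom -/
theorem Nd.sd_false (h : Nd K E') (h0 : Nd a E) (ha : a < K) (hK : K ≤ a ⊔ E') (hE : E ≤ E')
    (hp : ∀ W, Nl E' W → Split E' E W) (hn : ¬ Atom E' ⊥ E') (hn0 : ¬ Atom E ⊥ E)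
    (hs0 : Atom E (St E x) E) : False := by
  have c := h.cr
  by_cases hs : Atom E' (St E' x) E'
  swap
  · obtain ⟨U, -, hU⟩ := (c.split_self (St_le (x := x))).exists_atom h.ne
    obtain ⟨k1, k2⟩ := h.fam_st h0 ha.le hK hE hp hU fun e => hs (e ▸ hU)
    exact (hs0.eq k1.split inf_le_left).elim k1.ne k2
  refine ha.not_ge (hK.trans (sup_le le_rfl ((c.le_of_atoms fun T hT s hs' => ?_).trans h0.le)))
  obtain ⟨U, k1, hU⟩ := hT.nl.cz.split.exists_atom (c.cz_ne hT.nl fun e => hn (e ▸ hT))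
  have k2 := (h0.fam c hE hp bot_le (fun k hk A hA => hA.cnj_bot (cnj_eq_of_nm h.nm (ha.le hk)))
    (fun A A' hA hA' =>
      let ⟨_, hk, e⟩ := h.fac_tr hA hA'
      cnj_of_sup (h.nm.mono ha.le) hA.nl (hK hk) e) ((inf_bot_eq E).symm ▸ h0.sw_bot hs0 hn0) hU
    fun e => hn (e ▸ hU)).1
  rw [inf_bot_eq] at k2
  obtain ⟨e, he, k3⟩ := h0.trans x (s x)
  obtain ⟨d, hd, k4⟩ := h0.sdp_of_sd hs0 hn0 _ k2 (pr U e) ⟨c.split_pr (hp U hU.nl) he, pr_mem _ _⟩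
  rw [h0.pr_inf c hE (hU.nl.2.mono hE) (hp U hU.nl) hd.1] at k4
  have s1 := hT.nl.1 hs'
  have k5 : e⁻¹ * s ∈ St E' x := mem_St.2 ⟨E'.mul_mem (E'.inv_mem (hE he)) s1, by simp [← k3]⟩
  have k6 := c.sdp_inj St_le (h.sdp_of_sd hs hn) hs hU (g := d * (e⁻¹ * s))
    (mul_mem ⟨hE hd.1, hd.2⟩ k5) (c.cent_of_pr hU.nl (E'.mul_mem (hE hd.1) k5.1) (by
      rw [c.pr_mul hU.nl (hE hd.1) k5.1, c.pr_mul hU.nl (E'.inv_mem (hE he)) s1,
        c.pr_inv hU.nl (hE he), k4, c.pr_of_cent hU.nl fun u hu => ((k1 hu).2 s hs').symm]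
      simp))
  rw [← mul_assoc, mul_eq_one_iff_inv_eq] at k6
  exact k6 ▸ E.inv_mem (E.mul_mem hd.1 (E.inv_mem he))

end Vale.Agent.P183AL
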