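import Vale.Agent.P183AL.Theta

/-!
Primitive groups with a unique nonabelian minimal normal subgroup `E` that contain all even
permutations normalising `E`.
-/

namespace Vale.Agent.P183AL

open Equiv Equiv.Perm Subgroup Vale.Agent.P183A
open scoped commutatorElement

theorem Cr.exists_clo {Γ : Type} [Group Γ] {E H X : Subgroup Γ} (h : Cr E) (hH : Nm H E)
    (h1 : H ≤ X) (h2 : X ≤ H ⊔ E) : ∃ X', X ≤ X' ∧ X' ≤ H ⊔ E ∧
      (∀ T, Atom E ⊥ T → Split E (X' ⊓ E) T) ∧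
      ∀ T, Atom E ⊥ T → ∀ e ∈ X' ⊓ E, ∃ y ∈ X ⊓ E, pr T y = pr T e := by
  obtain ⟨P, p1, p2, p3, p4, p5⟩ := h.exists_pcl (Y := X ⊓ E) inf_le_right hH
    ((Nm.of_le h1).inf hH)
  have e : (H ⊔ P) ⊓ E = P := by
    rw [p3.dedekind' p2]
    exact sup_eq_right.2 ((inf_le_inf_right _ h1).trans p1)
  refine ⟨H ⊔ P, ?_, sup_le_sup_left p2 _, e.symm ▸ p4, e.symm ▸ p5⟩
  rw [← inf_eq_right.2 h2, hH.dedekind h1, inf_comm]
  exact sup_le_sup_left p1 _

theorem Cr.split_perfect {Γ : Type} [Group Γ] {E Y N W : Subgroup Γ} (h : Cr E) (hY : Y ≤ E)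
    (hN : N ≤ Y) (hn : Nm Y N) (hp : N ≤ ⁅N, N⁆) (hW : Split E Y W) : Split E N W := by
  have hE := hN.trans hY
  let S : Subgroup Γ :=
    { carrier := {n | n ∈ N ∧ pr W n ∈ N}
      one_mem' := ⟨N.one_mem, (h.pr_one hW.1).symm ▸ N.one_mem⟩
      mul_mem' := fun {a b} ha hb => ⟨N.mul_mem ha.1 hb.1, by
        rw [h.pr_mul hW.1 (hE ha.1) (hE hb.1)]
        exact N.mul_mem ha.2 hb.2⟩
      inv_mem' := fun {a} ha => ⟨N.inv_mem ha.1, by
        rw [h.pr_inv hW.1 (hE ha.1)]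
        exact N.inv_mem ha.2⟩ }
  have : ⁅N, N⁆ ≤ S := commutator_le.2 fun a ha b hb => by
    have k1 := N.mul_mem ha hb
    have k2 := N.mul_mem k1 (N.inv_mem ha)
    refine ⟨N.mul_mem k2 (N.inv_mem hb), ?_⟩
    rw [commutatorElement_def, h.pr_mul hW.1 (hE k2) (hE (N.inv_mem hb)),
      h.pr_mul hW.1 (hE k1) (hE (N.inv_mem ha)), h.pr_mul hW.1 (hE ha) (hE hb),
      h.pr_inv hW.1 (hE ha), h.pr_inv hW.1 (hE hb), h.pr_conj hW.1 (hE ha) (pr_mem _ _)]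
    simpa [mul_assoc] using N.mul_mem ha (hn _ (h.split_pr hW (hN hb)) _ (N.inv_mem ha))
  exact h.split_of hE hW.1 fun n hn => (this (hp hn)).2

variable {α : Type} [DecidableEq α] [Fintype α] {E D K W A A' : Subgroup (Perm α)} {x : α}

/-- the structure of a node -/
structure Nd (K E : Subgroup (Perm α)) : Prop where
  big : 3 ≤ Fintype.card α
  prim : Prim K
  le : E ≤ K
  nm : Nm K E
  ne : E ≠ ⊥
  mn : ∀ W ≤ K, Nm K W → W = ⊥ ∨ E ≤ W
  perf : E ≤ ⁅E, E⁆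
  norm : ∀ g ∈ alternatingGroup α, (∀ e ∈ E, g * e * g⁻¹ ∈ E) → g ∈ K

namespace Nd

variable (h : Nd K E)
include h

theorem trans : Trans E := h.prim.trans_of_norm h.nm h.ne

theorem mn_of {L : Subgroup (Perm α)} (hL : K ≤ L ⊔ E) : Mn L E := fun W hW hn =>
  (h.mn W (hW.1.trans h.le) ((hn.sup_left hW.2).mono hL)).imp_right (le_antisymm hW.1)

theorem le_st (x : α) : K ≤ St K x ⊔ E := fun k hk => by
  obtain ⟨e, he, k1⟩ := h.trans (k x) x
  have : e * k ∈ St K x := ⟨K.mul_mem (h.le he) hk, k1⟩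
  simpa using mul_mem (mem_sup_right (E.inv_mem he) : _ ∈ St K x ⊔ E) (mem_sup_left this)

theorem nm_st (x : α) : Nm (St K x) (St E x) := fun k hk d hd => ⟨h.nm k hk.1 d hd.1,
  Nm.of_le (Y := MulAction.stabilizer (Perm α) x) le_rfl k hk.2 d hd.2⟩

theorem cent : centralizer (E : Set (Perm α)) = ⊥ := by
  by_contra hc
  have ht := h.prim.trans_of_norm h.nm.centralizer hc
  have h1 : centralizer (E : Set (Perm α)) ⊓ alternatingGroup α = ⊥ :=
    (h.mn (_ ⊓ _) (fun g hg => h.norm g hg.2 fun e he => by rw [← hg.1 e he]; simpa using he)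
      (h.nm.centralizer.inf (Nm.of_normal _ _))).resolve_right fun k => h.ne (eq_bot_iff.2
        (h.perf.trans (cm_iff_comm.1 (cm_iff.2 (k.trans inf_le_left))).le))
  obtain ⟨x, -⟩ := exists_fresh (α := α) ∅ (by have := h.big; simp; omega)
  obtain ⟨y, hy⟩ := exists_fresh {x} (by have := h.big; simp; omega)
  obtain ⟨z, hz⟩ := exists_fresh {x, y} (lt_of_le_of_lt Finset.card_le_two h.big)
  simp only [Finset.mem_insert, Finset.mem_singleton, not_or] at hy hz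
  have odd : ∀ c ∈ centralizer (E : Set (Perm α)), c x ≠ x → Perm.sign c = -1 := fun c hc k =>
    (Int.units_eq_one_or _).resolve_left fun s => k (by rw [mem_bot.1 (h1.le ⟨hc, s⟩)]; rfl)
  obtain ⟨c, c1, rfl⟩ := ht x y
  obtain ⟨d, d1, rfl⟩ := ht x z
  have := mem_bot.1 (h1.le (mem_inf.2 ⟨mul_mem (inv_mem c1) d1, by
    simp [mem_alternatingGroup, odd c c1 hy, odd d d1 hz.1]⟩))
  exact hz.2 (by rw [inv_mul_eq_one.1 this])

theorem cr : Cr E := ⟨fun _ hW => (h.mn_of le_sup_left).le_sup h.nm hW, by rw [Cz, h.cent, inf_bot_eq]⟩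

theorem st_ne (x : α) : St E x ≠ ⊥ := fun hc => by
  obtain ⟨u, hu, u1⟩ := (Subgroup.bot_or_exists_ne_one E).resolve_left h.ne
  have reg : ∀ a ∈ E, ∀ b ∈ E, a x = b x → a = b := fun a ha b hb e =>
    inv_mul_eq_one.1 (mem_bot.1 (hc.le (mem_St.2 ⟨E.mul_mem (E.inv_mem ha) hb, by simp [← e]⟩)))
  choose s hs e using h.trans x
  let g : Perm α := Equiv.ofBijective (fun y => (s y * u) x)
    (Finite.injective_iff_bijective.1 fun y z k => by
      rw [← e y, mul_right_cancel (reg _ (E.mul_mem (hs y) hu) _ (E.mul_mem (hs z) hu) k), e])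
  have : g ∈ centralizer (E : Set (Perm α)) := fun a ha => Perm.ext fun y => by
    show a ((s y * u) x) = (s (a y) * u) x
    rw [reg _ (hs (a y)) _ (E.mul_mem ha (hs y)) (by simp [e])]
    rfl
  rw [h.cent, mem_bot] at this
  have k : (s x * u) x = x := congrArg (fun σ : Perm α => σ x) this
  rw [reg _ (hs x) 1 E.one_mem (e x), one_mul] at k
  exact u1 (reg _ hu 1 E.one_mem k)

theorem not_le_st (hA : Nl E A) (hne : A ≠ ⊥) (x : α) : ¬ A ≤ St E x := fun k =>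
  hne (eq_bot_iff.2 fun a ha => Perm.ext fun y => by
    obtain ⟨e, he, rfl⟩ := h.trans x y
    have : (e⁻¹ * a * e⁻¹⁻¹) x = x := (k (hA.2 _ (E.inv_mem he) a ha)).2
    simpa [Equiv.symm_apply_eq] using this)

theorem dich (x : α) : (∀ W, Nl E W → Split E (St E x) W) ∨ Sdp E (St E x) := by
  obtain ⟨X, h1, h2, h3, h4⟩ := h.cr.exists_clo (h.nm.mono St_le) le_rfl
    (le_sup_left : St K x ≤ _)
  have e : St K x ⊓ E = St E x := le_antisymm (fun g hg => ⟨hg.2, hg.1.2⟩)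
    fun g hg => ⟨⟨h.le hg.1, hg.2⟩, hg.1⟩
  refine (h.prim.max x (h2.trans (sup_le St_le h.le)) fun g hg k => h1 ⟨hg, k⟩).imp
    (fun k W hW => h.cr.split_all St_le (fun T hT => ?_) hW) fun k T hT t ht => ?_
  · have : X ⊓ E = St E x := le_antisymm (fun g hg => ⟨hg.2, k g hg.1⟩)
      (e ▸ inf_le_inf_right _ h1)
    exact this ▸ h3 T hT
  · obtain ⟨y, hy, k'⟩ := h4 T hT t ⟨k ▸ h.le (hT.nl.1 ht), hT.nl.1 ht⟩
    exact ⟨y, e ▸ hy, k'.trans (h.cr.pr_of_mem hT.nl ht)⟩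

theorem atom_move {y : α} (hA : Atom E (St E x) A) {k : Perm α} (hk : k ∈ K) :
    Atom E (St E y) (cnj k A) := by
  obtain ⟨e, he, k1⟩ := h.trans (k x) y
  have k2 := cnj_eq_of_nm h.nm (K.mul_mem (h.le he) hk)
  have := hA.cnj k2
  rwa [cnj_St k2, ← cnj_cnj, cnj_eq_of_nm (hA.nl.cnj (cnj_eq_of_nm h.nm hk)).2 he,
    Perm.mul_apply, k1] at this

theorem atom_tr (hA : Atom E (St E x) A) (hA' : Atom E (St E x) A') :
    ∃ k ∈ St K x, cnj k A = A' :=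
  h.cr.atom_trans St_le (h.mn_of (h.le_st x)) (h.nm.mono St_le) (h.nm_st x) hA hA'

theorem fac_tr (hA : Atom E ⊥ A) (hA' : Atom E ⊥ A') : ∃ k ∈ K, cnj k A = A' :=
  h.cr.atom_trans bot_le (h.mn_of le_sup_left) h.nm (fun _ _ _ k => by simp [mem_bot.1 k]) hA hA'

theorem sw_st (A A' : Subgroup (Perm α)) (hA : Atom E (St E x) A) (hA' : Atom E (St E x) A')
    (hne : A ≠ A') : Sw E A A' :=
  let ⟨_, hk, e⟩ := h.atom_tr hA hA'
  sw_of_conj h.cr h.trans hA.split hA'.split (h.cr.atom_cm St_le hA' hA hne.symm) hk.2 e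

theorem sdp_of_sd (hs : Atom E (St E x) E) (hn : ¬ Atom E ⊥ E) : Sdp E (St E x) :=
  (h.dich x).resolve_left fun k => hn ⟨⟨nl_self.split, h.ne⟩, fun W hW hle =>
    hs.2 ⟨k W hW.1.1, hW.2⟩ hle⟩

theorem sw_bot (hs : Atom E (St E x) E) (hn : ¬ Atom E ⊥ E) (A A' : Subgroup (Perm α))
    (hA : Atom E ⊥ A) (hA' : Atom E ⊥ A') (hne : A ≠ A') : Sw E A A' :=
  have k := h.sdp_of_sd hs hn
  sw_of_diag h.cr h.trans hA.nl hA'.nl (h.cr.atom_cm bot_le hA' hA hne.symm) (k A hA) (k A' hA')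
    (fun _ => h.cr.sdp_inj St_le k hs hA) fun _ => h.cr.sdp_inj St_le k hs hA'

end Nd

/-- the Hamming graph -/
def adj (E : Subgroup (Perm α)) (y z : α) : Prop := ∃ A, Atom E (St E z) A ∧ ∃ a ∈ A, a z = y

theorem Nd.le_adj (h : Nd K E) : K ≤ stabR (adj E) := by
  have key : ∀ k ∈ K, ∀ y z, adj E y z → adj E (k y) (k z) := by
    rintro k hk _ z ⟨A, hA, a, ha, rfl⟩
    exact ⟨_, h.atom_move hA hk, _, conj_mem_cnj.2 ha, by simp⟩
  exact fun k hk y z => ⟨fun e => by simpa using key _ (K.inv_mem hk) _ _ e, key k hk y z⟩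

theorem Nd.not_le_adj (h4 : 4 ≤ Fintype.card α) (h : Nd K E) (hA : Atom E (St E x) A)
    (hne : A ≠ E) : ¬ alternatingGroup α ≤ stabR (adj E) := by
  obtain ⟨A', k1, hA'⟩ := (h.cr.split_cz St_le hA.split).exists_atom (h.cr.cz_ne hA.nl hne)
  obtain ⟨a, ha, a1⟩ := SetLike.not_le_iff_exists.1 (h.not_le_st hA.nl hA.ne x)
  obtain ⟨b, hb, b1⟩ := SetLike.not_le_iff_exists.1 (h.not_le_st hA'.nl hA'.ne x)
  have key : ∀ U V, Atom E (St E x) U → ∀ u ∈ U, u ∉ St E x → Nl E V → ∀ v ∈ V,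
      v ∈ centralizer (U : Set (Perm α)) → ∀ c ∈ E, c ∈ centralizer (U : Set (Perm α)) →
      c x ≠ (u * v) x := fun U V hU u hu u1 hV v hv v1 c hc c1 e => by
    have k : c⁻¹ * (u * v) ∈ St E x := mem_St.2 ⟨E.mul_mem (E.inv_mem hc)
      (E.mul_mem (hU.nl.1 hu) (hV.1 hv)), by rw [Perm.mul_apply, ← e]; simp⟩
    have := h.cr.split_pr hU.split k
    rw [h.cr.pr_eq hU.nl hu (by
      rw [← mul_assoc, ← mul_assoc, inv_mem c1 _ (U.inv_mem hu)]
      simpa [mul_assoc] using mul_mem (inv_mem c1) v1)] at this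
    exact u1 this
  have ab := (k1 hb).2
  refine alt_not_le_stabR h4 (x := a x) (y := x) (z := (a * b) x) (w := x)
    (fun e => a1 ⟨hA.nl.1 ha, e⟩) (key A A' hA a ha a1 hA'.nl b hb ab 1 E.one_mem (one_mem _)).symm
    ⟨A, hA, a, ha, rfl⟩ ?_
  rintro ⟨U, hU, c, hc, e⟩
  by_cases k : U = A
  · rw [ab a ha] at e
    exact key A' A hA' b hb b1 hA.nl a ha (fun u hu => ((k1 hu).2 a ha).symm) c (hU.nl.1 hc)
      (fun u hu => ((k1 hu).2 c (k ▸ hc)).symm) e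
  · exact key A A' hA a ha a1 hA'.nl b hb ab c (hU.nl.1 hc) (h.cr.atom_cm St_le hU hA k hc) e

end Vale.Agent.P183AL
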