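import Vale.Agent.P183AL.Theta

/-!
Primitive actions of small degree of a group with an alternating normal subgroup are actions on
subsets; chains of alternating groups.
-/

namespace Vale.Agent.P183AL

open Equiv Equiv.Perm Subgroup Vale.Agent.P183A Vale.Agent.P240.H195

theorem two_le_choose : ∀ {l r : ℕ}, 2 ≤ r → r + 2 ≤ l → l.choose 2 ≤ l.choose r
  | 0, _, _, h => by omega
  | _ + 1, 0, h, _ => by omega
  | l + 1, r + 1, h1, h2 => by
    rcases (show r = 1 ∨ r + 2 = l ∨ (2 ≤ r ∧ r + 3 ≤ l) by omega) with rfl | rfl | h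
    · exact le_rfl
    · exact (Nat.choose_symm_of_eq_add (by omega)).le
    have k1 := two_le_choose h.1 (by omega : r + 2 ≤ l)
    have k2 := le_choose (b := l) (k := r + 1) (by omega) (by omega)
    rw [Nat.choose_succ_succ, Nat.choose_succ_succ' l r, Nat.choose_one_right]
    simp only [Nat.succ_eq_add_one, Nat.reduceAdd]
    omega

theorem le_two_pow {l : ℕ} (h : 288 ≤ l) : l ≤ 2 ^ (l / 32) := by
  have key : ∀ s, 9 ≤ s → 32 * (s + 1) ≤ 2 ^ s := fun s hs => by
    induction s, hs using Nat.le_induction with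
    | base => norm_num
    | succ s hs ih => rw [pow_succ]; omega
  have := key (l / 32) (by omega)
  omega

theorem factorial_lt {l m : ℕ} (h : 288 ≤ l) (hm : l.choose 2 ≤ m ∨ 2 ^ (l / 8) ≤ 2 * m) :
    l.factorial < 2 ^ (m / 8) := by
  have h1 := le_two_pow h
  obtain ⟨s, hs⟩ : ∃ s, s = l / 32 := ⟨_, rfl⟩
  rw [← hs] at h1
  have h2 : l * (16 * s + 1) ≤ l * (l - 1) := Nat.mul_le_mul_left _ (by omega)
  have h3 : l * (l - 1) ≤ 2 * m + 1 := by
    rcases hm with k | k
    · rw [Nat.choose_two_right] at k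
      omega
    · calc _ ≤ 2 ^ s * 2 ^ s := Nat.mul_le_mul h1 (by omega)
        _ ≤ 2 ^ (l / 8) := by rw [← pow_add]; exact Nat.pow_le_pow_right two_pos (by omega)
        _ ≤ _ := by omega
  calc _ ≤ l ^ l := Nat.factorial_le_pow l
    _ ≤ (2 ^ s) ^ l := Nat.pow_le_pow_left h1 l
    _ < _ := by
      rw [← pow_mul]
      refine Nat.pow_lt_pow_right one_lt_two ?_
      have : l * (16 * s + 1) = 16 * (s * l) + l := by ring
      omega

variable {α β : Type} [DecidableEq α] [Fintype α]

/-- a large invariant set whose alternating group lies in `S` -/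
def Big (S : Subgroup (Perm α)) (U : Finset α) : Prop :=
  Fintype.card α < 2 * U.card ∧ Full S U ∧ S ≤ stabS U

theorem exists_big {S : Subgroup (Perm α)} (h : S.index < 2 ^ (Fintype.card α / 8)) :
    ∃ U, Big S U := by
  classical
  obtain ⟨U, h1, h2, h3⟩ := small_index h
  exact ⟨U.toFinset, by rwa [← Set.ncard_eq_toFinset_card'], by simpa using h2,
    fun g hg => by simpa [mem_stabS] using h3 g hg⟩

theorem Big.sub (h4 : 4 ≤ Fintype.card α) {S : Subgroup (Perm α)} {U V : Finset α} (h : Big S U)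
    (h' : Big S V) : U ⊆ V := fun y hy => by
  obtain ⟨x, hx⟩ : (U ∩ V).Nonempty := Finset.card_pos.1 (by
    have := Finset.card_union_add_card_inter U V
    have := Finset.card_le_univ (U ∪ V)
    have := h.1
    have := h'.1
    omega)
  obtain ⟨x1, x2⟩ := Finset.mem_inter.1 hx
  by_cases e : x = y
  · exact e ▸ x2
  obtain ⟨z, z1, z2⟩ := Finset.exists_mem_notMem_of_card_lt_card (s := {x, y}) (t := U)
    (lt_of_le_of_lt Finset.card_le_two (by have := h.1; omega))
  simp only [Finset.mem_insert, Finset.mem_singleton, not_or] at z2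
  have := (h'.2.2 (h.2.1 x x1 y hy z z1 e (Ne.symm z2.2) (Ne.symm z2.1)) x).2 x2
  rwa [T1 e (Ne.symm z2.2)] at this

theorem Big.cnj {S : Subgroup (Perm α)} {U : Finset α} (h : Big S U) (g : Perm α) :
    Big (cnj g S) (U.image g) := by
  refine ⟨by rw [Finset.card_image_of_injective _ g.injective]; exact h.1, ?_, fun k hk x => ?_⟩
  · simp only [Full, Finset.coe_image]
    rintro _ ⟨a, ha, rfl⟩ _ ⟨b, hb, rfl⟩ _ ⟨c, hc, rfl⟩ h1 h2 h3
    rw [← T_conj, conj_mem_cnj]
    exact h.2.1 a ha b hb c hc (fun e => h1 (e ▸ rfl)) (fun e => h2 (e ▸ rfl)) fun e => h3 (e ▸ rfl)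
  · have key : ∀ y, y ∈ ((U.image g : Finset α) : Set α) ↔ g⁻¹ y ∈ (U : Set α) := fun y => by
      rw [Finset.coe_image]
      exact ⟨fun ⟨a, ha, e⟩ => by simpa [← e] using ha, fun k => ⟨_, k, by simp⟩⟩
    rw [key, key, ← h.2.2 hk (g⁻¹ x)]
    simp

variable [DecidableEq β] [Fintype β] {K : Type} [Group K] {N : Subgroup K}

/-- **Primitive actions of small degree.** -/
theorem pair [hN : N.Normal] (h4 : 4 ≤ Fintype.card α) (σ : K →* Perm α) (τ : K →* Perm β)
    (h1 : N.map σ = alternatingGroup α) (h2 : ∀ x ∈ N, σ x = 1 → x = 1) (h3 : Prim τ.range)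
    (h5 : ∃ x ∈ N, τ x ≠ 1) (h6 : 2 * Fintype.card β < 2 ^ (Fintype.card α / 8)) :
    ∃ (φ : β → Finset α) (r : ℕ), Function.Injective φ ∧ (∀ k y, φ (τ k y) = (φ y).image (σ k)) ∧
      (∀ y, (φ y).card = r) ∧ Fintype.card α < 2 * r ∧ r < Fintype.card α ∧
      ∀ U : Finset α, U.card = r → ∃ y, φ y = U := by
  let S : β → Subgroup (Perm α) := fun y =>
    ((MulAction.stabilizer (Perm β) y).comap (τ.comp N.subtype)).map (σ.comp N.subtype)
  have mS : ∀ y g, g ∈ S y ↔ ∃ x ∈ N, τ x y = y ∧ σ x = g := fun y g =>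
    ⟨fun ⟨x, a, b⟩ => ⟨x, x.2, a, b⟩, fun ⟨x, a, b, c⟩ => ⟨⟨x, a⟩, b, c⟩⟩
  have : Nontrivial α := Fintype.one_lt_card_iff_nontrivial.1 (by omega)
  have hS : ∀ y, (S y).index < 2 ^ (Fintype.card α / 8) := fun y => by
    have k1 : (MulAction.stabilizer (Perm β) y).index ≤ Fintype.card β := by
      rw [MulAction.index_stabilizer, ← Nat.card_eq_fintype_card]
      exact Set.ncard_le_card _
    have k2 : ((MulAction.stabilizer (Perm β) y).comap (τ.comp N.subtype)).index ≤
        (MulAction.stabilizer (Perm β) y).index := by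
      rw [index_comap, ← relIndex_top_right]
      exact relIndex_le_of_le_right le_top (by rw [relIndex_top_right]; exact index_ne_zero_of_finite)
    have k3 : ((MulAction.stabilizer (Perm β) y).comap (τ.comp N.subtype)).index ≠ 0 := by
      rw [index_comap]
      exact index_ne_zero_of_finite
    refine lt_of_le_of_lt ?_ h6
    rw [index_map, ← MonoidHom.map_range, range_subtype, h1, alternatingGroup.index_eq_two, mul_comm]
    exact Nat.mul_le_mul_left _ ((Nat.le_of_dvd (Nat.pos_of_ne_zero k3)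
      (index_dvd_of_le le_sup_left)).trans (k2.trans k1))
  choose φ hφ using fun y => exists_big (hS y)
  have eqv : ∀ k y, φ (τ k y) = (φ y).image (σ k) := fun k y => by
    have e : cnj (σ k) (S y) = S (τ k y) := by
      ext g
      rw [mem_cnj, mS, mS]
      constructor
      · rintro ⟨x, a, b, c⟩
        exact ⟨k * x * k⁻¹, hN.conj_mem x a k, by simp [b], by simp [c, mul_assoc]⟩
      · rintro ⟨x, a, b, rfl⟩
        exact ⟨k⁻¹ * x * k⁻¹⁻¹, hN.conj_mem x a _, by simp [b], by simp⟩
    have := (hφ y).cnj (σ k)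
    rw [e] at this
    exact Finset.Subset.antisymm ((hφ _).sub h4 this) (this.sub h4 (hφ _))
  obtain ⟨x0, x1, x2⟩ := h5
  obtain ⟨y0, -⟩ : ∃ y, τ x0 y ≠ y := by
    by_contra hc
    push Not at hc
    exact x2 (Perm.ext hc)
  have crd : ∀ y, (φ y).card = (φ y0).card := fun y => by
    obtain ⟨_, ⟨k, rfl⟩, rfl⟩ := h3.1 y0 y
    rw [eqv, Finset.card_image_of_injective _ (σ k).injective]
  have lt : (φ y0).card < Fintype.card α := lt_of_le_of_ne (Finset.card_le_univ _) fun e =>
    x2 (Perm.ext fun y => by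
      have k := (hφ y).2.1
      rw [Finset.eq_univ_of_card _ ((crd y).trans e), Finset.coe_univ, full_univ_iff, ← h1] at k
      obtain ⟨x, a, b, c⟩ := (mS _ _).1 (k ⟨x0, x1, rfl⟩)
      have := h2 (x⁻¹ * x0) (N.mul_mem (N.inv_mem a) x1) (by simp [c])
      rwa [← inv_mul_eq_one.1 this])
  have sur : ∀ U : Finset α, U.card = (φ y0).card → ∃ y, φ y = U := fun U hU => by
    obtain ⟨g, hg, e⟩ := exists_even_image (by omega) hU.symm
    obtain ⟨x, -, rfl⟩ : g ∈ N.map σ := h1 ▸ hg
    exact ⟨_, (eqv x y0).trans e⟩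
  refine ⟨φ, _, fun y z e => by_contra fun yz => h3.2 (Setoid.ker φ) ?_ ⟨⟨y, z, yz, e⟩, ?_⟩, eqv,
    crd, (hφ y0).1, lt, sur⟩
  · rintro _ ⟨k, rfl⟩ u v
    rw [Setoid.ker_def, Setoid.ker_def, eqv, eqv]
    exact (Finset.image_injective (σ k).injective).eq_iff
  · obtain ⟨a, ha⟩ := exists_fresh _ lt
    obtain ⟨b, hb⟩ := Finset.card_pos.1 (by have := (hφ y0).1; omega : 0 < (φ y0).card)
    obtain ⟨u, hu⟩ := sur (insert a ((φ y0).erase b)) (by
      rw [Finset.card_insert_of_notMem (by simp [ha]), Finset.card_erase_add_one hb])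
    exact ⟨u, y0, fun e => ha ((Setoid.ker_def.1 e) ▸ hu ▸ Finset.mem_insert_self _ _)⟩

omit [DecidableEq α] [DecidableEq β] in
theorem rank_le {φ : β → Finset α} {r : ℕ} (h1 : Function.Injective φ) (h2 : ∀ y, (φ y).card = r)
    (h3 : r < Fintype.card α) (h4 : Fintype.card α < Fintype.card β) : r + 2 ≤ Fintype.card α := by
  by_contra hc
  have := Finset.card_le_card_of_injOn (s := Finset.univ) (t := Finset.univ.powersetCard r) φ
    (fun y _ => by simp [h2]) h1.injOn
  rw [Finset.card_powersetCard, Finset.card_univ, Finset.card_univ,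
    show Fintype.card α = r + 1 by omega, Nat.choose_succ_self_right] at this
  omega

omit [DecidableEq β] in
theorem choose_le_card {φ : β → Finset α} {r : ℕ} (h : ∀ U : Finset α, U.card = r → ∃ y, φ y = U) :
    (Fintype.card α).choose r ≤ Fintype.card β := by
  have := (Finset.card_le_card (s := Finset.univ.powersetCard r) (t := Finset.univ.image φ)
    fun U hU => by simpa using h U (Finset.mem_powersetCard.1 hU).2).trans Finset.card_image_le
  rwa [Finset.card_powersetCard, Finset.card_univ, Finset.card_univ] at this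

/-- a group that keeps a Johnson scheme is not homogeneous -/
theorem not_homog {φ : β → Finset α} {r s : ℕ} (h1 : 2 ≤ r) (h2 : r + 2 ≤ Fintype.card α)
    (h : ∀ U : Finset α, U.card = r → ∃ y, φ y = U) {L : Subgroup (Perm β)}
    (hL : ∀ g ∈ L, ∃ u : Perm α, ∀ y, φ (g y) = (φ y).image u) (s1 : 2 ≤ s)
    (s2 : s + 2 ≤ Fintype.card β) : ¬ Homog L s := fun hh => by
  obtain ⟨U, -, hU⟩ := Finset.exists_subset_card_eq (s := (Finset.univ : Finset α)) (n := r)
    (by rw [Finset.card_univ]; omega)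
  obtain ⟨a, ha, b, hb, ab⟩ := Finset.one_lt_card.1 (by omega : 1 < U.card)
  obtain ⟨c, hc⟩ := exists_fresh U (by omega)
  obtain ⟨d, hd⟩ := exists_fresh (insert c U) (by rw [Finset.card_insert_of_notMem hc]; omega)
  simp only [Finset.mem_insert, not_or] at hd
  have k1 : (insert c (U.erase a)).card = r := by
    rw [Finset.card_insert_of_notMem (by simp [hc]), Finset.card_erase_add_one ha, hU]
  have k2 : b ∈ insert c (U.erase a) := by simp [hb, ab.symm]
  obtain ⟨x, rfl⟩ := h U hU
  obtain ⟨y, hy⟩ := h _ k1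
  obtain ⟨z, hz⟩ := h (insert d ((insert c ((φ x).erase a)).erase b)) (by
    rw [Finset.card_insert_of_notMem (by simp [hd.1, hd.2]), Finset.card_erase_add_one k2, k1])
  have := hh.const s1 s2 (f := fun u v => ((φ u ∩ φ v).card : ℤ))
    (fun u v => by rw [Finset.inter_comm]) (fun g hg u v => by
      obtain ⟨p, hp⟩ := hL g hg
      rw [hp, hp, ← Finset.image_inter _ _ p.injective,
        Finset.card_image_of_injective _ p.injective]) x z x y
    (fun e => hd.2 (e ▸ hz ▸ Finset.mem_insert_self _ _))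
    fun e => hc (e ▸ hy ▸ Finset.mem_insert_self _ _)
  refine (Finset.card_lt_card ⟨fun w hw => ?_, fun k => ?_⟩).ne (Int.natCast_inj.1 this)
  · rw [hz] at hw
    rw [hy]
    obtain ⟨w1, w2⟩ := Finset.mem_inter.1 hw
    exact Finset.mem_inter.2 ⟨w1, Finset.mem_of_mem_erase
      ((Finset.mem_insert.1 w2).resolve_left fun e => hd.2 (e ▸ w1))⟩
  · have := (Finset.mem_inter.1 (k (Finset.mem_inter.2 ⟨hb, hy ▸ k2⟩))).2
    rw [hz] at this
    simp only [Finset.mem_insert, Finset.mem_erase, ne_eq, not_true, false_and, or_false] at this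
    exact hd.2 (this ▸ hb)

end Vale.Agent.P183AL
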