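import Vale.Agent.P183AL.Tri

/-!
Subgroups of small index in the symmetric group contain the alternating group of a set with more
than half of the points.
-/

namespace Vale.Agent.P183AL

open Equiv Equiv.Perm Subgroup Vale.Agent.P240.H195

variable {α : Type*} [DecidableEq α] {G : Subgroup (Perm α)}

/-- a system of disjoint transpositions that join different classes -/
structure Mat (G : Subgroup (Perm α)) (π : Perm α) (A C : Finset α) : Prop where
  inv : ∀ x, π (π x) = x
  sup : ∀ x, π x ≠ x → x ∈ A ∨ π x ∈ A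
  out : ∀ a ∈ A, π a ∉ A
  non : ∀ a ∈ A, ∃ y z, R3 G a y z
  dif : ∀ a ∈ A, π a ∉ tri G a
  fix : ∀ c ∈ C, π c = c
  wit : ∀ x, π x ≠ x → (∃ y z, R3 G x y z) → ∃ c ∈ C, c ∈ tri G x
  crd : C.card ≤ 2 * A.card

theorem Mat.exists_wit {π : Perm α} {A C : Finset α} (h : Mat G π A C) {a : α}
    (ha : ∃ y z, R3 G a y z) (hC : a ∉ C) : ∃ c ∈ tri G a, c ≠ a ∧ π c = c := by
  obtain ⟨y, z, hy⟩ := ha
  by_cases e : π y = y
  · exact ⟨y, Or.inr ⟨z, hy⟩, hy.1.symm, e⟩
  · obtain ⟨c, hc, hc'⟩ := h.wit y e ⟨z, a, hy.rot⟩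
    exact ⟨c, tri_trans (Or.inr ⟨z, hy⟩) hc', fun e' => hC (e' ▸ hc), h.fix c hc⟩

theorem Mat.step {π : Perm α} {A C : Finset α} (h : Mat G π A C) {a b : α}
    (ha : ∃ y z, R3 G a y z) (pa : π a = a) (pb : π b = b) (aC : a ∉ C) (bC : b ∉ C)
    (ab : b ∉ tri G a) : ∃ C', Mat G (π * swap a b) (insert a A) C' := by
  have ne : a ≠ b := fun e => ab (e ▸ tri_self a)
  have aA : a ∉ A := fun e => h.out a e (by rw [pa]; exact e)
  have bA : b ∉ A := fun e => h.out b e (by rw [pb]; exact e)
  obtain ⟨c, c1, c2, c3⟩ := h.exists_wit ha aC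
  have c4 : c ≠ b := fun e => ab (e ▸ c1)
  obtain ⟨d, d2, d3, d4, d1⟩ : ∃ d, d ≠ b ∧ π d = d ∧ d ≠ a ∧
      ((∃ y z, R3 G b y z) → d ∈ tri G b) := by
    by_cases hb : ∃ y z, R3 G b y z
    · obtain ⟨d, d1, d2, d3⟩ := h.exists_wit hb bC
      exact ⟨d, d2, d3, fun e => ab (tri_symm (e ▸ d1)), fun _ => d1⟩
    · exact ⟨c, c4, c3, c2, fun k => (hb k).elim⟩
  have va : (π * swap a b) a = b := by simp [pb]
  have vb : (π * swap a b) b = a := by simp [pa]
  have vo : ∀ x, x ≠ a → x ≠ b → (π * swap a b) x = π x := fun x h1 h2 => by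
    simp [swap_apply_of_ne_of_ne h1 h2]
  have na : ∀ x, x ≠ a → π x ≠ a := fun x h1 e => h1 (π.injective (e.trans pa.symm))
  have nb : ∀ x, x ≠ b → π x ≠ b := fun x h1 e => h1 (π.injective (e.trans pb.symm))
  refine ⟨insert c (insert d C), ?_, ?_, ?_, ?_, ?_, ?_, ?_, ?_⟩
  · intro x
    by_cases h1 : x = a
    · rw [h1, va, vb]
    by_cases h2 : x = b
    · rw [h2, vb, va]
    rw [vo x h1 h2, vo _ (na x h1) (nb x h2), h.inv]
  · intro x hx
    by_cases h1 : x = a
    · exact Or.inl (by simp [h1])
    by_cases h2 : x = b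
    · exact Or.inr (by rw [h2, vb]; simp)
    rw [vo x h1 h2] at hx ⊢
    rcases h.sup x hx with k | k
    · exact Or.inl (by simp [k])
    · exact Or.inr (by simp [k])
  · intro x hx
    rcases Finset.mem_insert.1 hx with h1 | h1
    · rw [h1, va]
      simp [ne.symm, bA]
    · have h2 : x ≠ a := fun e => aA (e ▸ h1)
      have h3 : x ≠ b := fun e => bA (e ▸ h1)
      rw [vo x h2 h3]
      simp [na x h2, h.out x h1]
  · intro x hx
    rcases Finset.mem_insert.1 hx with h1 | h1
    · exact h1 ▸ ha
    · exact h.non x h1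
  · intro x hx
    rcases Finset.mem_insert.1 hx with h1 | h1
    · rw [h1, va]
      exact ab
    · rw [vo x (fun e => aA (e ▸ h1)) (fun e => bA (e ▸ h1))]
      exact h.dif x h1
  · intro x hx
    rcases Finset.mem_insert.1 hx with h1 | h1
    · rw [h1, vo c c2 c4, c3]
    rcases Finset.mem_insert.1 h1 with h1 | h1
    · rw [h1, vo d d4 d2, d3]
    · rw [vo x (fun e => aC (e ▸ h1)) (fun e => bC (e ▸ h1)), h.fix x h1]
  · intro x hx hx'
    by_cases h1 : x = a
    · exact ⟨c, by simp, h1 ▸ c1⟩
    by_cases h2 : x = b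
    · exact ⟨d, by simp, h2 ▸ d1 (h2 ▸ hx')⟩
    rw [vo x h1 h2] at hx
    obtain ⟨e, e1, e2⟩ := h.wit x hx hx'
    exact ⟨e, by simp [e1], e2⟩
  · rw [Finset.card_insert_of_notMem aA]
    have := Finset.card_insert_le c (insert d C)
    have := Finset.card_insert_le d C
    have := h.crd
    omega

/-- the product of the transpositions that meet `J` -/
def part (π : Perm α) (hπ : ∀ x, π (π x) = x) (J : Finset α) : Perm α :=
  Function.Involutive.toPerm (fun x => if x ∈ J ∨ π x ∈ J then π x else x) fun x => by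
    by_cases h : x ∈ J ∨ π x ∈ J
    · simp only [if_pos h, if_pos h.symm, hπ]
    · simp only [if_neg h]

theorem part_apply (π : Perm α) (hπ : ∀ x, π (π x) = x) (J : Finset α) (x : α) :
    part π hπ J x = if x ∈ J ∨ π x ∈ J then π x else x := rfl

theorem Mat.sub {π : Perm α} {A C : Finset α} (h : Mat G π A C) {J J' : Finset α} (hJ : J ⊆ A)
    (hJ' : J' ⊆ A) (k : (part π h.inv J)⁻¹ * part π h.inv J' ∈ G) : J' ⊆ J := by
  intro a ha
  by_contra ha'
  have aA := hJ' ha
  have pa : π a ≠ a := fun e => h.out a aA (by rw [e]; exact aA)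
  obtain ⟨c, c1, c2⟩ := h.wit a pa (h.non a aA)
  have c3 := h.fix c c1
  have e1 : ((part π h.inv J)⁻¹ * part π h.inv J') a = π a := by
    rw [Perm.mul_apply, Perm.inv_eq_iff_eq, part_apply, part_apply, if_pos (Or.inl ha), if_neg]
    rw [h.inv]
    exact fun k => k.elim (fun k => h.out a aA (hJ k)) ha'
  have e2 : ((part π h.inv J)⁻¹ * part π h.inv J') c = c := by
    rw [Perm.mul_apply, Perm.inv_eq_iff_eq, part_apply, part_apply, c3, ite_self, ite_self]
  have := tri_map c2 k
  rw [e1, e2] at this
  exact h.dif a aA (tri_trans c2 (tri_symm this))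

variable [Fintype α]

theorem Mat.index {π : Perm α} {A C : Finset α} (h : Mat G π A C) : 2 ^ A.card ≤ G.index := by
  classical
  let f : A.powerset → Perm α ⧸ G := fun J => QuotientGroup.mk (part π h.inv J)
  have hf : Function.Injective f := by
    intro J J' e
    have e1 := QuotientGroup.eq.1 e
    have e2 := QuotientGroup.eq.1 e.symm
    have hJ := Finset.mem_powerset.1 J.2
    have hJ' := Finset.mem_powerset.1 J'.2
    exact Subtype.ext (Finset.Subset.antisymm (h.sub hJ' hJ e2) (h.sub hJ hJ' e1))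
  have := Nat.card_le_card_of_injective f hf
  rwa [Nat.card_eq_fintype_card, Fintype.card_coe, Finset.card_powerset] at this

theorem exists_mat (hU : ∀ x, 2 * (tri G x).ncard ≤ Fintype.card α)
    (hF : Fintype.card α ≤ 2 * {x | ∃ y z, R3 G x y z}.ncard) (t : ℕ)
    (ht : 8 * t ≤ Fintype.card α) : ∃ π A C, Mat G π A C ∧ A.card = t := by
  classical
  induction t with
  | zero =>
    exact ⟨1, ∅, ∅, ⟨fun _ => rfl, fun _ h => (h rfl).elim, by simp, by simp, by simp, by simp,
      fun _ h => (h rfl).elim, by simp⟩, rfl⟩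
  | succ t ih =>
    obtain ⟨π, A, C, h, hA⟩ := ih (by omega)
    let W : Finset α := A ∪ A.image π ∪ C
    have hW : W.card ≤ 4 * t := by
      have h1 := Finset.card_union_le (A ∪ A.image π) C
      have h2 := Finset.card_union_le A (A.image π)
      have h3 := Finset.card_image_le (s := A) (f := π)
      have := h.crd
      simp only [W]
      omega
    have hW' : ∀ x, x ∉ W → π x = x ∧ x ∉ C := fun x hx => by
      simp only [W, Finset.mem_union, not_or] at hx
      refine ⟨?_, hx.2⟩
      by_contra e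
      rcases h.sup x e with k | k
      · exact hx.1.1 k
      · exact hx.1.2 (Finset.mem_image.2 ⟨π x, k, h.inv x⟩)
    obtain ⟨a, a1, a2⟩ : ∃ a, (∃ y z, R3 G a y z) ∧ a ∉ W := by
      by_contra hc
      push Not at hc
      have : {x | ∃ y z, R3 G x y z}.ncard ≤ (W : Set α).ncard :=
        Set.ncard_le_ncard (fun x hx => by
          obtain ⟨y, z, hx⟩ := hx
          exact hc x ⟨y, z, hx⟩) (Set.toFinite _)
      rw [Set.ncard_coe_finset] at this
      omega
    obtain ⟨b, b1, b2⟩ : ∃ b, b ∉ tri G a ∧ b ∉ W := by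
      by_contra hc
      push Not at hc
      have h1 : (Set.univ : Set α).ncard ≤ (tri G a ∪ (W : Set α)).ncard :=
        Set.ncard_le_ncard (fun x _ => by
          by_cases e : x ∈ tri G a
          · exact Or.inl e
          · exact Or.inr (hc x e)) (Set.toFinite _)
      have h2 := Set.ncard_union_le (tri G a) (W : Set α)
      rw [Set.ncard_coe_finset] at h2
      rw [Set.ncard_univ, Nat.card_eq_fintype_card] at h1
      have := hU a
      omega
    obtain ⟨C', h'⟩ := h.step a1 (hW' a a2).1 (hW' b b2).1 (hW' a a2).2 (hW' b b2).2 b1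
    refine ⟨_, _, _, h', ?_⟩
    rw [Finset.card_insert_of_notMem, hA]
    intro e
    exact a2 (by simp [W, e])

theorem two_pow_le_factorial (k : ℕ) : 2 ^ k ≤ (k + 1).factorial := by
  induction k with
  | zero => simp
  | succ k ih =>
    rw [pow_succ, Nat.factorial_succ (k + 1)]
    nlinarith

theorem index_mul (G : Subgroup (Perm α)) :
    G.index * Nat.card G = (Fintype.card α).factorial := by
  rw [G.index_mul_card, Nat.card_eq_fintype_card, Fintype.card_perm]

theorem le_index_of {k : ℕ} (h : Nat.card G * k ≤ (Fintype.card α).factorial) : k ≤ G.index := by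
  rw [← index_mul G, mul_comm] at h
  exact Nat.le_of_mul_le_mul_right h Nat.card_pos

/-- **Subgroups of small index.** A subgroup of index less than `2 ^ (n / 8)` of the symmetric
group on `n` points has a class of 3-cycles with more than half of the points. -/
theorem small_index_tri (h : G.index < 2 ^ (Fintype.card α / 8)) :
    ∃ x, Fintype.card α < 2 * (tri G x).ncard := by
  classical
  by_contra hc
  push Not at hc
  by_cases hF : Fintype.card α ≤ 2 * {x | ∃ y z, R3 G x y z}.ncard
  · obtain ⟨π, A, C, k, hA⟩ := exists_mat hc hF (Fintype.card α / 8) (by omega)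
    have := k.index
    rw [hA] at this
    omega
  · let F : Finset α := Finset.univ.filter fun x => ¬ ∃ y z, R3 G x y z
    have h1 := le_index_of (bochert_card (G := G) F fun x hx y z k =>
      (Finset.mem_filter.1 hx).2 ⟨y, z, k⟩)
    have h2 : {x | ∃ y z, R3 G x y z}.ncard + F.card = Fintype.card α := by
      have := Finset.card_filter_add_card_filter_not (s := Finset.univ)
        (fun x => ∃ y z, R3 G x y z)
      rw [Finset.card_univ] at this
      rw [← this, ← Set.ncard_coe_finset (Finset.filter (fun x => ∃ y z, R3 G x y z) _)]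
      congr 2
      ext x
      simp
    have h3 := two_pow_le_factorial (Fintype.card α / 8)
    by_cases h8 : Fintype.card α < 8
    · rw [Nat.div_eq_of_lt h8, pow_zero] at h
      have := G.index_ne_zero_of_finite
      omega
    have h4 : (Fintype.card α / 8 + 1).factorial ≤ ((F.card + 1) / 2).factorial :=
      Nat.factorial_le (by omega)
    omega

omit [Fintype α] in
theorem tri_image {g : Perm α} (hg : g ∈ G) (x : α) : g '' tri G x = tri G (g x) := by
  ext y
  constructor
  · rintro ⟨z, hz, rfl⟩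
    exact tri_map hz hg
  · intro hy
    refine ⟨g⁻¹ y, ?_, by simp⟩
    simpa using tri_map hy (G.inv_mem hg)

/-- **Subgroups of small index**: an invariant set `U` with more than half of the points, such
that `G` contains the alternating group of `U`. -/
theorem small_index (h : G.index < 2 ^ (Fintype.card α / 8)) :
    ∃ U : Set α, Fintype.card α < 2 * U.ncard ∧ Full G U ∧ ∀ g ∈ G, ∀ x, g x ∈ U ↔ x ∈ U := by
  obtain ⟨x, hx⟩ := small_index_tri h
  refine ⟨tri G x, hx, tri_full x, ?_⟩
  have key : ∀ g ∈ G, ∀ y ∈ tri G x, g y ∈ tri G x := by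
    intro g hg y hy
    have h1 : (tri G (g x)).ncard = (tri G x).ncard := by
      rw [← tri_image hg, Set.ncard_image_of_injective _ g.injective]
    have h2 : ¬ Disjoint (tri G x) (tri G (g x)) := fun hd => by
      have h3 := Set.ncard_union_eq hd
      have h4 : (tri G x ∪ tri G (g x)).ncard ≤ (Set.univ : Set α).ncard :=
        Set.ncard_le_ncard (Set.subset_univ _)
      rw [Set.ncard_univ, Nat.card_eq_fintype_card] at h4
      omega
    obtain ⟨z, z1, z2⟩ := Set.not_disjoint_iff.1 h2
    rw [← tri_eq z1, tri_eq z2]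
    exact tri_map hy hg
  intro g hg y
  exact ⟨fun k => by simpa using key _ (G.inv_mem hg) _ k, key g hg y⟩

end Vale.Agent.P183AL
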