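import Vale.Agent.P183AL.Core

/-!
Permutations that exchange two direct factors of a transitive group.
-/

namespace Vale.Agent.P183AL

open Equiv Equiv.Perm Subgroup Vale.Agent.P183A

variable {α : Type} {E D K W A A' : Subgroup (Perm α)} {x : α}

/-- the stabiliser of a point in `E` -/
def St (E : Subgroup (Perm α)) (x : α) : Subgroup (Perm α) :=
  E ⊓ MulAction.stabilizer (Perm α) x

theorem mem_St {g : Perm α} : g ∈ St E x ↔ g ∈ E ∧ g x = x := Iff.rfl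

theorem St_le : St E x ≤ E := inf_le_left

theorem cnj_St {k : Perm α} (hk : cnj k E = E) : cnj k (St E x) = St E (k x) := by
  ext g
  rw [mem_cnj, mem_St, mem_St, ← mem_cnj, hk]
  simp [Equiv.symm_apply_eq]

theorem exists_lift_aut (hE : Trans E) (τ : Perm α → Perm α) (h1 : ∀ e ∈ E, τ e ∈ E)
    (h2 : ∀ a ∈ E, ∀ b ∈ E, τ (a * b) = τ a * τ b) (h3 : ∀ e ∈ E, τ (τ e) = e)
    (h4 : ∀ d ∈ St E x, τ d x = x) : ∃ g : Perm α, ∀ e ∈ E, g * e * g⁻¹ = τ e := by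
  choose s hs e using hE x
  have key : ∀ a ∈ E, τ (s (a x)) x = τ a x := fun a ha => by
    have k : a⁻¹ * s (a x) ∈ St E x := ⟨E.mul_mem (E.inv_mem ha) (hs _), by simp [e]⟩
    rw [← mul_inv_cancel_left a (s (a x)), h2 _ ha _ k.1, Perm.mul_apply, h4 _ k]
  have hf : Function.Involutive fun y => τ (s y) x := fun y => by
    show τ (s (τ (s y) x)) x = y
    rw [key _ (h1 _ (hs y)), h3 _ (hs y), e]
  refine ⟨hf.toPerm _, fun a ha => mul_inv_eq_iff_eq_mul.2 (Perm.ext fun y => ?_)⟩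
  show τ (s (a y)) x = τ a (τ (s y) x)
  rw [← Perm.mul_apply, ← h2 _ ha _ (hs y), ← key _ (E.mul_mem ha (hs y)), Perm.mul_apply, e]

/-- some permutation normalises `E`, exchanges `A` and `A'`, and centralises the rest -/
def Sw (E A A' : Subgroup (Perm α)) : Prop :=
  ∃ g : Perm α, (∀ e ∈ E, g * e * g⁻¹ ∈ E) ∧ (∀ a ∈ A, g * a * g⁻¹ ∈ A') ∧
    (∀ a ∈ A', g * a * g⁻¹ ∈ A) ∧ ∀ c ∈ Cz E A ⊓ Cz E A', g * c * g⁻¹ = c

theorem shuffle {Γ : Type} [Group Γ] {u v c u' v' d : Γ} (h1 : u' * v = v * u')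
    (h2 : u' * c = c * u') (h3 : v' * c = c * v') :
    u * v * c * (u' * v' * d) = u * u' * (v * v') * (c * d) := by
  calc _ = u * (v * (c * u')) * v' * d := by simp only [mul_assoc]
    _ = u * (v * u') * (c * v') * d := by rw [← h2]; simp only [mul_assoc]
    _ = _ := by rw [← h1, ← h3]; simp only [mul_assoc]

theorem exists_sw (h : Cr E) (hE : Trans E) (hA : Nl E A) (hA' : Nl E A')
    (hc : A' ≤ centralizer (A : Set (Perm α))) (f f' : Perm α → Perm α)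
    (f1 : ∀ a ∈ A, f a ∈ A') (f2 : ∀ a ∈ A', f' a ∈ A)
    (m1 : ∀ a ∈ A, ∀ b ∈ A, f (a * b) = f a * f b)
    (m2 : ∀ a ∈ A', ∀ b ∈ A', f' (a * b) = f' a * f' b)
    (i1 : ∀ a ∈ A, f' (f a) = a) (i2 : ∀ a ∈ A', f (f' a) = a)
    (hD : ∀ a ∈ A, ∀ b ∈ A', ∀ c ∈ Cz E A ⊓ Cz E A', (a * b * c) x = x →
      (f a * f' b * c) x = x) : Sw E A A' := by
  let τ : Perm α → Perm α := fun e => f (pr A e) * f' (pr A' e) * ((pr A' e)⁻¹ * ((pr A e)⁻¹ * e))
  have key : ∀ a ∈ A, ∀ b ∈ A', ∀ c ∈ Cz E A ⊓ Cz E A', τ (a * b * c) = f a * f' b * c := by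
    intro a ha b hb c hc'
    have k1 : pr A (a * b * c) = a :=
      h.pr_eq hA ha (by simpa [mul_assoc] using mul_mem (hc hb) hc'.1.2)
    have k2 : pr A' (a * b * c) = b := h.pr_eq hA' hb (by
      rw [hc hb a ha]
      simpa [mul_assoc] using mul_mem (le_centralizer_iff.1 hc ha) hc'.2.2)
    simp only [τ, k1, k2]
    simp [mul_assoc]
  have dec : ∀ e ∈ E, ∃ a ∈ A, ∃ b ∈ A', ∃ c ∈ Cz E A ⊓ Cz E A', a * b * c = e := fun e he => by
    obtain ⟨a, ha, u, hu, rfl⟩ := h.dec hA he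
    obtain ⟨b, hb, c, hc', rfl⟩ := h.dec hA' hu.1
    exact ⟨a, ha, b, hb, c, ⟨⟨hc'.1, by simpa using mul_mem (inv_mem (hc hb)) hu.2⟩, hc'⟩,
      mul_assoc _ _ _⟩
  have o1 : f 1 = 1 := by simpa using m1 1 A.one_mem 1 A.one_mem
  have o2 : f' 1 = 1 := by simpa using m2 1 A'.one_mem 1 A'.one_mem
  have mem : ∀ e ∈ E, τ e ∈ E := fun e he => by
    obtain ⟨a, ha, b, hb, c, hc', rfl⟩ := dec e he
    rw [key a ha b hb c hc']
    exact E.mul_mem (E.mul_mem (hA'.1 (f1 a ha)) (hA.1 (f2 b hb))) hc'.1.1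
  obtain ⟨g, hg⟩ := exists_lift_aut (x := x) hE τ mem (fun e he e' he' => by
    obtain ⟨a, ha, b, hb, c, hc', rfl⟩ := dec e he
    obtain ⟨a', ha', b', hb', c', hc'', rfl⟩ := dec e' he'
    rw [shuffle (hc hb a' ha') (hc'.1.2 a' ha') (hc'.2.2 b' hb'),
      key _ (A.mul_mem ha ha') _ (A'.mul_mem hb hb') _ (mul_mem hc' hc''), key a ha b hb c hc',
      key a' ha' b' hb' c' hc'', shuffle (hc (f1 a' ha') _ (f2 b hb)).symm
        (hc'.2.2 _ (f1 a' ha')) (hc'.1.2 _ (f2 b' hb')), m1 a ha a' ha', m2 b hb b' hb'])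
    (fun e he => by
      obtain ⟨a, ha, b, hb, c, hc', rfl⟩ := dec e he
      rw [key a ha b hb c hc', ← hc (f1 a ha) _ (f2 b hb), key _ (f2 b hb) _ (f1 a ha) c hc',
        i1 a ha, i2 b hb, hc hb a ha])
    fun d hd => by
      obtain ⟨a, ha, b, hb, c, hc', rfl⟩ := dec d hd.1
      rw [key a ha b hb c hc']
      exact hD a ha b hb c hc' hd.2
  refine ⟨g, fun e he => hg e he ▸ mem e he, fun a ha => ?_, fun a ha => ?_, fun c hc' => ?_⟩
  · have := key a ha 1 A'.one_mem 1 (one_mem _)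
    simp only [mul_one, o2] at this
    rw [hg a (hA.1 ha), this]
    exact f1 a ha
  · have := key 1 A.one_mem a ha 1 (one_mem _)
    simp only [mul_one, one_mul, o1] at this
    rw [hg a (hA'.1 ha), this]
    exact f2 a ha
  · have := key 1 A.one_mem 1 A'.one_mem c hc'
    simp only [one_mul, o1, o2] at this
    rw [hg c hc'.1.1, this]

/-- conjugate split subgroups can be exchanged -/
theorem sw_of_conj (h : Cr E) (hE : Trans E) (hA : Split E (St E x) A) (hA' : Split E (St E x) A')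
    (hc : A' ≤ centralizer (A : Set (Perm α))) {l : Perm α} (hl : l x = x) (e : cnj l A = A') :
    Sw E A A' := by
  have hl' : l⁻¹ x = x := Perm.inv_eq_iff_eq.2 hl.symm
  refine exists_sw (x := x) h hE hA.1 hA'.1 hc (fun a => l * a * l⁻¹) (fun a => l⁻¹ * a * l)
    (fun a ha => e ▸ conj_mem_cnj.2 ha) (fun a ha => mem_cnj.1 (e ▸ ha :))
    (fun _ _ _ _ => by simp [mul_assoc]) (fun _ _ _ _ => by simp [mul_assoc])
    (fun _ _ => by simp [mul_assoc]) (fun _ _ => by simp [mul_assoc]) fun a ha b hb c hc' k => ?_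
  have hd : a * b * c ∈ St E x := ⟨E.mul_mem (E.mul_mem (hA.1.1 ha) (hA'.1.1 hb)) hc'.1.1, k⟩
  have k1 := (h.split_pr hA hd).2
  have k2 := (h.split_pr hA' hd).2
  rw [h.pr_eq hA.1 ha (by simpa [mul_assoc] using mul_mem (hc hb) hc'.1.2)] at k1
  rw [h.pr_eq hA'.1 hb (by
    rw [hc hb a ha]
    simpa [mul_assoc] using mul_mem (le_centralizer_iff.1 hc ha) hc'.2.2)] at k2
  have k1 : a x = x := k1
  have k2 : b x = x := k2
  have k3 : c x = x := (a * b).injective (by simpa [k1, k2] using k)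
  simp only [Perm.mul_apply, k1, k2, k3, hl, hl']

/-- factors of a diagonal action can be exchanged -/
theorem sw_of_diag (h : Cr E) (hE : Trans E) (hA : Nl E A) (hA' : Nl E A')
    (hc : A' ≤ centralizer (A : Set (Perm α)))
    (s : ∀ t ∈ A, ∃ y ∈ St E x, pr A y = t) (s' : ∀ t ∈ A', ∃ y ∈ St E x, pr A' y = t)
    (i : ∀ d ∈ St E x, d ∈ centralizer (A : Set (Perm α)) → d = 1)
    (i' : ∀ d ∈ St E x, d ∈ centralizer (A' : Set (Perm α)) → d = 1) : Sw E A A' := by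
  have inj : ∀ {U}, Nl E U → (∀ d ∈ St E x, d ∈ centralizer (U : Set (Perm α)) → d = 1) →
      ∀ d ∈ St E x, ∀ d' ∈ St E x, pr U d = pr U d' → d = d' := fun hU k d hd d' hd' e =>
    inv_mul_eq_one.1 (k _ (mul_mem (inv_mem hd) hd') (h.cent_of_pr hU
      (E.mul_mem (E.inv_mem hd.1) hd'.1) (by
        rw [h.pr_mul hU (E.inv_mem hd.1) hd'.1, h.pr_inv hU hd.1, e, inv_mul_cancel])))
  choose! s s1 s2 using s
  choose! s' s1' s2' using s'
  have k1 : ∀ d ∈ St E x, s (pr A d) = d := fun d hd =>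
    inj hA i _ (s1 _ (pr_mem _ _)) _ hd (s2 _ (pr_mem _ _))
  have k2 : ∀ d ∈ St E x, s' (pr A' d) = d := fun d hd =>
    inj hA' i' _ (s1' _ (pr_mem _ _)) _ hd (s2' _ (pr_mem _ _))
  refine exists_sw (x := x) h hE hA hA' hc (fun a => pr A' (s a)) (fun a => pr A (s' a))
    (fun _ _ => pr_mem _ _) (fun _ _ => pr_mem _ _) (fun a ha b hb => ?_) (fun a ha b hb => ?_)
    (fun a ha => by rw [k2 _ (s1 a ha), s2 a ha]) (fun a ha => by rw [k1 _ (s1' a ha), s2' a ha])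
    fun a ha b hb c hc' k => ?_
  · rw [← h.pr_mul hA' (s1 a ha).1 (s1 b hb).1, ← k1 _ (mul_mem (s1 a ha) (s1 b hb)),
      h.pr_mul hA (s1 a ha).1 (s1 b hb).1, s2 a ha, s2 b hb]
  · rw [← h.pr_mul hA (s1' a ha).1 (s1' b hb).1, ← k2 _ (mul_mem (s1' a ha) (s1' b hb)),
      h.pr_mul hA' (s1' a ha).1 (s1' b hb).1, s2' a ha, s2' b hb]
  have hd : a * b * c ∈ St E x := ⟨E.mul_mem (E.mul_mem (hA.1 ha) (hA'.1 hb)) hc'.1.1, k⟩
  have p1 : pr A (a * b * c) = a :=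
    h.pr_eq hA ha (by simpa [mul_assoc] using mul_mem (hc hb) hc'.1.2)
  have p2 : pr A' (a * b * c) = b := h.pr_eq hA' hb (by
    rw [hc hb a ha]
    simpa [mul_assoc] using mul_mem (le_centralizer_iff.1 hc ha) hc'.2.2)
  have q1 := k1 _ hd
  have q2 := k2 _ hd
  rw [p1] at q1
  rw [p2] at q2
  rwa [q1, q2, p1, p2, ← hc hb a ha]

variable [DecidableEq α] [Fintype α]

/-- a proper split subgroup that is a block under the normaliser is an atom -/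
theorem fam_atom (h : Cr E) (hD : D ≤ E)
    (hsw : ∀ A A', Atom E D A → Atom E D A' → A ≠ A' → Sw E A A')
    (hK : ∀ g ∈ alternatingGroup α, (∀ e ∈ E, g * e * g⁻¹ ∈ E) → g ∈ K)
    (hW : Split E D W) (h1 : W ≠ ⊥) (h2 : W ≠ E)
    (hb : ∀ k ∈ K, cnj k W = W ∨ cnj k W ⊓ W = ⊥) : Atom E D W := by
  obtain ⟨A1, k1, a1⟩ := hW.exists_atom h1
  by_contra hc
  obtain ⟨A2, k2, a2⟩ := (h.split_inf hD hW (h.split_cz hD a1.split)).exists_atom fun e =>
    hc (le_antisymm k1 (fun w hw => by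
      have : (pr A1 w)⁻¹ * w ∈ W ⊓ Cz E A1 := ⟨W.mul_mem (W.inv_mem (k1 (pr_mem _ _))) hw,
        E.mul_mem (E.inv_mem (a1.nl.1 (pr_mem _ _))) (hW.1.1 hw), h.pr_cent a1.nl (hW.1.1 hw)⟩
      rw [e, mem_bot, inv_mul_eq_one] at this
      exact this ▸ pr_mem _ _) ▸ a1)
  obtain ⟨A3, k3, a3⟩ := (h.split_cz hD hW).exists_atom (h.cz_ne hW.1 h2)
  have n12 : A1 ≠ A2 := fun e =>
    a1.ne (h.eq_bot a1.nl le_rfl (e.le.trans (k2.trans (inf_le_right.trans inf_le_right))))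
  have n3 : ∀ U ≤ W, U ≠ A3 := fun U hU e =>
    a3.ne (h.eq_bot hW.1 (e ▸ hU) (k3.trans inf_le_right))
  have n13 := n3 A1 k1
  have n23 := n3 A2 (k2.trans inf_le_left)
  obtain ⟨g, g0, g1, g2, g3⟩ := hsw A1 A2 a1 a2 n12
  obtain ⟨u, u0, u1, u2, u3⟩ := hsw A2 A3 a2 a3 n23
  have e : ∀ a, g * u * a * (g * u)⁻¹ = g * (u * a * u⁻¹) * g⁻¹ := fun a => by simp [mul_assoc]
  have e' : ∀ a, g * u * (g * u) * a * (g * u * (g * u))⁻¹ =
      g * u * (g * u * a * (g * u)⁻¹) * (g * u)⁻¹ := fun a => by simp [mul_assoc]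
  have v1 : ∀ a ∈ A1, g * u * a * (g * u)⁻¹ ∈ A2 := fun a ha => by
    rw [e, u3 a ⟨⟨a1.nl.1 ha, h.atom_cm hD a1 a2 n12 ha⟩, a1.nl.1 ha, h.atom_cm hD a1 a3 n13 ha⟩]
    exact g1 a ha
  have v2 : ∀ a ∈ A2, g * u * a * (g * u)⁻¹ ∈ A3 := fun a ha => by
    have k := u1 a ha
    rwa [e, g3 _ ⟨⟨a3.nl.1 k, h.atom_cm hD a3 a1 n13.symm k⟩, a3.nl.1 k,
      h.atom_cm hD a3 a2 n23.symm k⟩]
  have v3 : ∀ a ∈ A3, g * u * a * (g * u)⁻¹ ∈ A1 := fun a ha => e a ▸ g2 _ (u2 a ha)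
  have v0 : ∀ a ∈ E, g * u * a * (g * u)⁻¹ ∈ E := fun a ha => e a ▸ g0 _ (u0 a ha)
  rcases hb _ (hK (g * u * (g * u)) (by
    rw [mem_alternatingGroup, map_mul, Int.units_mul_self]) fun a ha => e' a ▸ v0 _ (v0 a ha))
    with k | k
  · refine a1.ne (eq_bot_iff.2 fun a ha => ?_)
    have := h.disj hW.1 (k ▸ conj_mem_cnj.2 (k1 ha)) (e' a ▸ (k3 (v2 _ (v1 a ha))).2)
    exact conj_eq_one_iff.1 this
  · refine a2.ne (eq_bot_iff.2 fun a ha => ?_)
    exact conj_eq_one_iff.1 (mem_bot.1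
      (k.le ⟨conj_mem_cnj.2 (k2 ha).1, e' a ▸ k1 (v3 _ (v2 a ha))⟩))

end Vale.Agent.P183AL
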