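import Vale.Agent.P240.H195.AltAut
import Mathlib.Data.Fintype.CardEmbedding
import Mathlib.GroupTheory.GroupAction.Jordan

/-!
The classes of points joined by 3-cycles of a permutation group, and the argument of Bochert.
-/

namespace Vale.Agent.P183AL

open Equiv Equiv.Perm Subgroup Vale.Agent.P240.H195

variable {α : Type*} [DecidableEq α]

/-- the 3-cycle on three different points lies in `G` -/
def R3 (G : Subgroup (Perm α)) (a b c : α) : Prop := a ≠ b ∧ b ≠ c ∧ a ≠ c ∧ T a b c ∈ G

/-- all 3-cycles on `U` lie in `G` -/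
def Full (G : Subgroup (Perm α)) (U : Set α) : Prop :=
  ∀ a ∈ U, ∀ b ∈ U, ∀ c ∈ U, a ≠ b → b ≠ c → a ≠ c → T a b c ∈ G

/-- the points joined to `x` by a 3-cycle of `G` -/
def tri (G : Subgroup (Perm α)) (x : α) : Set α := {y | y = x ∨ ∃ z, R3 G x y z}

/-- the commutator of two permutations whose supports meet in one point -/
theorem comm3 {g h : Perm α} {x : α} (hg : g x ≠ x) (hh : h x ≠ x)
    (hx : ∀ y, g y ≠ y → h y ≠ y → y = x) :
    x ≠ g x ∧ g x ≠ h x ∧ x ≠ h x ∧ g * h * g⁻¹ * h⁻¹ = T x (g x) (h x) := by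
  have g1 : g (g x) ≠ g x := fun e => hg (g.injective e)
  have h1 : h (h x) ≠ h x := fun e => hh (h.injective e)
  have hgx : h (g x) = g x := by
    by_contra e
    exact hg (hx _ g1 e)
  have ghx : g (h x) = h x := by
    by_contra e
    exact hh (hx _ e h1)
  have d : g x ≠ h x := fun e => h1 (by rw [← e, hgx])
  refine ⟨hg.symm, d, hh.symm, ?_⟩
  have key : g * h = T x (g x) (h x) * (h * g) := by
    ext y
    simp only [Perm.mul_apply]
    by_cases y1 : y = x
    · subst y1
      rw [ghx, hgx, T2 hg.symm]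
    by_cases gy : g y = y
    · rw [gy]
      by_cases hy : h y = y
      · rw [hy, gy, T4 y1]
        · intro e
          exact g1 (by rw [← e, gy])
        · intro e
          exact h1 (by rw [← e, hy])
      · by_cases e : h y = x
        · rw [e, T1 hg.symm d]
        · have h2 : h (h y) ≠ h y := fun e' => hy (h.injective e')
          have g2 : g (h y) = h y := by
            by_contra e'
            exact e (hx _ e' h2)
          rw [g2, T4 e]
          · intro e'
            exact g1 (by rw [← e', g2])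
          · intro e'
            exact y1 (h.injective e')
    · have hy : h y = y := by
        by_contra e
        exact y1 (hx _ gy e)
      rw [hy]
      by_cases e : g y = x
      · rw [e, T3 d hh.symm]
      · have g2 : g (g y) ≠ g y := fun e' => gy (g.injective e')
        have h2 : h (g y) = g y := by
          by_contra e'
          exact e (hx _ g2 e')
        rw [h2, T4 e]
        · intro e'
          exact y1 (g.injective e')
        · intro e'
          exact h1 (by rw [← e', h2])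
  calc g * h * g⁻¹ * h⁻¹ = T x (g x) (h x) * (h * g) * g⁻¹ * h⁻¹ := by rw [key]
    _ = T x (g x) (h x) := by group

variable {G : Subgroup (Perm α)}

theorem R3.rot {a b c : α} (h : R3 G a b c) : R3 G b c a :=
  ⟨h.2.1, h.2.2.1.symm, h.1.symm, by rw [← T_rot h.1 h.2.1 h.2.2.1]; exact h.2.2.2⟩

theorem R3.inv {a b c : α} (h : R3 G a b c) : R3 G a c b :=
  ⟨h.2.2.1, h.2.1.symm, h.1, by rw [← T_inv]; exact G.inv_mem h.2.2.2⟩

theorem R3.star {a b i j : α} (h1 : R3 G a b i) (h2 : R3 G a b j) (hij : i ≠ j) : R3 G a i j :=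
  ⟨h1.2.2.1, hij, h2.2.2.1, by
    rw [T_star (b := b)]; exact G.mul_mem h2.2.2.2 (G.inv_mem h1.2.2.2)⟩

theorem R3.of_comm {g h : Perm α} {x : α} (gG : g ∈ G) (hG : h ∈ G) (hg : g x ≠ x) (hh : h x ≠ x)
    (hx : ∀ y, g y ≠ y → h y ≠ y → y = x) : R3 G x (g x) (h x) := by
  obtain ⟨h1, h2, h3, h4⟩ := comm3 hg hh hx
  refine ⟨h1, h2, h3, ?_⟩
  rw [← h4]
  exact G.mul_mem (G.mul_mem (G.mul_mem gG hG) (G.inv_mem gG)) (G.inv_mem hG)

theorem R3.join {a b c d e : α} (h1 : R3 G a b c) (h2 : R3 G a d e) (hbd : b ≠ d) :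
    R3 G a b d := by
  by_cases cd : c = d
  · exact cd ▸ h1
  by_cases be : b = e
  · exact be ▸ h2.inv
  by_cases ce : c = e
  · exact h1.inv.star (ce ▸ h2.inv) hbd
  have k := R3.of_comm (x := a) h1.2.2.2 h2.2.2.2 (by rw [T1 h1.1 h1.2.1]; exact h1.1.symm)
    (by rw [T1 h2.1 h2.2.1]; exact h2.1.symm) (by
      intro y y1 y2
      by_contra ya
      by_cases yb : y = b
      · exact y2 (T4 ya (yb ▸ hbd) (yb ▸ be))
      by_cases yc : y = c
      · exact y2 (T4 ya (yc ▸ cd) (yc ▸ ce))
      exact y1 (T4 ya yb yc))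
  rwa [T1 h1.1 h1.2.1, T1 h2.1 h2.2.1] at k

theorem R3.map {a b c : α} (h : R3 G a b c) {g : Perm α} (hg : g ∈ G) :
    R3 G (g a) (g b) (g c) :=
  ⟨g.injective.ne h.1, g.injective.ne h.2.1, g.injective.ne h.2.2.1, by
    rw [← T_conj]; exact G.mul_mem (G.mul_mem hg h.2.2.2) (G.inv_mem hg)⟩

theorem tri_self (x : α) : x ∈ tri G x := Or.inl rfl

theorem tri_symm {x y : α} (h : y ∈ tri G x) : x ∈ tri G y := by
  rcases h with h | ⟨z, h⟩
  · exact Or.inl h.symm
  · exact Or.inr ⟨z, h.rot.inv⟩

theorem tri_trans {x y w : α} (h1 : y ∈ tri G x) (h2 : w ∈ tri G y) : w ∈ tri G x := by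
  rcases h1 with h1 | ⟨z, h1⟩
  · exact h1 ▸ h2
  rcases h2 with h2 | ⟨v, h2⟩
  · exact h2 ▸ Or.inr ⟨z, h1⟩
  by_cases e : w = x
  · exact Or.inl e
  exact Or.inr ⟨y, (h1.rot.inv.join h2 (Ne.symm e)).rot⟩

theorem tri_eq {x y : α} (h : y ∈ tri G x) : tri G y = tri G x :=
  Set.ext fun _ => ⟨tri_trans h, tri_trans (tri_symm h)⟩

theorem tri_map {x y : α} (h : y ∈ tri G x) {g : Perm α} (hg : g ∈ G) : g y ∈ tri G (g x) := by
  rcases h with h | ⟨z, h⟩
  · exact Or.inl (by rw [h])
  · exact Or.inr ⟨g z, h.map hg⟩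

theorem tri_r3 {x a b : α} (ha : a ∈ tri G x) (hb : b ∈ tri G x) (xa : x ≠ a) (xb : x ≠ b)
    (ab : a ≠ b) : R3 G x a b := by
  obtain ⟨z, h1⟩ := ha.resolve_left xa.symm
  obtain ⟨w, h2⟩ := hb.resolve_left xb.symm
  exact h1.join h2 ab

theorem tri_full (x : α) : Full G (tri G x) := by
  intro a ha b hb c hc ab bc ac
  rw [← tri_eq ha] at hb hc
  exact (tri_r3 hb hc ab ac bc).2.2.2

theorem Full.mono {U V : Set α} (h : Full G U) (hV : V ⊆ U) : Full G V :=
  fun a ha b hb c hc => h a (hV ha) b (hV hb) c (hV hc)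

theorem Full.sub_tri {U : Set α} (h : Full G U) {a b c : α} (ha : a ∈ U) (hb : b ∈ U)
    (hc : c ∈ U) (ab : a ≠ b) (bc : b ≠ c) (ac : a ≠ c) : U ⊆ tri G a := by
  intro y hy
  by_cases ya : y = a
  · exact Or.inl ya
  by_cases yb : y = b
  · exact Or.inr ⟨c, yb ▸ ⟨ab, bc, ac, h a ha b hb c hc ab bc ac⟩⟩
  · exact Or.inr ⟨b, Ne.symm ya, yb, ab, h a ha y hy b hb (Ne.symm ya) yb ab⟩

variable [Fintype α]

/-- if all 3-cycles on `U` lie in `G`, so do all even permutations that fix the other points -/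
theorem Full.even {U : Set α} (h : Full G U) {g : Perm α} (hs : Perm.sign g = 1)
    (hg : ∀ x, x ∉ U → g x = x) : g ∈ G := by
  classical
  have hinv : ∀ x, g x ∈ U ↔ x ∈ U := fun x => by
    constructor
    · intro hx
      by_contra hx'
      exact hx' (hg x hx' ▸ hx)
    · intro hx
      by_contra hx'
      exact hx' (by rw [g.injective (hg _ hx')]; exact hx)
  let g' : Perm U := g.subtypePerm hinv
  have e : ofSubtype g' = g := ofSubtype_subtypePerm hinv fun x hx => by
    by_contra hx'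
    exact hx (hg x hx')
  have hs' : g' ∈ alternatingGroup U := by
    rw [mem_alternatingGroup, ← sign_ofSubtype, e, hs]
  rw [← closure_three_cycles_eq_alternating] at hs'
  have : closure {σ : Perm U | IsThreeCycle σ} ≤ G.comap ofSubtype := by
    rw [closure_le]
    intro σ hσ
    obtain ⟨a, b, c, ab, bc, ac, rfl⟩ := three_exists hσ
    have k := h a a.2 b b.2 c c.2 (Subtype.coe_injective.ne ab) (Subtype.coe_injective.ne bc)
      (Subtype.coe_injective.ne ac)
    simpa [T, ofSubtype_swap_eq] using k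
  rw [← e]
  exact this hs'

theorem full_univ_iff : Full G Set.univ ↔ alternatingGroup α ≤ G := by
  constructor
  · intro h g hg
    exact h.even hg fun x hx => (hx trivial).elim
  · intro h a _ b _ c _ ab bc ac
    exact h (T_three ab bc ac).mem_alternatingGroup

theorem r3_of_three {g : Perm α} (hg : g ∈ G) (h3 : IsThreeCycle g) {a : α} (ha : g a ≠ a) :
    R3 G a (g a) (g (g a)) := by
  obtain ⟨h1, h2, h4, h5⟩ := three_eq h3 ha
  exact ⟨h2, h4, h5, h1 ▸ hg⟩

omit [DecidableEq α] in
/-- a base bounds the order -/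
theorem card_le_of_base (B : Finset α) (hB : ∀ g ∈ G, (∀ x ∈ B, g x = x) → g = 1) :
    Nat.card G * (Fintype.card α - B.card).factorial ≤ (Fintype.card α).factorial := by
  classical
  let f : G → (B ↪ α) := fun g => ⟨fun x => (g : Perm α) x, fun x y e =>
    Subtype.ext ((g : Perm α).injective e)⟩
  have hf : Function.Injective f := by
    intro g h e
    have k : ((h : Perm α)⁻¹ * g) = 1 := hB _ (G.mul_mem (G.inv_mem h.2) g.2) fun x hx => by
      have : (g : Perm α) x = (h : Perm α) x := congrArg (fun j : B ↪ α => j ⟨x, hx⟩) e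
      simp [this]
    exact Subtype.ext (inv_mul_eq_one.1 k).symm
  have h1 : Nat.card G ≤ (Fintype.card α).descFactorial B.card := by
    have := Nat.card_le_card_of_injective f hf
    rwa [Nat.card_eq_fintype_card (α := B ↪ α), Fintype.card_embedding_eq, Fintype.card_coe] at this
  calc _ ≤ (Fintype.card α).descFactorial B.card * (Fintype.card α - B.card).factorial :=
        Nat.mul_le_mul_right _ h1
    _ = _ := by rw [mul_comm, Nat.factorial_mul_descFactorial B.card_le_univ]

/-- The argument of Bochert: if no point of `F` is moved by a 3-cycle of `G`, the complement of `F`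
and at most half of `F` form a base. -/
theorem bochert_base (F : Finset α) (hF : ∀ x ∈ F, ∀ y z, ¬ R3 G x y z) :
    ∃ B ⊆ F, 2 * B.card ≤ F.card ∧ ∀ g ∈ G, (∀ x ∈ Fᶜ ∪ B, g x = x) → g = 1 := by
  classical
  let P : Finset α → Prop := fun B => B ⊆ F ∧ ∀ g ∈ G, (∀ x ∈ Fᶜ ∪ B, g x = x) → g = 1
  have hP : P F := ⟨subset_rfl, fun g _ hg => Perm.ext fun x => hg x (by simp [em'])⟩
  obtain ⟨B, hB, hmin⟩ := Finset.exists_min_image (Finset.univ.filter P) Finset.card
    ⟨F, by simp [hP]⟩
  have hB' : P B := (Finset.mem_filter.1 hB).2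
  have hmin' : ∀ C, P C → B.card ≤ C.card := fun C hC => hmin C (by simp [hC])
  refine ⟨B, hB'.1, ?_, hB'.2⟩
  by_contra hlt
  have n1 : ¬ P (F \ B) := fun h => by
    have := hmin' _ h
    rw [Finset.card_sdiff_of_subset hB'.1] at this
    omega
  simp only [P, Finset.sdiff_subset, true_and, not_forall] at n1
  obtain ⟨g, gG, hg, g1⟩ := n1
  obtain ⟨x, hx⟩ : ∃ x, g x ≠ x := by
    by_contra hc
    push Not at hc
    exact g1 (Perm.ext hc)
  have sB : ∀ y, g y ≠ y → y ∈ B := fun y hy => by
    by_contra hy'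
    apply hy
    apply hg
    by_cases e : y ∈ F <;> simp [e, hy']
  have n2 : ¬ P (B.erase x) := fun h => by
    have := hmin' _ h
    rw [Finset.card_erase_of_mem (sB x hx)] at this
    have := Finset.card_pos.2 ⟨x, sB x hx⟩
    omega
  simp only [P, (Finset.erase_subset x B).trans hB'.1, true_and, not_forall] at n2
  obtain ⟨h, hG, hh, h1⟩ := n2
  have hx' : h x ≠ x := fun e => h1 (hB'.2 h hG fun y hy => by
    by_cases e' : y = x
    · rw [e', e]
    · apply hh
      rcases Finset.mem_union.1 hy with hy | hy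
      · exact Finset.mem_union_left _ hy
      · exact Finset.mem_union_right _ (Finset.mem_erase.2 ⟨e', hy⟩))
  refine hF x (hB'.1 (sB x hx)) _ _ (R3.of_comm gG hG hx hx' fun y y1 y2 => ?_)
  by_contra e
  exact y2 (hh y (Finset.mem_union_right _ (Finset.mem_erase.2 ⟨e, sB y y1⟩)))

theorem bochert_card (F : Finset α) (hF : ∀ x ∈ F, ∀ y z, ¬ R3 G x y z) :
    Nat.card G * ((F.card + 1) / 2).factorial ≤ (Fintype.card α).factorial := by
  classical
  obtain ⟨B, hB, h2, hb⟩ := bochert_base F hF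
  refine le_trans (Nat.mul_le_mul_left _ (Nat.factorial_le ?_)) (card_le_of_base _ hb)
  have h1 := Finset.card_union_le Fᶜ B
  rw [Finset.card_compl] at h1
  have := F.card_le_univ
  omega

/-- **Bochert**: a group without 3-cycles has index at least `((n+1)/2)!`. -/
theorem bochert (h : ∀ g ∈ G, ¬ IsThreeCycle g) :
    Nat.card G * ((Fintype.card α + 1) / 2).factorial ≤ (Fintype.card α).factorial :=
  bochert_card Finset.univ fun _ _ _ _ k => h _ k.2.2.2 (T_three k.1 k.2.1 k.2.2.1)

/-- **Bochert**, for primitive groups. -/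
theorem bochert_prim (hG : MulAction.IsPreprimitive G α) (h : ¬ alternatingGroup α ≤ G) :
    Nat.card G * ((Fintype.card α + 1) / 2).factorial ≤ (Fintype.card α).factorial :=
  bochert fun _ hg h3 => h (alternatingGroup_le_of_isPreprimitive_of_isThreeCycle_mem hG h3 hg)

end Vale.Agent.P183AL
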